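import Vale.Agent.P087.Basic

/-!
# Assembly of the P087 disproof from the pins (helper6)
-/

open scoped InnerProductSpace ENNReal
open MeasureTheory Filter

namespace Vale.Agent.P087

lemma exists_level (C : ℝ) (L0 : ℕ) : ∃ L, L0 ≤ L ∧ 1 ≤ L ∧
    5 / 2 * (Real.log 4 + ((2 * L + 2) ^ 2 : ℕ) * Real.log C) <
      79 / 1600 * ((2 : ℝ) ^ ((1 : ℝ) / 8)) ^ L := by
  set b : ℝ := (2 : ℝ) ^ ((1 : ℝ) / 8) with hb
  have hb1 : 1 < b := Real.one_lt_rpow (by norm_num) (by norm_num)
  have h2 := tendsto_pow_const_div_const_pow_of_one_lt 2 hb1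
  set K : ℝ := 5 / 2 * (Real.log 4 + 16 * |Real.log C|) + 1 with hK
  have hK0 : 0 < K := by positivity
  have h3 : ∀ᶠ L : ℕ in atTop, ((L : ℝ) ^ 2 / b ^ L) < 79 / 1600 / K :=
    h2.eventually (gt_mem_nhds (by positivity))
  obtain ⟨L, hL, hL0⟩ := (h3.and (eventually_ge_atTop (max L0 1))).exists
  refine ⟨L, le_of_max_le_left hL0, le_of_max_le_right hL0, ?_⟩
  have hbL : 0 < b ^ L := by positivity
  rw [div_lt_div_iff₀ hbL hK0] at hL
  have hL1 : (1 : ℝ) ≤ L := by exact_mod_cast le_of_max_le_right hL0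
  have hsq : ((2 * L + 2) ^ 2 : ℕ) * Real.log C ≤ 16 * (L : ℝ) ^ 2 * |Real.log C| := by
    push_cast
    calc (2 * (L : ℝ) + 2) ^ 2 * Real.log C ≤ (2 * (L : ℝ) + 2) ^ 2 * |Real.log C| :=
          mul_le_mul_of_nonneg_left (le_abs_self _) (sq_nonneg _)
      _ ≤ 16 * (L : ℝ) ^ 2 * |Real.log C| :=
          mul_le_mul_of_nonneg_right (by nlinarith) (abs_nonneg _)
  have h4 : Real.log 4 ≤ Real.log 4 * (L : ℝ) ^ 2 :=
    le_mul_of_one_le_right (Real.log_nonneg (by norm_num)) (by nlinarith)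
  calc 5 / 2 * (Real.log 4 + ((2 * L + 2) ^ 2 : ℕ) * Real.log C)
      ≤ (L : ℝ) ^ 2 * K := by nlinarith [sq_nonneg (L : ℝ)]
    _ < 79 / 1600 * b ^ L := hL

/-- big indices: the conjugates -/
def bigSet (N : ℕ) : Finset (Fin (5 + N)) := Finset.univ.map (Fin.natAddEmb 5)

lemma natAdd_mem_bigSet {N : ℕ} (i : Fin N) : Fin.natAdd 5 i ∈ bigSet N := by simp [bigSet]

lemma castAdd_not_mem_bigSet {N : ℕ} (e : Fin 5) : Fin.castAdd N e ∉ bigSet N := by
  simp only [bigSet, Finset.mem_map, not_exists, not_and]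
  intro i _ h
  have := congrArg Fin.val h
  simp at this
  omega

lemma norm_genA_vac_le {G : Type} [Group G] {κ : Type} (g : G) :
    ‖genA g (vac G κ)‖ ≤ 3 / 4 := by
  classical
  rw [genA_vac]
  refine (norm_add_le _ _).trans ?_
  rw [lp.norm_single (by norm_num), norm_smul, norm_vac]
  split_ifs <;> norm_num

lemma norm_modelX_vac_sq_le {G : Type} [Group G] {n : ℕ} (g : Fin n → G) (c : Fin n → ℝ)
    (j : Fin n) (hc : c j ≤ 1) : ‖modelX g c j (vac G (Fin n ⊕ Fin n))‖ ^ 2 ≤ 4 := by
  classical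
  have h1 : ‖genS (G := G) (Sum.inl j : Fin n ⊕ Fin n) (vac G (Fin n ⊕ Fin n))‖ = 1 := by
    rw [genS_vac, lp.norm_single (by norm_num)]; simp
  have h : ‖modelX g c j (vac G (Fin n ⊕ Fin n))‖ ≤ 2 := by
    rw [modelX, add_apply, ContinuousLinearMap.smul_apply]
    refine (norm_add_le _ _).trans ?_
    rw [norm_smul, h1, mul_one, Complex.norm_real, Real.norm_of_nonneg (Real.sqrt_nonneg _)]
    have := Real.sqrt_le_sqrt hc
    rw [Real.sqrt_one] at this
    linarith [norm_genA_vac_le (κ := Fin n ⊕ Fin n) (g j)]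
  nlinarith [norm_nonneg (modelX g c j (vac G (Fin n ⊕ Fin n)))]

theorem entropiesDiffer_of (hTr : TracePin) (hSA : SelfAdjPin) (hFree : FreenessPin)
    (hStar : ChiStarPin) (hUp : ChiUpperPin) (hDec : DecodePin) (hGrp : GroupPin)
    (hLow : ChiLowerPin) : EntropiesDiffer := by
  classical
  obtain ⟨C, hC, hdec⟩ := hDec
  obtain ⟨G, _, a, ha, hsep, L0, hL0⟩ := hGrp
  obtain ⟨L, hLL0, hL1, hlev⟩ := exists_level C L0
  obtain ⟨N, word, hN, hword, hcount⟩ := hL0 L hLL0
  set g : Fin (5 + N) → G :=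
    Fin.append (Fin.cons 1 a : Fin 5 → G) (fun q => ((word q).map a).prod) with hg
  set T : ℝ := (N : ℝ) ^ ((7 : ℝ) / 8) with hT
  set δ : ℝ := (C ^ ((2 * L + 2) ^ 2))⁻¹ with hδ
  set c : Fin (5 + N) → ℝ := Fin.append (fun _ : Fin 5 => δ) (fun _ : Fin N => T) with hc
  set d : Fin (5 + N) → ℝ := Fin.append (fun _ : Fin 5 => 4) (fun _ : Fin N => T + 1 / 800)
    with hd
  have hN1 : (1 : ℝ) ≤ N := by exact_mod_cast le_trans Nat.one_le_two_pow hN
  have hT0 : 0 < T := Real.rpow_pos_of_pos (by linarith) _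
  have hC0 : 0 < C := by linarith
  have hδ0 : 0 < δ := by positivity
  have hδ1 : δ ≤ 1 := inv_le_one_of_one_le₀ (one_le_pow₀ hC)
  -- involutions
  have hinv : ∀ j, g j * g j = 1 := by
    have hrev : ∀ l : List (Fin 4), ((l.reverse).map a).prod * (l.map a).prod = 1 := by
      intro l
      induction l with
      | nil => simp
      | cons x t ih =>
        simp only [List.reverse_cons, List.map_append, List.map_cons, List.map_nil,
          List.prod_append, List.prod_cons, List.prod_nil, mul_one]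
        rw [mul_assoc, ← mul_assoc (a x), ha, one_mul, ih]
    intro j
    induction j using Fin.addCases with
    | left e =>
      simp only [hg, Fin.append_left]
      cases e using Fin.cases with
      | zero => simp
      | succ q => simp [ha]
    | right q =>
      simp only [hg, Fin.append_right]
      have := hrev (word q)
      rwa [(hword q).2.1] at this
  have hgen : ∀ j, ∃ w : List (Fin 4), g j = (w.map a).prod := by
    intro j
    induction j using Fin.addCases with
    | left e =>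
      simp only [hg, Fin.append_left]
      cases e using Fin.cases with
      | zero => exact ⟨[], by simp⟩
      | succ q => exact ⟨[q], by simp⟩
    | right q => exact ⟨word q, by simp [hg]⟩
  have hc0 : ∀ j, 0 < c j := by
    intro j
    induction j using Fin.addCases with
    | left e => simp [hc, hδ0]
    | right q => simp [hc, hT0]
  have hd0 : ∀ j, 0 < d j := by
    intro j
    induction j using Fin.addCases with
    | left e => simp [hd]
    | right q => simp only [hd, Fin.append_right]; linarith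
  -- lower bound on chi*
  have hne : ∀ i ∈ bigSet N, g i ≠ 1 := by
    intro i hi
    simp only [bigSet, Finset.mem_map] at hi
    obtain ⟨q, -, rfl⟩ := hi
    simpa [hg] using (hword q).2.2.2
  have hcs : ∀ u, T ≤ u → ∀ i ∈ bigSet N, ∀ M, countSum g (fun j => c j + u) i M ≤ 1 := by
    intro u hu i hi M
    simp only [bigSet, Finset.mem_map] at hi
    obtain ⟨q, -, rfl⟩ := hi
    exact hcount _ (fun j => le_trans hu (by linarith [hc0 j])) q M
  obtain ⟨hfin, hint, hlower⟩ :=
    hStar G (5 + N) g c hinv hc0 (bigSet N) T 1 hT0 zero_le_one hne hcs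
  -- decoding
  have hdecode : ∀ i ∈ bigSet N, ∃ p : List (ℂ × List (Fin (5 + N))),
      (∀ cw ∈ p, ∀ j ∈ cw.2, j ∉ bigSet N) ∧
        (∀ (k : ℕ) (A : Fin (5 + N) → Matrix (Fin k) (Fin k) ℂ),
          (∀ j, (A j).IsHermitian) → (polyMat A p).IsHermitian) ∧
        IsSelfAdjoint (polyOp (modelX g c) p) ∧
        ‖(modelX g c i - polyOp (modelX g c) p) (vac G (Fin (5 + N) ⊕ Fin (5 + N)))‖ ^ 2
          ≤ d i := by
    intro i hi
    simp only [bigSet, Finset.mem_map] at hi
    obtain ⟨q, -, rfl⟩ := hi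
    obtain ⟨hw0, hw1, hw2, hw3⟩ := hword q
    obtain ⟨p, hp1, hp2, hp3, hp4⟩ := hdec G (5 + N) g c (bigSet N) (Fin.castAdd N 0)
      (Fin.natAdd 5 q) ((word q).map fun x => Fin.castAdd N x.succ) (2 * L + 1) hinv hc0
      (castAdd_not_mem_bigSet _) (by simp [hg]) (natAdd_mem_bigSet q)
      (by simpa [hg] using hw3) (by simpa using hw0) (by rw [← List.map_reverse, hw1])
      (by simpa using hw2)
      (by
        intro j hj
        obtain ⟨x, -, rfl⟩ := List.mem_map.1 hj
        exact castAdd_not_mem_bigSet _)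
      (by simp [hg, List.map_map, Function.comp_def])
      (by
        intro j hj
        induction j using Fin.addCases with
        | left e => simp [hc, hδ, show 2 * L + 1 + 1 = 2 * L + 2 by omega]
        | right r => exact absurd (natAdd_mem_bigSet r) hj)
    exact ⟨p, hp1, hp2, hp3, by simpa [hc, hd] using hp4⟩
  choose! p hp using hdecode
  -- the von Neumann algebra
  obtain ⟨M, hM, hmem⟩ := hTr G (Fin (5 + N) ⊕ Fin (5 + N))
  obtain ⟨hsaA, hsaS⟩ := hSA G (Fin (5 + N) ⊕ Fin (5 + N))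
  have hXsa : ∀ j, IsSelfAdjoint (modelX g c j) := by
    intro j
    refine (hsaA _ (hinv j)).add ?_
    exact IsSelfAdjoint.smul (by simp [IsSelfAdjoint]) (hsaS _)
  have hupper := hUp _ (5 + N) (vac G (Fin (5 + N) ⊕ Fin (5 + N))) (modelX g c) (bigSet N) p d
    norm_vac hXsa hd0 hp (by
      intro j hj
      induction j using Fin.addCases with
      | left e =>
        simp only [hd, Fin.append_left]
        exact norm_modelX_vac_sq_le g c _ (by simp [hc, hδ1])
      | right r => exact absurd (natAdd_mem_bigSet r) hj)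
  refine ⟨5 + N, _, inferInstance, inferInstance, inferInstance, M,
    vac G (Fin (5 + N) ⊕ Fin (5 + N)), modelX g c, modelS, hM, fun j => ?_, hFree G _ g c,
    hfin, hint, hLow G a ha hsep _ g c hinv hgen hc0, lt_of_le_of_lt hupper ?_⟩
  · refine ⟨?_, hXsa j, hmem (Sum.inr (Sum.inr j)), hsaS _⟩
    exact add_mem (hmem (Sum.inl (g j)))
      (M.toStarSubalgebra.smul_mem (hmem (Sum.inr (Sum.inl j))) _)
  rw [EReal.coe_lt_coe_iff]
  refine lt_of_lt_of_le ?_ hlower
  -- the arithmetic
  have hpos : ∀ x : ℝ, 0 < x →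
      Real.log (2 * Real.pi * Real.exp 1 * x) = Real.log (2 * Real.pi * Real.exp 1) + Real.log x :=
    fun x hx => Real.log_mul (by positivity) hx.ne'
  have hsum : ∀ f : Fin (5 + N) → ℝ, (∀ j, 0 < f j) →
      ∑ j, Real.log (2 * Real.pi * Real.exp 1 * f j) / 2
        = ∑ _j : Fin (5 + N), Real.log (2 * Real.pi * Real.exp 1) / 2
          + ((∑ e : Fin 5, Real.log (f (Fin.castAdd N e)) / 2)
            + ∑ r : Fin N, Real.log (f (Fin.natAdd 5 r)) / 2) := by
    intro f hf
    rw [← Fin.sum_univ_add (fun j => Real.log (f j) / 2), ← Finset.sum_add_distrib]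
    exact Finset.sum_congr rfl fun j _ => by rw [hpos _ (hf j)]; ring
  rw [hsum d hd0, hsum c hc0]
  have hgain : ∑ i ∈ bigSet N, 1 / (2 * (4 + 1) * (c i + T)) = (N : ℝ) * (1 / (20 * T)) := by
    simp only [bigSet, Finset.sum_map, Fin.natAddEmb_apply, hc, Fin.append_right, Finset.sum_const,
      Finset.card_univ, Fintype.card_fin, nsmul_eq_mul]
    ring
  rw [hgain]
  simp only [hc, hd, Fin.append_left, Fin.append_right, Finset.sum_const, Finset.card_univ,
    Fintype.card_fin, nsmul_eq_mul]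
  have hlogT : Real.log (T + 1 / 800) - Real.log T ≤ 1 / (800 * T) := by
    rw [← Real.log_div (by positivity) hT0.ne']
    refine (Real.log_le_sub_one_of_pos (by positivity)).trans_eq ?_
    field_simp; ring
  have hlogδ : Real.log δ = -(((2 * L + 2) ^ 2 : ℕ) * Real.log C) := by
    rw [hδ, Real.log_inv, Real.log_pow]
  have hNT : ((2 : ℝ) ^ ((1 : ℝ) / 8)) ^ L ≤ (N : ℝ) / T := by
    have hNsplit : (N : ℝ) / T = (N : ℝ) ^ ((1 : ℝ) / 8) := by
      rw [hT, eq_comm, eq_div_iff (ne_of_gt (Real.rpow_pos_of_pos (by linarith) _)),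
        ← Real.rpow_add (by linarith)]
      norm_num
    rw [hNsplit, ← Real.rpow_natCast, ← Real.rpow_mul (by norm_num), mul_comm,
      Real.rpow_mul (by norm_num), Real.rpow_natCast]
    exact Real.rpow_le_rpow (by positivity) (by exact_mod_cast hN) (by norm_num)
  have h1 : (N : ℝ) * ((Real.log (T + 1 / 800) - Real.log T) / 2) ≤ (N : ℝ) / T * (1 / 1600) := by
    calc (N : ℝ) * ((Real.log (T + 1 / 800) - Real.log T) / 2)
        ≤ (N : ℝ) * (1 / (800 * T) / 2) := by gcongr
      _ = (N : ℝ) / T * (1 / 1600) := by ring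
  have h2 : (N : ℝ) * (1 / (20 * T)) = (N : ℝ) / T * (1 / 20) := by ring
  push_cast
  nlinarith

end Vale.Agent.P087
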