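import Vale.Agent.P087.Pins

/-!
# Elementary facts on the operators of the model (P087)
-/

open scoped InnerProductSpace ENNReal

namespace Vale.Agent.P087

section pull

variable {α β : Type*}

lemma inner_single_one [DecidableEq α] (a : α) (v : L2 α) :
    ⟪(lp.single 2 a 1 : L2 α), v⟫_ℂ = (v : α → ℂ) a := by
  rw [lp.inner_single_left]; simp

lemma adjoint_pull (e : α ≃. β) : ContinuousLinearMap.adjoint (pull e) = pull e.symm := by
  classical
  refine ContinuousLinearMap.ext fun v => ?_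
  ext b
  rw [← inner_single_one b, ContinuousLinearMap.adjoint_inner_right, pull_single, pull_apply]
  cases e.symm b <;> simp [lp.inner_single_left]

lemma star_pull (e : α ≃. α) : star (pull e) = pull e.symm := adjoint_pull e

end pull

variable {G : Type*} [Group G] {κ : Type*}

section applyLemmas

variable (v : Fock G κ) (a b : G ⊕ κ) (r : List (G ⊕ κ))

@[simp] lemma cre_apply_nil : (cre a v : List (G ⊕ κ) → ℂ) [] = 0 := by
  simp [cre, creE]

@[simp] lemma cre_apply_cons [DecidableEq (G ⊕ κ)] :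
    (cre a v : List (G ⊕ κ) → ℂ) (b :: r) = if b = a then (v : List (G ⊕ κ) → ℂ) r else 0 := by
  by_cases h : b = a
  · subst h; simp [cre, creE]
  · simp [cre, creE, h]

@[simp] lemma ann_apply : (ann a v : List (G ⊕ κ) → ℂ) r = (v : List (G ⊕ κ) → ℂ) (a :: r) := by
  simp [ann, creE, PEquiv.symm]

@[simp] lemma gau_apply_nil (g : G) : (gau g v : List (G ⊕ κ) → ℂ) [] = 0 := by
  simp [gau, gauE]

@[simp] lemma gau_apply_inr (g : G) (x : κ) :
    (gau g v : List (G ⊕ κ) → ℂ) (Sum.inr x :: r) = 0 := by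
  simp [gau, gauE]

@[simp] lemma gau_apply_inl (g x : G) :
    (gau g v : List (G ⊕ κ) → ℂ) (Sum.inl x :: r)
      = (v : List (G ⊕ κ) → ℂ) (Sum.inl (g⁻¹ * x) :: r) := by
  simp [gau, gauE]

end applyLemmas

section singles

variable [DecidableEq (G ⊕ κ)] (a b : G ⊕ κ) (r : List (G ⊕ κ)) (z : ℂ)

lemma vac_eq : vac G κ = lp.single 2 ([] : List (G ⊕ κ)) 1 := by
  unfold vac; congr 1

lemma cre_single : cre a (lp.single 2 r z : Fock G κ) = lp.single 2 (a :: r) z := by
  rw [cre, pull_single]; simp [creE, PEquiv.symm]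

lemma ann_single_nil : ann a (lp.single 2 ([] : List (G ⊕ κ)) z : Fock G κ) = 0 := by
  rw [ann, pull_single]; simp [creE, PEquiv.symm]

lemma ann_single_cons :
    ann a (lp.single 2 (b :: r) z : Fock G κ) = if b = a then lp.single 2 r z else 0 := by
  rw [ann, pull_single]
  by_cases h : b = a
  · subst h; simp [creE, PEquiv.symm]
  · simp [creE, PEquiv.symm, h]

lemma gau_single_nil (g : G) : gau g (lp.single 2 ([] : List (G ⊕ κ)) z : Fock G κ) = 0 := by
  rw [gau, pull_single]; simp [gauE, PEquiv.symm]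

lemma gau_single_inr (g : G) (x : κ) :
    gau g (lp.single 2 (Sum.inr x :: r) z : Fock G κ) = 0 := by
  rw [gau, pull_single]; simp [gauE, PEquiv.symm]

lemma gau_single_inl (g x : G) :
    gau g (lp.single 2 (Sum.inl x :: r) z : Fock G κ) = lp.single 2 (Sum.inl (g * x) :: r) z := by
  rw [gau, pull_single]; simp [gauE, PEquiv.symm]

end singles

lemma genA_def [DecidableEq G] (g : G) : (genA g : Fock G κ →L[ℂ] Fock G κ) =
    (1 / 2 : ℂ) • (cre (Sum.inl g) + ann (Sum.inl g⁻¹)) + gau g
      + (if g = 1 then (1 / 4 : ℂ) else 0) • 1 := by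
  unfold genA; congr!

lemma genA_vac [DecidableEq (G ⊕ κ)] [DecidableEq G] (g : G) :
    genA g (vac G κ) = lp.single 2 [Sum.inl g] (1 / 2)
      + (if g = 1 then (1 / 4 : ℂ) else 0) • vac G κ := by
  rw [genA_def, vac_eq]
  split_ifs <;> simp [cre_single, ann_single_nil, gau_single_nil, ← lp.single_smul]

lemma genS_vac [DecidableEq (G ⊕ κ)] (a : κ) :
    genS a (vac G κ) = lp.single 2 [Sum.inr a] 1 := by
  rw [genS, vac_eq]; simp [cre_single, ann_single_nil]

lemma star_cre (a : G ⊕ κ) : star (cre a) = ann a := by rw [cre, star_pull, ann]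

lemma star_ann (a : G ⊕ κ) : star (ann a) = cre a := by
  rw [ann, star_pull, cre, PEquiv.symm_symm]

lemma gauE_symm (g : G) : (gauE κ g).symm = gauE κ g⁻¹ := by
  refine PEquiv.ext fun l => ?_
  rcases l with _ | ⟨x | x, t⟩ <;> simp [gauE, PEquiv.symm]

lemma star_gau (g : G) : star (gau g : Fock G κ →L[ℂ] Fock G κ) = gau g⁻¹ := by
  rw [gau, star_pull, gau, gauE_symm]

lemma star_genS (a : κ) : star (genS a : Fock G κ →L[ℂ] Fock G κ) = genS a := by
  rw [genS, star_add, star_cre, star_ann, add_comm]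

lemma star_genA (g : G) : star (genA g : Fock G κ →L[ℂ] Fock G κ) = genA g⁻¹ := by
  classical
  rw [genA_def, genA_def]
  simp only [star_add, star_smul, star_cre, star_ann, star_gau, star_one, inv_eq_one, inv_inv]
  split_ifs with h <;> simp [add_comm]

@[simp] lemma wordOp_nil {ι H : Type*} [NormedAddCommGroup H] [InnerProductSpace ℂ H]
    [CompleteSpace H] (X : ι → H →L[ℂ] H) : wordOp X [] = 1 := rfl

@[simp] lemma wordOp_cons {ι H : Type*} [NormedAddCommGroup H] [InnerProductSpace ℂ H]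
    [CompleteSpace H] (X : ι → H →L[ℂ] H) (a : ι) (w : List ι) :
    wordOp X (a :: w) = X a * wordOp X w := by simp [wordOp]

@[simp] lemma wordOp_append {ι H : Type*} [NormedAddCommGroup H] [InnerProductSpace ℂ H]
    [CompleteSpace H] (X : ι → H →L[ℂ] H) (v w : List ι) :
    wordOp X (v ++ w) = wordOp X v * wordOp X w := by simp [wordOp]

lemma norm_vac : ‖vac G κ‖ = 1 := by
  classical
  rw [vac_eq, lp.norm_single (by norm_num)]; simp

lemma norm_cre_le (a : G ⊕ κ) : ‖cre a‖ ≤ 1 := norm_pull_le _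

lemma norm_ann_le (a : G ⊕ κ) : ‖ann a‖ ≤ 1 := norm_pull_le _

lemma norm_gau_le (g : G) : ‖(gau g : Fock G κ →L[ℂ] Fock G κ)‖ ≤ 1 := norm_pull_le _

end Vale.Agent.P087
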