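import Vale.Agent.P087.MatrixModel

/-!
# Interfaces between the blocks of the P087 disproof

See notes/P087-disproof-helper6.md. Each `...Pin` is proved in its own file as
`theorem ...Pin_holds : ...Pin` (or `..._of` from earlier pins).
-/

open scoped InnerProductSpace ENNReal
open MeasureTheory Filter

namespace Vale.Agent.P087

/-- Sum over the positions of `w` of `F left letter right`. -/
noncomputable def splitSum {P : Type*} (w : List P) (F : List P → P → List P → ℂ) : ℂ :=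
  ∑ l : Fin w.length, F (w.take l) (w.get l) (w.drop (l + 1))

/-- the weighted number of words in the marks representing `g i` -/
noncomputable def countSum {G : Type*} [Group G] {n : ℕ} (g : Fin n → G) (v : Fin n → ℝ)
    (i : Fin n) (M : ℕ) : ℝ := by
  classical exact
    ∑ m ∈ Finset.range M, ∑ w : Fin m → Fin n,
      if (List.ofFn fun q => g (w q)).prod = g i then ∏ q, (v (w q))⁻¹ else 0

/-- Block 1a: the generators lie in a tracial von Neumann algebra. -/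
def TracePin : Prop :=
  ∀ (G : Type) [Group G] (κ : Type),
    ∃ M : VonNeumannAlgebra (Fock G κ),
      IsTracialVector M (vac G κ) ∧ ∀ a : G ⊕ κ, genOp a ∈ M

/-- Block 1b: self-adjointness. -/
def SelfAdjPin : Prop :=
  ∀ (G : Type) [Group G] (κ : Type),
    (∀ g : G, g * g = 1 → IsSelfAdjoint (genA (κ := κ) g)) ∧
      ∀ a : κ, IsSelfAdjoint (genS (G := G) a)

/-- Block 1c: the moment recursion in the last letter. -/
def RecursionPin : Prop :=
  ∀ (G : Type) [Group G] (κ : Type) [DecidableEq G] [DecidableEq κ] (w : List (G ⊕ κ)),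
    (∀ g : G, tau (vac G κ) (wordOp genOp (w ++ [Sum.inl g])) =
      (if g = 1 then (1 / 4 : ℂ) else 0) * tau (vac G κ) (wordOp genOp w) +
        splitSum w fun p x s => match x with
          | Sum.inl h => tau (vac G κ) (wordOp genOp (p ++ [Sum.inl (h * g)]))
              * tau (vac G κ) (wordOp genOp s)
          | Sum.inr _ => 0) ∧
    (∀ a : κ, tau (vac G κ) (wordOp genOp (w ++ [Sum.inr a])) =
        splitSum w fun p x s => if x = Sum.inr a then
          tau (vac G κ) (wordOp genOp p) * tau (vac G κ) (wordOp genOp s) else 0)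

/-- Block 2: `modelS` is a free semicircular family, free from `modelX`. -/
def FreenessPin : Prop :=
  ∀ (G : Type) [Group G] (n : ℕ) (g : Fin n → G) (c : Fin n → ℝ),
    IsFreeSemicircularFrom (vac G (Fin n ⊕ Fin n)) (modelX g c) modelS

/-- Block 3a: conjugate variables of the noisy tuple, with the orthogonality bound. -/
def ConjPin : Prop :=
  ∀ (G : Type) [Group G] (n : ℕ) (g : Fin n → G) (c : Fin n → ℝ),
    (∀ j, g j * g j = 1) → (∀ j, 0 < c j) → ∀ (u : ℝ), 0 ≤ u → ∀ i : Fin n,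
      ∃ ξ, IsConjVar (vac G (Fin n ⊕ Fin n)) (addNoise (modelX g c) modelS u) i ξ ∧
        ‖ξ‖ ^ 2 ≤ 1 / (c i + u) ∧
        (g i ≠ 1 → ∀ B : ℝ, 0 ≤ B → (∀ M, countSum g (fun j => c j + u) i M ≤ B) →
          ‖ξ‖ ^ 2 ≤ 1 / (c i + u) - 1 / ((4 + B) * (c i + u) ^ 2))

/-- Block 3b: Fisher information and the lower bound for `χ*`. -/
def ChiStarPin : Prop :=
  ∀ (G : Type) [Group G] (n : ℕ) (g : Fin n → G) (c : Fin n → ℝ),
    (∀ j, g j * g j = 1) → (∀ j, 0 < c j) → ∀ (big : Finset (Fin n)) (T B : ℝ), 0 < T → 0 ≤ B →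
      (∀ i ∈ big, g i ≠ 1) →
      (∀ u, T ≤ u → ∀ i ∈ big, ∀ M, countSum g (fun j => c j + u) i M ≤ B) →
      (∀ t : ℝ, 0 ≤ t →
          fisher (vac G (Fin n ⊕ Fin n)) (addNoise (modelX g c) modelS t) ≠ ⊤) ∧
        IntegrableOn (entropyIntegrand (vac G (Fin n ⊕ Fin n)) (modelX g c) modelS)
          (Set.Ioi 0) ∧
        (∑ j, Real.log (2 * Real.pi * Real.exp 1 * c j) / 2)
            + ∑ i ∈ big, 1 / (2 * (4 + B) * (c i + T))
          ≤ chiStar (vac G (Fin n ⊕ Fin n)) (modelX g c) modelS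

/-- Block 4a: the upper bound on `χ` from polynomial decoding. -/
def ChiUpperPin : Prop :=
  ∀ (H : Type) [NormedAddCommGroup H] [InnerProductSpace ℂ H] [CompleteSpace H]
    (n : ℕ) (Ω : H) (X : Fin n → H →L[ℂ] H) (big : Finset (Fin n))
    (p : Fin n → List (ℂ × List (Fin n))) (d : Fin n → ℝ),
    ‖Ω‖ = 1 → (∀ j, IsSelfAdjoint (X j)) → (∀ j, 0 < d j) →
    (∀ i ∈ big, (∀ cw ∈ p i, ∀ j ∈ cw.2, j ∉ big) ∧
      (∀ (k : ℕ) (A : Fin n → Matrix (Fin k) (Fin k) ℂ),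
        (∀ j, (A j).IsHermitian) → (polyMat A (p i)).IsHermitian) ∧
      IsSelfAdjoint (polyOp X (p i)) ∧ ‖(X i - polyOp X (p i)) Ω‖ ^ 2 ≤ d i) →
    (∀ j ∉ big, ‖X j Ω‖ ^ 2 ≤ d j) →
      chi Ω X ≤ ((∑ j, Real.log (2 * Real.pi * Real.exp 1 * d j) / 2 : ℝ) : EReal)

/-- Block 4b: decoding `A(l₁ ⋯ l_M)` from the nearly noiseless extra variables. -/
def DecodePin : Prop :=
  ∃ C : ℝ, 1 ≤ C ∧
    ∀ (G : Type) [Group G] (n : ℕ) (g : Fin n → G) (c : Fin n → ℝ) (big : Finset (Fin n))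
      (e : Fin n) (i : Fin n) (l : List (Fin n)) (M : ℕ),
      (∀ j, g j * g j = 1) → (∀ j, 0 < c j) → e ∉ big → g e = 1 → i ∈ big → g i ≠ 1 →
      l ≠ [] → l.reverse = l → l.length ≤ M → (∀ j ∈ l, j ∉ big) → (l.map g).prod = g i →
      (∀ j ∉ big, c j ≤ (C ^ ((M + 1) ^ 2))⁻¹) →
      ∃ p : List (ℂ × List (Fin n)), (∀ cw ∈ p, ∀ j ∈ cw.2, j ∉ big) ∧
        (∀ (k : ℕ) (A : Fin n → Matrix (Fin k) (Fin k) ℂ),
          (∀ j, (A j).IsHermitian) → (polyMat A p).IsHermitian) ∧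
        IsSelfAdjoint (polyOp (modelX g c) p) ∧
        ‖(modelX g c i - polyOp (modelX g c) p) (vac G (Fin n ⊕ Fin n))‖ ^ 2 ≤ c i + 1 / 800

/-- Block 5: the group `(ℤ/2)^{*4}`, finite separation and the word count. -/
def GroupPin : Prop :=
  ∃ (G : Type) (_ : Group G) (a : Fin 4 → G), (∀ i, a i * a i = 1) ∧
    (∀ R : ℕ, ∃ (Q : Type) (_ : Group Q) (_ : Fintype Q) (b : Fin 4 → Q), (∀ i, b i * b i = 1) ∧
      ∀ w : List (Fin 4), w.length ≤ R → ((w.map b).prod = 1 ↔ (w.map a).prod = 1)) ∧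
    ∃ L0 : ℕ, ∀ L, L0 ≤ L → ∃ (N : ℕ) (word : Fin N → List (Fin 4)), 2 ^ L ≤ N ∧
      (∀ i, word i ≠ [] ∧ (word i).reverse = word i ∧ (word i).length ≤ 2 * L + 1 ∧
        ((word i).map a).prod ≠ 1) ∧
      ∀ (v : Fin (5 + N) → ℝ), (∀ j, (N : ℝ) ^ ((7 : ℝ) / 8) ≤ v j) → ∀ (i : Fin N) (M : ℕ),
        countSum (Fin.append (Fin.cons 1 a : Fin 5 → G) fun q => ((word q).map a).prod)
          v (Fin.natAdd 5 i) M ≤ 1

/-- Block 6: the matrix moments converge in probability to those of the model over `Q`. -/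
def MomentPin : Prop :=
  ∀ (Q : Type) [Group Q] [Fintype Q] (n : ℕ) (g : Fin n → Q) (c : Fin n → ℝ),
    (∀ j, 0 ≤ c j) → ∀ (w : List (Fin n)) (ε : ℝ), 0 < ε →
      Tendsto (fun l => gaussLaw Q n l {x | ε ≤ ‖ntr (wordMat (matX g c x) w)
        - tau (vac Q (Fin n ⊕ Fin n)) (wordOp (modelX g c) w)‖}) atTop (nhds 0)

/-- Block 7a: norm bound, uniform in `Q`. -/
def NormPin : Prop :=
  ∀ (n : ℕ) (c : Fin n → ℝ), (∀ j, 0 ≤ c j) → ∃ R : ℝ, 0 < R ∧
    ∀ (Q : Type) [Group Q] [Fintype Q] (g : Fin n → Q),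
      Tendsto (fun l => gaussLaw Q n l
        {x | ∃ j, R < ‖Matrix.toEuclideanCLM (𝕜 := ℂ) (matX g c x j)‖}) atTop (nhds 0)

/-- Block 7b: `χ > -∞`. -/
def ChiLowerPin : Prop :=
  ∀ (G : Type) [Group G] (a : Fin 4 → G), (∀ i, a i * a i = 1) →
    (∀ R : ℕ, ∃ (Q : Type) (_ : Group Q) (_ : Fintype Q) (b : Fin 4 → Q), (∀ i, b i * b i = 1) ∧
      ∀ w : List (Fin 4), w.length ≤ R → ((w.map b).prod = 1 ↔ (w.map a).prod = 1)) →
    ∀ (n : ℕ) (g : Fin n → G) (c : Fin n → ℝ), (∀ j, g j * g j = 1) →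
      (∀ j, ∃ w : List (Fin 4), g j = (w.map a).prod) → (∀ j, 0 < c j) →
      ⊥ < chi (vac G (Fin n ⊕ Fin n)) (modelX g c)

end Vale.Agent.P087
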