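import Vale.Agent.P087.ChiLower.Transfer
import Vale.Agent.P087.ChiLower.Volume

/-!
# Block 7b: the microstates entropy of the model is finite (P087)
-/

open scoped ENNReal
open MeasureTheory ProbabilityTheory Filter

namespace Vale.Agent.P087

namespace ChiLower

open Matrix in
/-- the coordinates of a self-adjoint matrix -/
noncomputable def coordOf {k : ℕ} (A : Matrix (Fin k) (Fin k) ℂ) (i j : Fin k) : ℝ :=
  if i = j then (A i i).re else if i < j then √2 * (A i j).re else √2 * (A j i).im

lemma hermOf_coordOf {k : ℕ} {A : Matrix (Fin k) (Fin k) ℂ} (hA : A.IsHermitian) :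
    hermOf (coordOf A) = A := by
  have h2 : (Real.sqrt 2 : ℂ) ≠ 0 := by simp
  ext i j
  rcases lt_trichotomy i j with h | h | h
  · simp only [hermOf, coordOf, Matrix.of_apply, if_neg h.ne, if_pos h, if_neg h.ne',
      if_neg h.not_gt]
    rw [div_eq_iff h2]
    apply Complex.ext <;> simp [mul_comm]
  · subst h
    have := hA.apply i i
    simp only [hermOf, coordOf, Matrix.of_apply, if_true]
    rw [Complex.ext_iff] at this ⊢
    simp at this ⊢
    linarith
  · simp only [hermOf, coordOf, Matrix.of_apply, if_neg h.ne', if_neg h.not_gt, if_neg h.ne,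
      if_pos h]
    rw [div_eq_iff h2, ← hA.apply i j]
    apply Complex.ext <;> simp [mul_comm]

lemma hermOf_add_smul {k : ℕ} (x y : Fin k → Fin k → ℝ) (r : ℝ) :
    hermOf (fun i j => x i j + r * y i j) = hermOf x + (r : ℂ) • hermOf y := by
  ext i j
  simp only [hermOf, Matrix.of_apply, Matrix.add_apply, Matrix.smul_apply, smul_eq_mul]
  split_ifs <;> push_cast <;> ring

variable {Q : Type} [Group Q] [Fintype Q] {n l : ℕ}

omit [Fintype Q] in
lemma isHermitian_markMat {g : Q} (hg : g * g = 1) :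
    (markMat g : Matrix (Q × Fin l) (Q × Fin l) ℂ).IsHermitian := by
  have e : ∀ a b : Q, a = g * b ↔ b = g * a := fun a b =>
    ⟨fun h => by rw [h, ← mul_assoc, hg, one_mul], fun h => by rw [h, ← mul_assoc, hg, one_mul]⟩
  ext a b
  rw [Matrix.conjTranspose_apply]
  simp only [markMat, Matrix.of_apply]
  split_ifs with h1 h2 h2
  · simp
  · exact absurd ⟨(e _ _).2 h1.1, h1.2.symm⟩ h2
  · exact absurd ⟨(e _ _).2 h2.1, h2.2.symm⟩ h1
  · simp

/-- the affine map sending the Gaussian coordinates of the semicircular part to microstates -/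
noncomputable def shift (g : Fin n → Q) (u : (Q × Fin l) × Fin (msize Q l) × Bool → ℝ)
    (j : Fin n) : Fin (msize Q l) → Fin (msize Q l) → ℝ :=
  coordOf (Matrix.conjTranspose (matC (n := n) (Sum.elim u fun _ => 0)) *
    (markMat (g j) : Matrix (Q × Fin l) (Q × Fin l) ℂ) * matC (n := n) (Sum.elim u fun _ => 0))

lemma matX_eq (g : Fin n → Q) (c : Fin n → ℝ) (hg : ∀ j, g j * g j = 1)
    (u : (Q × Fin l) × Fin (msize Q l) × Bool → ℝ)
    (y : Fin n × Fin (msize Q l) × Fin (msize Q l) → ℝ) (j : Fin n) :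
    matX g c (Sum.elim u y) j =
      hermOf (fun a b => shift g u j a b + √(c j) / √(msize Q l) * y (j, a, b)) := by
  rw [hermOf_add_smul, shift,
    hermOf_coordOf (Matrix.isHermitian_conjTranspose_mul_mul _ (isHermitian_markMat (hg j)))]
  simp only [matX, matS, matC, Sum.elim_inr, Sum.elim_inl, smul_smul]
  congr 2
  push_cast
  rw [div_eq_mul_inv]

/-- The bound on `χ_R`, given that the good event is eventually more likely than not. -/
theorem le_chiR_of_good {H : Type} [NormedAddCommGroup H] [InnerProductSpace ℂ H]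
    [CompleteSpace H] (Ω : H) (X : Fin n → H →L[ℂ] H) (g : Fin n → Q) (c : Fin n → ℝ)
    (hg : ∀ j, g j * g j = 1) (hc : ∀ j, 0 < c j) (R : ℝ) (m : ℕ) (ε : ℝ)
    (hgood : ∀ᶠ l in atTop, gaussLaw Q n l {x | ¬ ((∀ j,
        ‖Matrix.toEuclideanCLM (𝕜 := ℂ) (matX g c x j)‖ ≤ R) ∧
      ∀ w : List (Fin n), 1 ≤ w.length → w.length ≤ m →
        ‖ntr (wordMat (matX g c x) w) - tau Ω (wordOp X w)‖ < ε)} ≤ 2⁻¹) :
    (((∑ j, Real.log (2 * Real.pi * c j) / 2) - Real.log 2 : ℝ) : EReal) ≤
      limsup (fun k : ℕ =>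
        ((((k : ℝ) ^ 2)⁻¹ : ℝ) : EReal) * ENNReal.log (volume (microstates Ω X R m k ε))
          + (((n : ℝ) / 2 * Real.log k : ℝ) : EReal)) atTop := by
  refine le_limsup_of_frequently_le' ?_
  have hk : Tendsto (fun l => msize Q l) atTop atTop :=
    tendsto_atTop_mono (fun l => Nat.le_mul_of_pos_left l
      (by have := Fintype.card_pos (α := Q); omega)) tendsto_id
  refine hk.frequently ((hgood.and (eventually_gt_atTop 0)).frequently.mono fun l hl => ?_)
  obtain ⟨hbad, hl0⟩ := hl
  have hk0 : 0 < msize Q l :=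
    Nat.mul_pos (Nat.mul_pos (by norm_num) Fintype.card_pos) hl0
  set r : Fin n → ℝ := fun j => √(c j) / √(msize Q l) with hr
  have hrpos : ∀ j, 0 < r j := fun j =>
    div_pos (Real.sqrt_pos.2 (hc j)) (Real.sqrt_pos.2 (by exact_mod_cast hk0))
  -- a measurable part of the good event, as a subset of a product
  set B := toMeasurable (gaussLaw Q n l) {x | ¬ ((∀ j,
        ‖Matrix.toEuclideanCLM (𝕜 := ℂ) (matX g c x j)‖ ≤ R) ∧
      ∀ w : List (Fin n), 1 ≤ w.length → w.length ≤ m →
        ‖ntr (wordMat (matX g c x) w) - tau Ω (wordOp X w)‖ < ε)} with hB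
  have hBmeas : MeasurableSet B := measurableSet_toMeasurable _ _
  have : IsProbabilityMeasure (gaussLaw Q n l) := by unfold gaussLaw; infer_instance
  have hBc : 2⁻¹ ≤ gaussLaw Q n l Bᶜ := by
    rw [measure_compl hBmeas (measure_ne_top _ _), measure_univ, hB, measure_toMeasurable]
    refine le_trans ?_ (tsub_le_tsub_left hbad 1)
    rw [ENNReal.one_sub_inv_two]
  have hmp := measurePreserving_sumPiEquivProdPi_symm
    (fun _ : Coord Q n l => gaussianReal 0 1)
  set e := (MeasurableEquiv.sumPiEquivProdPi fun _ : Coord Q n l => ℝ).symm with he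
  rw [gaussLaw, ← hmp.measure_preimage hBmeas.compl.nullMeasurableSet,
    Measure.prod_apply (e.measurable hBmeas.compl)] at hBc
  obtain ⟨u, hu⟩ : ∃ u, 2⁻¹ ≤ Measure.pi (fun _ => gaussianReal 0 1)
      (Prod.mk u ⁻¹' (e ⁻¹' Bᶜ)) := by
    have h0 : ∫⁻ u, Measure.pi (fun _ => gaussianReal 0 1) (Prod.mk u ⁻¹' (e ⁻¹' Bᶜ))
        ∂(Measure.pi fun _ => gaussianReal 0 1) ≠ ∞ := by
      refine ne_top_of_le_ne_top (b := 1) ENNReal.one_ne_top ?_
      calc _ ≤ ∫⁻ _, 1 ∂(Measure.pi fun _ => gaussianReal 0 1) :=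
            lintegral_mono fun u => prob_le_one
        _ = 1 := by simp
    obtain ⟨u, hu⟩ := exists_lintegral_le h0
    exact ⟨u, hBc.trans hu⟩
  have key : ∀ y ∈ Prod.mk u ⁻¹' (e ⁻¹' Bᶜ),
      shift g u + scale r (fun j => (hrpos j).ne') y ∈ microstates Ω X R m (msize Q l) ε := by
    intro y hy
    have hx : e (u, y) = Sum.elim u y := by
      ext i; cases i <;> simp [he, MeasurableEquiv.sumPiEquivProdPi, Equiv.sumPiEquivProdPi]
    have hgoodx : Sum.elim u y ∉ B := by rw [← hx]; exact hy
    have hgd : (∀ j, ‖Matrix.toEuclideanCLM (𝕜 := ℂ) (matX g c (Sum.elim u y) j)‖ ≤ R) ∧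
        ∀ w : List (Fin n), 1 ≤ w.length → w.length ≤ m →
          ‖ntr (wordMat (matX g c (Sum.elim u y)) w) - tau Ω (wordOp X w)‖ < ε :=
      not_not.1 fun h => hgoodx (subset_toMeasurable _ _ h)
    have hfun : matX g c (Sum.elim u y) =
        fun j => hermOf ((shift g u + scale r (fun j => (hrpos j).ne') y) j) := by
      funext j
      rw [matX_eq g c hg]
      rfl
    rw [hfun] at hgd
    exact hgd
  have hvol := volume_lower r hrpos (shift g u) _ _ hu key
  have hpos : 0 < 2⁻¹ * √(2 * Real.pi) ^ (n * (msize Q l * msize Q l)) *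
      ∏ j, r j ^ (msize Q l * msize Q l) := by
    have : 0 < ∏ j, r j ^ (msize Q l * msize Q l) :=
      Finset.prod_pos fun j _ => pow_pos (hrpos j) _
    positivity
  have hlog := ENNReal.log_le_log hvol
  rw [ENNReal.log_ofReal_of_pos hpos] at hlog
  refine le_trans ?_ (add_le_add (mul_le_mul_of_nonneg_left hlog
    (EReal.coe_nonneg.2 (by positivity))) le_rfl)
  rw [← EReal.coe_mul, ← EReal.coe_add, EReal.coe_le_coe_iff]
  exact log_volume_const c hc hk0

end ChiLower

open ChiLower in
/-- Block 7b from the earlier pins. -/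
theorem chiLowerPin_of (hmom : MomentPin) (hnorm : NormPin) (hrec : RecursionPin) :
    ChiLowerPin := by
  intro G _ a _ hsep n g c hg hword hc
  obtain ⟨word, hw⟩ := Classical.skolem.1 hword
  obtain ⟨R, hR0, hR⟩ := hnorm n c fun j => (hc j).le
  refine lt_of_lt_of_le (EReal.bot_lt_coe
    ((∑ j, Real.log (2 * Real.pi * c j) / 2) - Real.log 2))
    (le_trans ?_ (le_iSup₂ (f := fun R (_ : (0 : ℝ) < R) =>
      chiR (vac G (Fin n ⊕ Fin n)) (modelX g c) R) R hR0))
  refine le_iInf fun m => le_iInf fun ε => le_iInf fun hε => ?_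
  set L := Finset.univ.sup fun j => (word j).length
  obtain ⟨Q, _, _, b, -, hb⟩ := hsep (L * (m + 2))
  have hgQ : ∀ j, ((word j).map b).prod * ((word j).map b).prod = 1 := by
    intro j
    have hL : (word j).length ≤ L :=
      Finset.le_sup (f := fun j => (word j).length) (Finset.mem_univ j)
    have h2 := (hb (word j ++ word j) (by
      rw [List.length_append]
      nlinarith)).2 (by simp [← hw, hg])
    simpa using h2
  refine le_chiR_of_good _ _ (fun j => ((word j).map b).prod) c hgQ hc R m ε ?_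
  obtain ⟨W, hW⟩ : ∃ W : Finset (List (Fin n)), ∀ w, w ∈ W ↔ w.length ≤ m :=
    ⟨(List.finite_length_le (Fin n) m).toFinset, fun w => by simp⟩
  have htend : Tendsto (fun l =>
      (∑ w ∈ W, gaussLaw Q n l {x | ε ≤ ‖ntr (wordMat (matX (fun j => ((word j).map b).prod) c x) w)
        - tau (vac Q (Fin n ⊕ Fin n))
            (wordOp (modelX (fun j => ((word j).map b).prod) c) w)‖}) +
      gaussLaw Q n l {x | ∃ j,
        R < ‖Matrix.toEuclideanCLM (𝕜 := ℂ) (matX (fun j => ((word j).map b).prod) c x j)‖})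
      atTop (nhds 0) := by
    simpa using (tendsto_finsetSum W fun w _ =>
      hmom Q n (fun j => ((word j).map b).prod) c (fun j => (hc j).le) w ε hε).add
        (hR Q fun j => ((word j).map b).prod)
  refine (htend.eventually_le_const (by norm_num : (0 : ℝ≥0∞) < 2⁻¹)).mono fun l hl =>
    le_trans (le_trans (measure_mono ?_) ((measure_union_le _ _).trans
      (add_le_add (measure_biUnion_finset_le W _) le_rfl))) hl
  intro x hx
  simp only [Set.mem_ofPred_eq, not_and_or, not_forall, not_le, not_lt] at hx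
  rcases hx with ⟨j, hj⟩ | ⟨w, h1, h2, h3⟩
  · exact Or.inr ⟨j, hj⟩
  · refine Or.inl (Set.mem_biUnion ((hW w).2 h2) ?_)
    have hgj : g = fun j => ((word j).map a).prod := funext hw
    rw [hgj, tau_modelX_eq hrec a b (L * (m + 2)) L hb word
      (fun j => Finset.le_sup (f := fun j => (word j).length) (Finset.mem_univ j)) c w
      (Nat.mul_le_mul_left L (by omega))] at h3
    exact h3

end Vale.Agent.P087
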