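import Vale.Agent.P087.Basic

/-!
# Block 3b of the P087 disproof: Fisher information along the noise and the bound for `χ*`
-/

open scoped InnerProductSpace ENNReal
open MeasureTheory Filter Finset

namespace Vale.Agent.P087.ChiStarBlock

section general

variable {H : Type*} [NormedAddCommGroup H] [InnerProductSpace ℂ H] [CompleteSpace H] {n : ℕ}

/-- the polynomial vector with coefficients `p` -/
noncomputable def polyVec (Ω : H) (X : Fin n → H →L[ℂ] H) (p : List (Fin n) →₀ ℂ) : H :=
  ∑ w ∈ p.support, p w • wordOp X w Ω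

/-- the value of a conjugate variable on the polynomial vector -/
noncomputable def polyDq (Ω : H) (X : Fin n → H →L[ℂ] H) (j : Fin n) (p : List (Fin n) →₀ ℂ) :
    ℂ :=
  ∑ w ∈ p.support, p w * dqValue Ω X j w

/-- the variational form of the squared norm of a conjugate variable -/
noncomputable def fisherSup (Ω : H) (X : Fin n → H →L[ℂ] H) (j : Fin n) : ℝ≥0∞ :=
  ⨆ p : List (Fin n) →₀ ℂ,
    ENNReal.ofReal (2 * (polyDq Ω X j p).re - ‖polyVec Ω X p‖ ^ 2)

lemma inner_polyVec {Ω ξ : H} {X : Fin n → H →L[ℂ] H} {j : Fin n}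
    (h : IsConjVar Ω X j ξ) (p : List (Fin n) →₀ ℂ) :
    ⟪ξ, polyVec Ω X p⟫_ℂ = polyDq Ω X j p := by
  unfold polyVec polyDq
  rw [inner_sum]
  exact Finset.sum_congr rfl fun w _ => by rw [inner_smul_right, h.2 w]

lemma norm_eq_fisherSup {Ω ξ : H} {X : Fin n → H →L[ℂ] H} {j : Fin n}
    (h : IsConjVar Ω X j ξ) : ENNReal.ofReal (‖ξ‖ ^ 2) = fisherSup Ω X j := by
  have key : ∀ p, 2 * (polyDq Ω X j p).re - ‖polyVec Ω X p‖ ^ 2
      = ‖ξ‖ ^ 2 - ‖ξ - polyVec Ω X p‖ ^ 2 := by
    intro p
    rw [norm_sub_sq (𝕜 := ℂ), inner_polyVec h p]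
    simp only [RCLike.re_to_complex]
    ring
  have hmem : ∀ p, polyVec Ω X p ∈ Submodule.span ℂ (Set.range fun w => wordOp X w Ω) :=
    fun p => Submodule.sum_mem _ fun w _ =>
      Submodule.smul_mem _ _ (Submodule.subset_span ⟨w, rfl⟩)
  refine le_antisymm ?_ (iSup_le fun p => ENNReal.ofReal_le_ofReal ?_)
  · refine ENNReal.le_of_forall_pos_le_add fun ε hε _ => ?_
    obtain ⟨δ, hδ, hδε⟩ : ∃ δ : ℝ, 0 < δ ∧ δ ^ 2 ≤ (ε : ℝ) :=
      ⟨Real.sqrt ε, Real.sqrt_pos.2 (by exact_mod_cast hε), by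
        rw [Real.sq_sqrt ε.coe_nonneg]⟩
    have hcl : ξ ∈ closure ((Submodule.span ℂ (Set.range fun w => wordOp X w Ω) : Set H)) := by
      have := h.1
      rw [cyclicSpace, ← SetLike.mem_coe, Submodule.topologicalClosure_coe] at this
      exact this
    obtain ⟨v, hv, hvd⟩ := Metric.mem_closure_iff.1 hcl δ hδ
    obtain ⟨p, hp⟩ := Finsupp.mem_span_range_iff_exists_finsupp.1 hv
    have hpv : polyVec Ω X p = v := hp
    rw [dist_eq_norm] at hvd
    have h1 : ‖ξ‖ ^ 2 ≤ (2 * (polyDq Ω X j p).re - ‖polyVec Ω X p‖ ^ 2) + (ε : ℝ) := by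
      rw [key p, hpv]
      have := pow_le_pow_left₀ (norm_nonneg _) hvd.le 2
      linarith
    refine le_trans (ENNReal.ofReal_le_ofReal h1) (le_trans ENNReal.ofReal_add_le ?_)
    refine add_le_add (le_iSup (fun q => ENNReal.ofReal
      (2 * (polyDq Ω X j q).re - ‖polyVec Ω X q‖ ^ 2)) p) (le_of_eq (ENNReal.ofReal_coe_nnreal))
  · rw [key p]
    linarith [sq_nonneg ‖ξ - polyVec Ω X p‖]

lemma fisher_eq {Ω : H} {X : Fin n → H →L[ℂ] H} (h : ∀ j, ∃ ξ, IsConjVar Ω X j ξ) :
    fisher Ω X = ∑ j, fisherSup Ω X j := by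
  unfold fisher
  refine Finset.sum_congr rfl fun j _ => ?_
  obtain ⟨ξ, hξ⟩ := h j
  exact le_antisymm (iInf₂_le_of_le ξ hξ (norm_eq_fisherSup hξ).le)
    (le_iInf₂ fun η hη => (norm_eq_fisherSup hη).ge)

lemma continuous_wordOp (X S : Fin n → H →L[ℂ] H) (w : List (Fin n)) :
    Continuous fun t : ℝ => wordOp (addNoise X S t) w := by
  induction w with
  | nil => simpa using continuous_const
  | cons a w ih =>
    simp only [wordOp_cons]
    refine Continuous.mul ?_ ih
    unfold addNoise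
    exact continuous_const.add ((Complex.continuous_ofReal.comp Real.continuous_sqrt).smul
      continuous_const)

lemma continuous_wordVec (Ω : H) (X S : Fin n → H →L[ℂ] H) (w : List (Fin n)) :
    Continuous fun t : ℝ => wordOp (addNoise X S t) w Ω :=
  (ContinuousLinearMap.apply ℂ H Ω).continuous.comp (continuous_wordOp X S w)

lemma continuous_dqValue (Ω : H) (X S : Fin n → H →L[ℂ] H) (j : Fin n) (w : List (Fin n)) :
    Continuous fun t : ℝ => dqValue Ω (addNoise X S t) j w := by
  unfold dqValue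
  refine continuous_finsetSum _ fun l _ => ?_
  have ht : ∀ v, Continuous fun t : ℝ => tau Ω (wordOp (addNoise X S t) v) := fun v =>
    Continuous.inner continuous_const (continuous_wordVec Ω X S v)
  split_ifs
  · exact (ht _).mul (ht _)
  · exact continuous_const

lemma measurable_fisherSup (Ω : H) (X S : Fin n → H →L[ℂ] H) (j : Fin n) :
    Measurable fun t : ℝ => fisherSup Ω (addNoise X S t) j := by
  refine LowerSemicontinuous.measurable (lowerSemicontinuous_iSup fun p => ?_)
  refine Continuous.lowerSemicontinuous (ENNReal.continuous_ofReal.comp ?_)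
  refine Continuous.sub (continuous_const.mul (Complex.continuous_re.comp ?_)) (Continuous.pow ?_ 2)
  · exact continuous_finsetSum _ fun w _ =>
      continuous_const.mul (continuous_dqValue Ω X S j w)
  · exact (continuous_finsetSum _ fun w _ =>
      (continuous_wordVec Ω X S w).const_smul (p w)).norm

end general

section model

variable {G : Type} [Group G] {n : ℕ}

/-- the squared length of `X_j Ω` -/
noncomputable def secMom (g : Fin n → G) (c : Fin n → ℝ) (j : Fin n) : ℝ :=
  ‖modelX g c j (vac G (Fin n ⊕ Fin n))‖ ^ 2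

lemma norm_noisy (g : Fin n → G) (c : Fin n → ℝ) {t : ℝ} (ht : 0 ≤ t) (j : Fin n) :
    ‖addNoise (modelX g c) modelS t j (vac G (Fin n ⊕ Fin n))‖ ^ 2 = secMom g c j + t := by
  classical
  have hS : modelS j (vac G (Fin n ⊕ Fin n))
      = lp.single 2 [Sum.inr (Sum.inr j)] (1 : ℂ) := genS_vac _
  have hcross : ⟪(lp.single 2 [Sum.inr (Sum.inr j)] (1 : ℂ) : Fock G (Fin n ⊕ Fin n)),
      modelX g c j (vac G (Fin n ⊕ Fin n))⟫_ℂ = 0 := by
    rw [modelX, ContinuousLinearMap.add_apply, ContinuousLinearMap.smul_apply, genA_vac, genS_vac,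
      vac_eq, inner_add_right, inner_add_right, inner_smul_right, inner_smul_right]
    simp only [inner_single_one, lp.single_apply]
    simp [Pi.single_apply]
  unfold secMom addNoise
  rw [ContinuousLinearMap.add_apply, ContinuousLinearMap.smul_apply, hS, norm_add_sq (𝕜 := ℂ),
    inner_smul_right, ← inner_conj_symm, hcross, norm_smul, lp.norm_single (by norm_num)]
  simp [Real.sq_sqrt ht, Real.norm_eq_abs, abs_of_nonneg (Real.sqrt_nonneg t)]

lemma conj_lower (g : Fin n → G) (c : Fin n → ℝ) {t : ℝ} (ht : 0 ≤ t) (j : Fin n)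
    {ξ : Fock G (Fin n ⊕ Fin n)}
    (h : IsConjVar (vac G (Fin n ⊕ Fin n)) (addNoise (modelX g c) modelS t) j ξ) :
    1 ≤ ‖ξ‖ ^ 2 * (secMom g c j + t) := by
  have h1 := h.2 [j]
  have hdq : dqValue (vac G (Fin n ⊕ Fin n)) (addNoise (modelX g c) modelS t) j [j] = 1 := by
    simp [dqValue, tau, inner_self_eq_norm_sq_to_K, norm_vac]
  rw [hdq] at h1
  have h2 := norm_inner_le_norm (𝕜 := ℂ) ξ
    (wordOp (addNoise (modelX g c) modelS t) [j] (vac G (Fin n ⊕ Fin n)))
  rw [h1, norm_one] at h2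
  have h3 : wordOp (addNoise (modelX g c) modelS t) [j] (vac G (Fin n ⊕ Fin n))
      = addNoise (modelX g c) modelS t j (vac G (Fin n ⊕ Fin n)) := by simp
  rw [h3] at h2
  have h4 := pow_le_pow_left₀ zero_le_one h2 2
  rw [one_pow, mul_pow, norm_noisy g c ht j] at h4
  exact h4

/-- the Fisher summand as a real function of the noise level -/
noncomputable def phi (g : Fin n → G) (c : Fin n → ℝ) (j : Fin n) (t : ℝ) : ℝ :=
  (fisherSup (vac G (Fin n ⊕ Fin n)) (addNoise (modelX g c) modelS t) j).toReal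

lemma phi_eq (g : Fin n → G) (c : Fin n → ℝ) {t : ℝ} {j : Fin n} {ξ : Fock G (Fin n ⊕ Fin n)}
    (h : IsConjVar (vac G (Fin n ⊕ Fin n)) (addNoise (modelX g c) modelS t) j ξ) :
    phi g c j t = ‖ξ‖ ^ 2 := by
  rw [phi, ← norm_eq_fisherSup h, ENNReal.toReal_ofReal (sq_nonneg _)]

end model

section calculus

lemma hasDerivAt_logdiff {a t : ℝ} (ha : 0 < a) (ht : 0 ≤ t) :
    HasDerivAt (fun x => Real.log (1 + x) - Real.log (a + x)) ((1 + t)⁻¹ - (a + t)⁻¹) t := by
  have h1 := ((hasDerivAt_id t).const_add 1).log (by simp only [id]; linarith)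
  have h2 := ((hasDerivAt_id t).const_add a).log (by simp only [id]; linarith)
  simpa [one_div, Pi.sub_def] using h1.sub h2

lemma tendsto_logdiff {a : ℝ} (ha : 0 < a) :
    Tendsto (fun x => Real.log (1 + x) - Real.log (a + x)) atTop (nhds 0) := by
  have h0 : Tendsto (fun x : ℝ => 1 + (1 - a) * (a + x)⁻¹) atTop (nhds 1) := by
    simpa using ((tendsto_inv_atTop_zero.comp
      (tendsto_atTop_add_const_left atTop a tendsto_id)).const_mul (1 - a)).const_add (1 : ℝ)
  have h1 := (Real.continuousAt_log one_ne_zero).tendsto.comp h0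
  rw [Real.log_one] at h1
  refine h1.congr' ?_
  filter_upwards [eventually_ge_atTop (0 : ℝ)] with x hx
  simp only [Function.comp]
  have hax : a + x ≠ 0 := by linarith
  rw [show 1 + (1 - a) * (a + x)⁻¹ = (1 + x) / (a + x) by field_simp; ring,
    Real.log_div (by linarith) hax]

lemma integrable_logdiff {a : ℝ} (ha : 0 < a) :
    IntegrableOn (fun t => (1 + t)⁻¹ - (a + t)⁻¹) (Set.Ioi 0) := by
  rcases le_total 1 a with h | h
  · exact integrableOn_Ioi_deriv_of_nonneg' (fun x hx => hasDerivAt_logdiff ha hx)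
      (fun x hx => sub_nonneg.2 (inv_anti₀ (by linarith [Set.mem_Ioi.1 hx]) (by linarith)))
      (tendsto_logdiff ha)
  · have h1 := integrableOn_Ioi_deriv_of_nonneg' (g := fun x => -(Real.log (1 + x) - Real.log (a + x)))
      (g' := fun x => -((1 + x)⁻¹ - (a + x)⁻¹)) (a := 0)
      (fun x hx => (hasDerivAt_logdiff ha hx).neg)
      (fun x hx => by
        rw [neg_nonneg, sub_nonpos]
        exact inv_anti₀ (by linarith [Set.mem_Ioi.1 hx]) (by linarith))
      (tendsto_logdiff ha).neg
    exact h1.neg.congr_fun (fun x _ => by simp) measurableSet_Ioi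

lemma integral_logdiff {a : ℝ} (ha : 0 < a) :
    ∫ t in Set.Ioi (0 : ℝ), ((1 + t)⁻¹ - (a + t)⁻¹) = Real.log a := by
  rw [integral_Ioi_of_hasDerivAt_of_tendsto' (fun x hx => hasDerivAt_logdiff ha hx)
    (integrable_logdiff ha) (tendsto_logdiff ha)]
  simp

lemma hasDerivAt_gain {a t : ℝ} (hat : a + t ≠ 0) :
    HasDerivAt (fun x => -(a + x)⁻¹) (((a + t) ^ 2)⁻¹) t := by
  have h := (((hasDerivAt_id t).const_add a).inv (by simpa using hat)).neg
  simpa [neg_div, Pi.neg_def, Pi.inv_def] using h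

lemma tendsto_gain (a : ℝ) : Tendsto (fun x : ℝ => -(a + x)⁻¹) atTop (nhds 0) := by
  simpa using (tendsto_inv_atTop_zero.comp
    (tendsto_atTop_add_const_left atTop a tendsto_id)).neg

lemma gain_integral {a T : ℝ} (haT : 0 < a + T) :
    IntegrableOn (fun t => ((a + t) ^ 2)⁻¹) (Set.Ioi T) ∧
      ∫ t in Set.Ioi T, ((a + t) ^ 2)⁻¹ = (a + T)⁻¹ := by
  have hd : ∀ x ∈ Set.Ici T, HasDerivAt (fun y => -(a + y)⁻¹) (((a + x) ^ 2)⁻¹) x :=
    fun x hx => hasDerivAt_gain (by linarith [Set.mem_Ici.1 hx])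
  have h1 := integrableOn_Ioi_deriv_of_nonneg' hd (fun x _ => inv_nonneg.2 (sq_nonneg _))
    (tendsto_gain a)
  refine ⟨h1, ?_⟩
  rw [integral_Ioi_of_hasDerivAt_of_tendsto' hd h1 (tendsto_gain a)]
  simp

end calculus

end Vale.Agent.P087.ChiStarBlock

namespace Vale.Agent.P087

open ChiStarBlock

/-- Block 3b, from the conjugate variables of Block 3a. -/
theorem chiStarPin_of (hconj : ConjPin) : ChiStarPin := by
  classical
  intro G _ n g c hg hc big T B hT hB hne hcount
  have hex : ∀ t, 0 ≤ t → ∀ j, ∃ ξ,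
      IsConjVar (vac G (Fin n ⊕ Fin n)) (addNoise (modelX g c) modelS t) j ξ := fun t ht j => by
    obtain ⟨ξ, h1, -, -⟩ := hconj G n g c hg hc t ht j
    exact ⟨ξ, h1⟩
  have hfis : ∀ t, 0 ≤ t →
      fisher (vac G (Fin n ⊕ Fin n)) (addNoise (modelX g c) modelS t)
        = ∑ j, fisherSup (vac G (Fin n ⊕ Fin n)) (addNoise (modelX g c) modelS t) j :=
    fun t ht => fisher_eq (hex t ht)
  have hfin : ∀ t, 0 ≤ t → ∀ j,
      fisherSup (vac G (Fin n ⊕ Fin n)) (addNoise (modelX g c) modelS t) j ≠ ⊤ := fun t ht j => by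
    obtain ⟨ξ, hξ⟩ := hex t ht j
    rw [← norm_eq_fisherSup hξ]
    exact ENNReal.ofReal_ne_top
  have htoReal : ∀ t, 0 ≤ t →
      (fisher (vac G (Fin n ⊕ Fin n)) (addNoise (modelX g c) modelS t)).toReal
        = ∑ j, phi g c j t := fun t ht => by
    rw [hfis t ht, ENNReal.toReal_sum fun j _ => hfin t ht j]
    rfl
  have hupper : ∀ t, 0 ≤ t → ∀ j, phi g c j t ≤ (c j + t)⁻¹ := fun t ht j => by
    obtain ⟨ξ, h1, h2, -⟩ := hconj G n g c hg hc t ht j
    rw [phi_eq g c h1, ← one_div]
    exact h2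
  have hgain : ∀ t, T ≤ t → ∀ j ∈ big,
      phi g c j t ≤ (c j + t)⁻¹ - (4 + B)⁻¹ * ((c j + t) ^ 2)⁻¹ := fun t ht j hj => by
    obtain ⟨ξ, h1, -, h3⟩ := hconj G n g c hg hc t (hT.le.trans ht) j
    rw [phi_eq g c h1]
    refine le_trans (h3 (hne j hj) B hB (hcount t ht j hj)) (le_of_eq ?_)
    rw [one_div, one_div, mul_inv]
  have hK : ∀ j, 0 < secMom g c j := fun j => by
    obtain ⟨ξ, hξ⟩ := hex 0 le_rfl j
    have h := conj_lower g c le_rfl j hξ
    rw [add_zero] at h
    by_contra hh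
    nlinarith [sq_nonneg ‖ξ‖]
  have hlower : ∀ t, 0 ≤ t → ∀ j, (secMom g c j + t)⁻¹ ≤ phi g c j t := fun t ht j => by
    obtain ⟨ξ, hξ⟩ := hex t ht j
    rw [phi_eq g c hξ, inv_le_iff_one_le_mul₀ (by linarith [hK j])]
    exact conj_lower g c ht j hξ
  have hint : ∀ j, IntegrableOn (fun t => (1 + t)⁻¹ - phi g c j t) (Set.Ioi 0) := by
    intro j
    refine Integrable.mono' ((integrable_logdiff (hc j)).norm.add (integrable_logdiff (hK j)).norm)
      ?_ ?_
    · refine Measurable.aestronglyMeasurable (Measurable.sub ?_ ?_)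
      · exact (measurable_id.const_add 1).inv
      · exact (measurable_fisherSup _ _ _ j).ennreal_toReal
    · refine (ae_restrict_iff' measurableSet_Ioi).2 (Eventually.of_forall fun t ht => ?_)
      have h1 := hupper t (Set.mem_Ioi.1 ht).le j
      have h2 := hlower t (Set.mem_Ioi.1 ht).le j
      simp only [Pi.add_apply, Real.norm_eq_abs]
      rw [abs_le]
      have a1 := neg_abs_le ((1 + t)⁻¹ - (c j + t)⁻¹)
      have a2 := le_abs_self ((1 + t)⁻¹ - (secMom g c j + t)⁻¹)
      have a3 := abs_nonneg ((1 + t)⁻¹ - (c j + t)⁻¹)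
      have a4 := abs_nonneg ((1 + t)⁻¹ - (secMom g c j + t)⁻¹)
      constructor <;> linarith
  have heq : Set.EqOn (entropyIntegrand (vac G (Fin n ⊕ Fin n)) (modelX g c) modelS)
      (fun t => ∑ j, ((1 + t)⁻¹ - phi g c j t)) (Set.Ioi 0) := fun t ht => by
    simp only [entropyIntegrand]
    rw [htoReal t (Set.mem_Ioi.1 ht).le, Finset.sum_sub_distrib]
    simp [div_eq_mul_inv]
  refine ⟨fun t ht => ?_, ?_, ?_⟩
  · rw [hfis t ht]
    exact ENNReal.sum_ne_top.2 fun j _ => hfin t ht j
  · exact IntegrableOn.congr_fun (integrable_finsetSum _ fun j _ => hint j) heq.symm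
      measurableSet_Ioi
  · unfold chiStar
    rw [setIntegral_congr_fun measurableSet_Ioi heq, integral_finsetSum _ fun j _ => hint j]
    have hone : ∀ j, Real.log (c j) +
        (if j ∈ big then (4 + B)⁻¹ * (c j + T)⁻¹ else 0)
        ≤ ∫ t in Set.Ioi (0 : ℝ), ((1 + t)⁻¹ - phi g c j t) := by
      intro j
      by_cases hj : j ∈ big
      · rw [if_pos hj]
        obtain ⟨i1, e1⟩ := gain_integral (a := c j) (T := T) (by linarith [hc j])
        have i2 : IntegrableOn
            ((Set.Ioi T).indicator fun t => (4 + B)⁻¹ * ((c j + t) ^ 2)⁻¹) (Set.Ioi 0) := by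
          rw [IntegrableOn, integrable_indicator_iff measurableSet_Ioi, IntegrableOn,
            Measure.restrict_restrict measurableSet_Ioi,
            Set.inter_eq_left.2 (Set.Ioi_subset_Ioi hT.le)]
          exact i1.const_mul _
        calc Real.log (c j) + (4 + B)⁻¹ * (c j + T)⁻¹
            = ∫ t in Set.Ioi (0 : ℝ), (((1 + t)⁻¹ - (c j + t)⁻¹)
                + (Set.Ioi T).indicator (fun t => (4 + B)⁻¹ * ((c j + t) ^ 2)⁻¹) t) := by
              rw [integral_add (integrable_logdiff (hc j)) i2, integral_logdiff (hc j),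
                setIntegral_indicator measurableSet_Ioi,
                Set.inter_eq_right.2 (Set.Ioi_subset_Ioi hT.le), integral_const_mul, e1]
          _ ≤ _ := by
              refine setIntegral_mono_on ((integrable_logdiff (hc j)).add i2) (hint j)
                measurableSet_Ioi fun t ht => ?_
              by_cases htT : t ∈ Set.Ioi T
              · rw [Set.indicator_of_mem htT]
                linarith [hgain t (Set.mem_Ioi.1 htT).le j hj]
              · rw [Set.indicator_of_notMem htT]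
                linarith [hupper t (Set.mem_Ioi.1 ht).le j]
      · rw [if_neg hj, add_zero, ← integral_logdiff (hc j)]
        refine setIntegral_mono_on (integrable_logdiff (hc j)) (hint j) measurableSet_Ioi
          fun t ht => ?_
        linarith [hupper t (Set.mem_Ioi.1 ht).le j]
    have hsum := Finset.sum_le_sum fun j (_ : j ∈ (Finset.univ : Finset (Fin n))) => hone j
    rw [Finset.sum_add_distrib, Finset.sum_ite_mem, Finset.univ_inter] at hsum
    have e1 : ∑ j, Real.log (2 * Real.pi * Real.exp 1 * c j) / 2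
        = (n : ℝ) / 2 * Real.log (2 * Real.pi * Real.exp 1) + (1 / 2) * ∑ j, Real.log (c j) := by
      rw [Finset.mul_sum]
      have : ∀ j, Real.log (2 * Real.pi * Real.exp 1 * c j) / 2
          = Real.log (2 * Real.pi * Real.exp 1) / 2 + 1 / 2 * Real.log (c j) := fun j => by
        rw [Real.log_mul (by positivity) (hc j).ne']
        ring
      rw [Finset.sum_congr rfl fun j _ => this j, Finset.sum_add_distrib]
      simp
      ring
    have e2 : ∑ i ∈ big, 1 / (2 * (4 + B) * (c i + T))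
        = (1 / 2) * ∑ i ∈ big, (4 + B)⁻¹ * (c i + T)⁻¹ := by
      rw [Finset.mul_sum]
      refine Finset.sum_congr rfl fun i _ => ?_
      rw [one_div, mul_inv, mul_inv]
      ring
    rw [e1, e2]
    linarith

end Vale.Agent.P087
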