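import Mathlib

/-!
# P087, block 4b: the decoding polynomials
-/

namespace Vale.Agent.P087.Decode

variable {ι : Type*} {R : Type*} [Ring R] [Algebra ℂ R]

/-- Evaluation of a list of coefficients and words. -/
noncomputable def pev (X : ι → R) (p : List (ℂ × List ι)) : R :=
  (p.map fun cw => cw.1 • (cw.2.map X).prod).sum

/-- The product of two lists of coefficients and words. -/
noncomputable def pmul (p p' : List (ℂ × List ι)) : List (ℂ × List ι) :=
  p.flatMap fun a => p'.map fun b => (a.1 * b.1, a.2 ++ b.2)

theorem pev_nil (X : ι → R) : pev X [] = 0 := rfl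

theorem pev_cons (X : ι → R) (a : ℂ × List ι) (p : List (ℂ × List ι)) :
    pev X (a :: p) = a.1 • (a.2.map X).prod + pev X p := rfl

theorem pev_append (X : ι → R) (p p' : List (ℂ × List ι)) :
    pev X (p ++ p') = pev X p + pev X p' := by simp [pev]

theorem pev_pmul (X : ι → R) (p p' : List (ℂ × List ι)) :
    pev X (pmul p p') = pev X p * pev X p' := by
  induction p with
  | nil => simp [pmul, pev]
  | cons a p ih =>
    have h : ∀ q : List (ℂ × List ι), pev X (q.map fun b => (a.1 * b.1, a.2 ++ b.2)) =
        (a.1 • (a.2.map X).prod) * pev X q := by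
      intro q
      induction q with
      | nil => simp [pev]
      | cons b q ih' =>
        rw [List.map_cons, pev_cons, pev_cons, ih', mul_add]
        simp [smul_smul, mul_comm a.1]
    rw [show pmul (a :: p) p' = (p'.map fun b => (a.1 * b.1, a.2 ++ b.2)) ++ pmul p p' from rfl,
      pev_append, h, ih, pev_cons, add_mul]

/-- The truncated inverse: the sum of the first `D` powers of `1 - κ x`, times `κ = 4/5`. -/
noncomputable def qv : ℕ → R → R
  | 0, _ => 0
  | D + 1, x => (4 / 5 : ℂ) • (1 : R) + (1 - (4 / 5 : ℂ) • x) * qv D x

/-- The same as a list. -/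
noncomputable def qP (e : ι) : ℕ → List (ℂ × List ι)
  | 0 => []
  | D + 1 => ((4 / 5 : ℂ), []) :: pmul [(1, []), (-(4 / 5 : ℂ), [e])] (qP e D)

theorem pev_qP (X : ι → R) (e : ι) (D : ℕ) : pev X (qP e D) = qv D (X e) := by
  induction D with
  | zero => rfl
  | succ D ih =>
    rw [qP, pev_cons, pev_pmul, ih, qv, pev_cons, pev_cons, pev_nil]
    simp [sub_eq_add_neg]

theorem commute_qv (D : ℕ) (x : R) : Commute x (qv D x) := by
  induction D with
  | zero => exact Commute.zero_right x
  | succ D ih =>
    exact (((Commute.one_right x).smul_right _).add_right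
      (((Commute.one_right x).sub_right ((Commute.refl x).smul_right _)).mul_right ih))

theorem one_sub_mul_qv (D : ℕ) (x : R) : 1 - x * qv D x = (1 - (4 / 5 : ℂ) • x) ^ D := by
  induction D with
  | zero => simp [qv]
  | succ D ih =>
    have hc : x * (1 - (4 / 5 : ℂ) • x) = (1 - (4 / 5 : ℂ) • x) * x :=
      ((Commute.one_right x).sub_right ((Commute.refl x).smul_right _)).eq
    rw [qv, pow_succ', ← ih, mul_add, ← mul_assoc, hc, mul_assoc, mul_smul_comm, mul_one,
      mul_sub (1 - (4 / 5 : ℂ) • x), mul_one]
    abel

/-- The alternating product along a list of letters. -/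
noncomputable def chain (X : ι → R) (q : R) : List ι → R
  | [] => 1
  | [a] => X a
  | a :: b :: r => X a * q * chain X q (b :: r)

/-- The alternating product as a list. -/
noncomputable def chainP (q : List (ℂ × List ι)) : List ι → List (ℂ × List ι)
  | [] => [(1, [])]
  | [a] => [(1, [a])]
  | a :: b :: r => pmul (pmul [(1, [a])] q) (chainP q (b :: r))

theorem pev_chainP (X : ι → R) (q : List (ℂ × List ι)) :
    ∀ l, pev X (chainP q l) = chain X (pev X q) l
  | [] => by simp [chainP, chain, pev]
  | [a] => by simp [chainP, chain, pev]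
  | a :: b :: r => by
    rw [chainP, chain, pev_pmul, pev_pmul, pev_chainP X q (b :: r)]
    simp [pev]

theorem chain_cons (X : ι → R) (q : R) (a : ι) {r : List ι} (h : r ≠ []) :
    chain X q (a :: r) = X a * q * chain X q r := by
  cases r with
  | nil => exact absurd rfl h
  | cons b r => rfl

theorem chain_concat (X : ι → R) (q : R) (a : ι) :
    ∀ {l : List ι}, l ≠ [] → chain X q (l ++ [a]) = chain X q l * q * X a
  | [], h => absurd rfl h
  | [b], _ => rfl
  | b :: c :: r, _ => by
    rw [List.cons_append, chain_cons _ _ _ (by simp), chain_cons _ _ _ (by simp),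
      chain_concat X q a (l := c :: r) (by simp)]
    simp only [mul_assoc]

/-- The letters of a list of words lie in `S`. -/
def Letters (S : ι → Prop) (p : List (ℂ × List ι)) : Prop := ∀ cw ∈ p, ∀ j ∈ cw.2, S j

theorem Letters.pmul {S : ι → Prop} {p p' : List (ℂ × List ι)} (h : Letters S p)
    (h' : Letters S p') : Letters S (pmul p p') := by
  intro cw hcw j hj
  simp only [Decode.pmul, List.mem_flatMap, List.mem_map] at hcw
  obtain ⟨a, ha, b, hb, rfl⟩ := hcw
  rcases List.mem_append.1 hj with hj | hj
  · exact h a ha j hj
  · exact h' b hb j hj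

theorem letters_qP {S : ι → Prop} {e : ι} (he : S e) (D : ℕ) : Letters S (qP e D) := by
  induction D with
  | zero => intro cw h; simp [qP] at h
  | succ D ih =>
    intro cw h
    rcases List.mem_cons.1 h with rfl | h
    · simp
    · refine Letters.pmul (p := [(1, []), (-(4 / 5 : ℂ), [e])]) ?_ ih cw h
      intro cw h j hj
      rcases List.mem_cons.1 h with rfl | h
      · simp at hj
      · obtain rfl := List.mem_singleton.1 h
        obtain rfl := List.mem_singleton.1 hj
        exact he

theorem letters_chainP {S : ι → Prop} {q : List (ℂ × List ι)} (hq : Letters S q) :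
    ∀ l : List ι, (∀ j ∈ l, S j) → Letters S (chainP q l)
  | [], _ => by intro cw h j hj; simp [chainP] at h; simp [h] at hj
  | [a], h => by
    intro cw hcw j hj
    simp only [chainP, List.mem_singleton] at hcw
    subst hcw
    exact h j hj
  | a :: b :: r, h => by
    refine (Letters.pmul ?_ hq).pmul (letters_chainP hq (b :: r) fun j hj => h j (.tail _ hj))
    intro cw hcw j hj
    obtain rfl := List.mem_singleton.1 hcw
    exact h j (by simp only [List.mem_singleton] at hj; simp [hj])

section star

variable [StarRing R] [StarModule ℂ R]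

theorem star_qv (D : ℕ) {x : R} (hx : star x = x) : star (qv D x) = qv D x := by
  induction D with
  | zero => simp [qv]
  | succ D ih =>
    have h45 : star (4 / 5 : ℂ) = 4 / 5 := by simp
    rw [qv, star_add, star_mul, star_sub, star_smul, star_smul, star_one, hx, h45, ih]
    rw [((Commute.one_left (qv D x)).sub_left ((commute_qv D x).smul_left _)).eq]

theorem star_chain {X : ι → R} {q : R} (hq : star q = q) :
    ∀ l : List ι, (∀ j ∈ l, star (X j) = X j) → star (chain X q l) = chain X q l.reverse
  | [], _ => by simp [chain]
  | [a], h => by simp [chain, h]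
  | a :: b :: r, h => by
    rw [List.reverse_cons, chain_concat _ _ _ (by simp), chain_cons _ _ _ (by simp), star_mul,
      star_mul, star_chain hq (b :: r) (fun j hj => h j (.tail _ hj)), hq, h a (by simp)]
    simp only [mul_assoc]

/-- The decoding polynomial is self-adjoint on self-adjoint letters. -/
theorem star_decode {X : ι → R} {e : ι} (D : ℕ) {l : List ι} (hl : l.reverse = l)
    (he : star (X e) = X e) (h : ∀ j ∈ l, star (X j) = X j) :
    star (pev X (chainP (qP e D) l)) = pev X (chainP (qP e D) l) := by
  rw [pev_chainP, pev_qP, star_chain (star_qv D he) l h, hl]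

end star

end Vale.Agent.P087.Decode
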