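import Vale.Agent.P087.ChiUpper.Volume

/-!
# Block 4a: the upper bound on `χ` from polynomial decoding (P087)

The microstates lie in the shear image of a product of balls in `ℝ^(k²)`, whose volume is bounded
by Gaussian domination.
-/

open scoped InnerProductSpace ENNReal
open MeasureTheory Filter

namespace Vale.Agent.P087

namespace ChiUpper

lemma log_bound {k : ℕ} (hk : 0 < k) {n : ℕ} (e : Fin n → ℝ) (he : ∀ j, 0 < e j) :
    ((k : ℝ) ^ 2)⁻¹ * Real.log (∏ j, Real.exp ((k : ℝ) / (2 * e j) * (k * e j)) *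
        √(Real.pi / ((k : ℝ) / (2 * e j))) ^ (k * k)) + (n : ℝ) / 2 * Real.log k
      = ∑ j, Real.log (2 * Real.pi * Real.exp 1 * e j) / 2 := by
  have hk' : (0 : ℝ) < k := by exact_mod_cast hk
  have hn : (n : ℝ) / 2 * Real.log k = ∑ _j : Fin n, Real.log k / 2 := by simp; ring
  have hq : ∀ j, 0 < Real.pi / ((k : ℝ) / (2 * e j)) := fun j => by
    have := he j; positivity
  rw [Real.log_prod fun j _ => (mul_pos (Real.exp_pos _)
      (pow_pos (Real.sqrt_pos.2 (hq j)) _)).ne', Finset.mul_sum, hn, ← Finset.sum_add_distrib]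
  refine Finset.sum_congr rfl fun j _ => ?_
  have h := he j
  have hp : (0 : ℝ) < 2 * Real.pi := by positivity
  have h1 : Real.pi / ((k : ℝ) / (2 * e j)) = 2 * Real.pi * e j / k := by field_simp
  rw [Real.log_mul (Real.exp_ne_zero _) (pow_pos (Real.sqrt_pos.2 (hq j)) _).ne', Real.log_exp,
    Real.log_pow, Real.log_sqrt (hq j).le, h1, Real.log_div (by positivity) hk'.ne',
    Real.log_mul hp.ne' h.ne', mul_right_comm (2 * Real.pi) (Real.exp 1) (e j),
    Real.log_mul (by positivity : 2 * Real.pi * e j ≠ 0) (Real.exp_ne_zero 1), Real.log_exp,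
    Real.log_mul hp.ne' h.ne']
  push_cast
  field_simp
  ring

end ChiUpper

open ChiUpper Decode in
theorem chiUpperPin_holds : ChiUpperPin := by
  intro H _ _ _ n Ω X big p d hΩ hX hd hbig hsmall
  classical
  refine iSup₂_le fun R _ => ?_
  set T : ℝ → ℝ := fun δ => ∑ j, Real.log (2 * Real.pi * Real.exp 1 * (d j + δ)) / 2 with hT
  suffices h : ∀ δ : ℝ, 0 < δ → chiR Ω X R ≤ (T δ : EReal) by
    have hc : ContinuousAt T 0 := by
      refine tendsto_finsetSum _ fun j _ => ((Real.continuousAt_log ?_).comp ?_).div_const _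
      · have := hd j; simp; positivity
      · exact (continuousAt_const.mul (continuousAt_const.add continuousAt_id))
    have ht : Tendsto (fun δ => (T δ : EReal)) (nhdsWithin 0 (Set.Ioi 0)) (nhds (T 0 : EReal)) :=
      (continuous_coe_real_ereal.tendsto _).comp (hc.tendsto.mono_left nhdsWithin_le_nhds)
    have h0 := ge_of_tendsto ht (eventually_nhdsWithin_of_forall fun δ hδ => h δ hδ)
    simpa [hT] using h0
  intro δ hδ
  let q : Fin n → List (ℂ × List (Fin n)) := fun j =>
    if j ∈ big then (1, [j]) :: (p j).map (fun cw => (-cw.1, cw.2)) else [(1, [j])]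
  let r : Fin n → List (ℂ × List (Fin n)) := fun j => pmul (q j) (q j)
  let m : ℕ := Finset.univ.sup fun j => ((r j).map fun cw => cw.2.length).foldr max 0
  let K : ℝ := ∑ j, ((r j).map fun cw => ‖cw.1‖).sum + 1
  have hKnn : ∀ j, 0 ≤ ((r j).map fun cw => ‖cw.1‖).sum := fun j =>
    List.sum_nonneg fun x hx => by
      obtain ⟨cw, _, rfl⟩ := List.mem_map.1 hx
      exact norm_nonneg _
  have hK : 0 < K := by
    have := Finset.sum_nonneg fun j (_ : j ∈ Finset.univ) => hKnn j
    simp only [K]; linarith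
  refine iInf_le_of_le m (iInf_le_of_le (δ / K) (iInf_le_of_le (div_pos hδ hK) ?_))
  refine limsup_le_of_le (h := (eventually_gt_atTop 0).mono fun k hk => ?_)
  have hk' : (0 : ℝ) < k := by exact_mod_cast hk
  let e : Fin n → ℝ := fun j => d j + δ
  have he : ∀ j, 0 < e j := fun j => add_pos (hd j) hδ
  let f : Fin n → (Fin n → Fin k → Fin k → ℝ) → Fin k → Fin k → ℝ := fun i x =>
    coordOf (polyMat (fun j => hermOf (x j)) (p i))
  let Φ : (Fin n → Fin k → Fin k → ℝ) → Fin n → Fin k → Fin k → ℝ := fun x i =>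
    if i ∈ big then x i - f i x else x i
  have hΦ : MeasurePreserving Φ volume volume :=
    measurePreserving_shear big f
      (fun i => continuous_coordOf.comp (continuous_polyMat
        (fun j => continuous_hermOf.comp (continuous_apply j)) (p i)))
      (fun i hi x y hxy => congrArg coordOf (polyMat_congr fun cw hcw j hj => by
        rw [hxy j ((hbig i hi).1 cw hcw j hj)]))
  let box : Set (Fin n → Fin k → Fin k → ℝ) :=
    Set.univ.pi fun j => {z | sqSum z ≤ (k : ℝ) * e j}
  have hsub : microstates Ω X R m k (δ / K) ⊆ Φ ⁻¹' box := by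
    intro x hx j _
    set A : Fin n → Matrix (Fin k) (Fin k) ℂ := fun i => hermOf (x i) with hA
    have hqA : pev A (q j) = hermOf (Φ x j) := by
      by_cases hj : j ∈ big
      · have hherm := (hbig j hj).2.1 k A fun i => hermOf_isHermitian _
        have hP : hermOf (f j x) = pev A (p j) := hermOf_coordOf hherm
        simp only [Φ, if_pos hj, hermOf_sub, hP]
        simp only [q, if_pos hj, pev_cons, pev_neg]
        simp [hA, sub_eq_add_neg]
      · simp [q, Φ, if_neg hj, Decode.pev, hA]
    have hqX : IsSelfAdjoint (pev X (q j)) ∧ ‖pev X (q j) Ω‖ ^ 2 ≤ d j := by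
      by_cases hj : j ∈ big
      · have h1 : pev X (q j) = X j - polyOp X (p j) := by
          simp only [q, if_pos hj, pev_cons, pev_neg]
          simp [sub_eq_add_neg]
          rfl
        rw [h1]
        exact ⟨(hX j).sub (hbig j hj).2.2.1, (hbig j hj).2.2.2⟩
      · have h1 : pev X (q j) = X j := by simp [q, if_neg hj, Decode.pev]
        rw [h1]
        exact ⟨hX j, hsmall j hj⟩
    have hwords : ∀ cw ∈ r j, ‖ntr (wordMat A cw.2) - tau Ω (wordOp X cw.2)‖ ≤ δ / K := by
      intro cw hcw
      rcases Nat.eq_zero_or_pos cw.2.length with h0 | h0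
      · rw [List.eq_nil_of_length_eq_zero h0]
        have : (k : ℂ) ≠ 0 := by exact_mod_cast hk.ne'
        simp [ntr, wordMat, wordOp, tau, inner_self_eq_norm_sq_to_K, hΩ, this,
          div_nonneg hδ.le hK.le]
      · refine (hx.2 cw.2 h0 ?_).le
        refine le_trans ?_ (Finset.le_sup (f := fun j => ((r j).map fun cw =>
          cw.2.length).foldr max 0) (Finset.mem_univ j))
        exact List.le_max_of_le' 0 (List.mem_map_of_mem hcw) le_rfl
    have hsum : ((r j).map fun cw => ‖cw.1‖).sum * (δ / K) ≤ δ := by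
      have h1 := Finset.single_le_sum (fun i _ => hKnn i) (Finset.mem_univ j)
      calc ((r j).map fun cw => ‖cw.1‖).sum * (δ / K) ≤ K * (δ / K) :=
            mul_le_mul_of_nonneg_right (by simp only [K]; linarith) (div_nonneg hδ.le hK.le)
        _ = δ := mul_div_cancel₀ _ hK.ne'
    have hdiff := (ntr_polyMat_sub_le Ω X A (δ / K) (r j) hwords).trans hsum
    have h1 : ntr (polyMat A (r j)) = (((k : ℝ)⁻¹ * sqSum (Φ x j) : ℝ) : ℂ) := by
      rw [show polyMat A (r j) = pev A (q j) * pev A (q j) from pev_pmul A (q j) (q j), hqA,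
        ntr, trace_hermOf_sq]
      push_cast
      rfl
    have h2 : (tau Ω (polyOp X (r j))).re ≤ d j := by
      rw [show polyOp X (r j) = pev X (q j) * pev X (q j) from pev_pmul X (q j) (q j),
        re_tau_sq Ω hqX.1]
      exact hqX.2
    have h3 := (Complex.abs_re_le_norm _).trans hdiff
    rw [h1, Complex.sub_re, Complex.ofReal_re, abs_le] at h3
    have h4 : (k : ℝ)⁻¹ * sqSum (Φ x j) ≤ e j := by simp only [e]; linarith [h3.2]
    show sqSum (Φ x j) ≤ k * e j
    rwa [inv_mul_le_iff₀ hk'] at h4
  have hbox : MeasurableSet box :=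
    MeasurableSet.pi Set.countable_univ fun j _ => measurableSet_ball _
  set V : ℝ := ∏ j, Real.exp ((k : ℝ) / (2 * e j) * (k * e j)) *
    √(Real.pi / ((k : ℝ) / (2 * e j))) ^ (k * k) with hV
  have hVpos : 0 < V := Finset.prod_pos fun j _ => by have := he j; positivity
  have hvol : volume (microstates Ω X R m k (δ / K)) ≤ ENNReal.ofReal V := by
    refine (measure_mono hsub).trans ?_
    rw [hΦ.measure_preimage hbox.nullMeasurableSet, volume_pi_pi, hV,
      ENNReal.ofReal_prod_of_nonneg fun j _ => by positivity]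
    exact Finset.prod_le_prod' fun j _ => volume_ball_le (by have := he j; positivity) _
  calc ((((k : ℝ) ^ 2)⁻¹ : ℝ) : EReal) *
        ENNReal.log (volume (microstates Ω X R m k (δ / K)))
        + (((n : ℝ) / 2 * Real.log k : ℝ) : EReal)
      ≤ ((((k : ℝ) ^ 2)⁻¹ : ℝ) : EReal) * (Real.log V : EReal)
        + (((n : ℝ) / 2 * Real.log k : ℝ) : EReal) := by
        refine add_le_add_left (mul_le_mul_of_nonneg_left ?_ (EReal.coe_nonneg.2 (by positivity))) _
        rw [← ENNReal.log_ofReal_of_pos hVpos]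
        exact ENNReal.log_monotone hvol
    _ = (T δ : EReal) := by
        rw [← EReal.coe_mul, ← EReal.coe_add, hV, log_bound hk e he]

end Vale.Agent.P087
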