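import Vale.Agent.P087.Noisy.Theta

/-!
# Conjugate variables of the noisy tuple and the orthogonality bound (P087, block 3a)
-/

open scoped InnerProductSpace ENNReal

namespace Vale.Agent.P087

open Noisy in
theorem conjPin_holds : ConjPin := by
  intro G _ n g c hg hc u hu i
  classical
  set Ω := vac G (Fin n ⊕ Fin n)
  set Yt := addNoise (modelX g c) modelS u with hY
  set K := cyclicSpace Ω Yt with hK
  have hclosed : IsClosed (K : Set (Fock G (Fin n ⊕ Fin n))) := Submodule.isClosed_topologicalClosure _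
  haveI : CompleteSpace K := hclosed.completeSpace_coe
  set v := c i + u with hv
  have hvpos : 0 < v := by have := hc i; positivity
  set ξ0 : Fock G (Fin n ⊕ Fin n) := xi0 c u i with hξ0
  have hmem : ∀ w, wordOp Yt w Ω ∈ K := fun w =>
    Submodule.le_topologicalClosure _ (Submodule.subset_span ⟨w, rfl⟩)
  set ξ := K.starProjection ξ0 with hξ
  have hξmem : ξ ∈ K := K.starProjection_apply_mem ξ0
  have horth : ∀ z, ∀ y ∈ K, ⟪z - K.starProjection z, y⟫_ℂ = 0 := fun z y hy =>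
    Submodule.starProjection_inner_eq_zero z y hy
  have hval : ∀ w, ⟪ξ, wordOp Yt w Ω⟫_ℂ = dqValue Ω Yt i w := fun w => by
    have h := horth ξ0 _ (hmem w)
    rw [inner_sub_left, sub_eq_zero] at h
    rw [← h, inner_xi0_word g c u i (hc i) hu w]
  have hn0 : ‖ξ0‖ ^ 2 = 1 / v := norm_xi0_sq c u i (hc i) hu
  have hpy : ‖ξ0‖ ^ 2 = ‖ξ‖ ^ 2 + ‖ξ0 - ξ‖ ^ 2 := by
    have h2 := norm_add_sq_eq_norm_sq_add_norm_sq_of_inner_eq_zero (𝕜 := ℂ) ξ (ξ0 - ξ) (by
      rw [← inner_conj_symm (𝕜 := ℂ), horth ξ0 ξ hξmem, map_zero])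
    rw [add_sub_cancel] at h2
    linarith [h2, pow_two ‖ξ0‖, pow_two ‖ξ‖, pow_two ‖ξ0 - ξ‖]
  refine ⟨ξ, ⟨hξmem, hval⟩, by linarith [sq_nonneg ‖ξ0 - ξ‖], fun hgi B hB0 hB => ?_⟩
  set A : Fock G (Fin n ⊕ Fin n) := lp.single 2 [Sum.inl (g i)] (1 / 2 : ℂ) with hA
  have hsplit : Yt i Ω = A + (v : ℂ) • ξ0 := by
    rw [hY, show addNoise (modelX g c) modelS u = Y g c u from rfl, Y_apply, genA_vac, genS_vac,
      genS_vac, if_neg hgi, zero_smul, add_zero, add_assoc, hξ0, xi0, smul_add, ← lp.single_smul,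
      ← lp.single_smul, ← lp.single_smul, ← lp.single_smul, hA, hv]
    simp only [smul_eq_mul, mul_one, ← Complex.ofReal_mul, mul_div_assoc']
    rw [mul_comm, mul_div_assoc, div_self hvpos.ne', mul_one, mul_comm, mul_div_assoc,
      div_self hvpos.ne', mul_one]
  have hfix : K.starProjection (Yt i Ω) = Yt i Ω :=
    Submodule.starProjection_eq_self_iff.2 (by simpa using hmem [i])
  have hdiff : A - K.starProjection A = -((v : ℂ) • (ξ0 - ξ)) := by
    have h : A = Yt i Ω - (v : ℂ) • ξ0 := by rw [hsplit, add_sub_cancel_right]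
    rw [h, map_sub, map_smul, hfix, ← hξ, smul_sub]
    abel
  obtain ⟨η, hη, hηA, hηn⟩ := eta_exists g c u i hgi hc hu hB0 hB
  have hηK : ∀ y ∈ K, ⟪η, y⟫_ℂ = 0 := by
    have hle : K ≤ LinearMap.ker (innerSL ℂ η).toLinearMap := by
      refine Submodule.topologicalClosure_minimal _ (Submodule.span_le.2 ?_)
        (ContinuousLinearMap.isClosed_ker (innerSL ℂ η))
      rintro _ ⟨w, rfl⟩
      exact hη _ (word_mem_qSpan g c u hg w)
    exact fun y hy => hle hy
  have h14 : (1 / 4 : ℝ) ≤ ‖η‖ * ‖A - K.starProjection A‖ := by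
    have h := norm_inner_le_norm (𝕜 := ℂ) η (A - K.starProjection A)
    rw [inner_sub_right, hηK _ (K.starProjection_apply_mem A), sub_zero, hA,
      lp.inner_single_right, hηA] at h
    rw [hA]
    refine le_trans (le_of_eq ?_) h
    simp
    norm_num
  rw [hdiff, norm_neg, norm_smul, Complex.norm_real, Real.norm_of_nonneg hvpos.le] at h14
  set d := ‖ξ0 - ξ‖
  have hd : 0 ≤ d := norm_nonneg _
  have key : 1 / 16 ≤ (1 / 4 + B / 16) * (v * d) ^ 2 := by
    calc (1 / 16 : ℝ) = (1 / 4) ^ 2 := by norm_num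
      _ ≤ (‖η‖ * (v * d)) ^ 2 := pow_le_pow_left₀ (by norm_num) h14 2
      _ = ‖η‖ ^ 2 * (v * d) ^ 2 := by ring
      _ ≤ _ := mul_le_mul_of_nonneg_right hηn (sq_nonneg _)
  have hd2 : 1 / ((4 + B) * v ^ 2) ≤ d ^ 2 := by
    rw [div_le_iff₀ (by positivity)]
    nlinarith [key]
  linarith

end Vale.Agent.P087
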