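import Vale.Agent.P087.DecodeOp

/-!
# P087, block 4b: decoding a product of marks from nearly noiseless extra variables
-/

open scoped InnerProductSpace ENNReal

namespace Vale.Agent.P087.Decode

open ContinuousLinearMap

section perturb

variable {R : Type*} [NormedRing R] [NormedAlgebra ℂ R]

theorem norm_step_le (h1 : ‖(1 : R)‖ ≤ 1) {x : R} (hx : ‖x‖ ≤ 5) :
    ‖(1 : R) - (4 / 5 : ℂ) • x‖ ≤ 5 := by
  refine (norm_sub_le _ _).trans ?_
  rw [norm_smul]
  norm_num
  linarith

theorem norm_qv_le (h1 : ‖(1 : R)‖ ≤ 1) {x : R} (hx : ‖x‖ ≤ 5) (D : ℕ) :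
    ‖qv D x‖ ≤ (6 : ℝ) ^ D := by
  induction D with
  | zero => simp [qv]
  | succ D ih =>
    rw [qv, pow_succ]
    refine (norm_add_le _ _).trans ((add_le_add_right ((norm_mul_le _ _).trans
      (mul_le_mul (norm_step_le h1 hx) ih (norm_nonneg _) (by norm_num))) _).trans ?_)
    rw [norm_smul]
    norm_num
    nlinarith [one_le_pow₀ (show (1 : ℝ) ≤ 6 by norm_num) (n := D)]

theorem norm_qv_sub_le (h1 : ‖(1 : R)‖ ≤ 1) {x y : R} (hx : ‖x‖ ≤ 5) (hy : ‖y‖ ≤ 5) {ε : ℝ}
    (hxy : ‖x - y‖ ≤ ε) (D : ℕ) : ‖qv D x - qv D y‖ ≤ (6 : ℝ) ^ D * ε := by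
  have hε : 0 ≤ ε := (norm_nonneg _).trans hxy
  induction D with
  | zero => simpa [qv] using hε
  | succ D ih =>
    have e : qv (D + 1) x - qv (D + 1) y = (1 - (4 / 5 : ℂ) • x) * (qv D x - qv D y)
        + ((4 / 5 : ℂ) • (y - x)) * qv D y := by
      simp only [qv, smul_sub, sub_mul, mul_sub, one_mul]
      abel
    rw [e, pow_succ]
    refine (norm_add_le _ _).trans ((add_le_add ((norm_mul_le _ _).trans
      (mul_le_mul (norm_step_le h1 hx) ih (norm_nonneg _) (by norm_num)))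
      ((norm_mul_le _ _).trans (mul_le_mul (b := ε) (d := (6 : ℝ) ^ D) ?_ (norm_qv_le h1 hy D)
        (norm_nonneg _) hε))).trans ?_)
    · rw [norm_smul, norm_sub_rev]
      norm_num
      linarith [norm_nonneg (x - y)]
    · linarith

theorem chain_bounds {ι : Type*} (h1 : ‖(1 : R)‖ ≤ 1) (X A : ι → R) {q q' : R} {K ε : ℝ}
    (hK : 1 ≤ K) (hq : ‖q‖ ≤ K) (hq' : ‖q'‖ ≤ K) (hqq : ‖q - q'‖ ≤ K * ε) (hε : 0 ≤ ε) :
    ∀ l : List ι, (∀ j ∈ l, ‖X j‖ ≤ 5 ∧ ‖A j‖ ≤ 5 ∧ ‖X j - A j‖ ≤ ε) →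
      ‖chain A q' l‖ ≤ (5 * K) ^ l.length ∧
        ‖chain X q l - chain A q' l‖ ≤ (15 * K) ^ l.length * ε
  | [], _ => by simp [chain, h1, hε]
  | [a], h => by
    obtain ⟨-, ha, had⟩ := h a (by simp)
    simp only [chain, List.length_singleton, pow_one]
    exact ⟨by linarith, had.trans (le_mul_of_one_le_left hε (by linarith))⟩
  | a :: b :: r, h => by
    obtain ⟨hF, hd⟩ := chain_bounds h1 X A hK hq hq' hqq hε (b :: r) fun j hj => h j (.tail _ hj)
    obtain ⟨hx, ha, had⟩ := h a (by simp)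
    set F := chain A q' (b :: r)
    set F' := chain X q (b :: r)
    have hlen : (a :: b :: r).length = (b :: r).length + 1 := rfl
    have hK0 : 0 ≤ K := by linarith
    rw [chain, chain, hlen, pow_succ, pow_succ]
    constructor
    · refine (norm_mul_le _ _).trans ?_
      rw [mul_comm _ (5 * K)]
      exact mul_le_mul ((norm_mul_le _ _).trans (mul_le_mul ha hq' (norm_nonneg _) (by norm_num)))
        hF (norm_nonneg _) (by positivity)
    · have e : X a * q * F' - A a * q' * F =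
          X a * q * (F' - F) + X a * (q - q') * F + (X a - A a) * q' * F := by noncomm_ring
      rw [e]
      refine ((norm_add_le _ _).trans (add_le_add (norm_add_le _ _) le_rfl)).trans ?_
      have t1 : ‖X a * q * (F' - F)‖ ≤ 5 * K * ((15 * K) ^ (b :: r).length * ε) :=
        (norm_mul_le _ _).trans (mul_le_mul
          ((norm_mul_le _ _).trans (mul_le_mul hx hq (norm_nonneg _) (by norm_num))) hd
          (norm_nonneg _) (by positivity))
      have t2 : ‖X a * (q - q') * F‖ ≤ 5 * (K * ε) * (5 * K) ^ (b :: r).length :=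
        (norm_mul_le _ _).trans (mul_le_mul
          ((norm_mul_le _ _).trans (mul_le_mul hx hqq (norm_nonneg _) (by norm_num))) hF
          (norm_nonneg _) (by positivity))
      have t3 : ‖(X a - A a) * q' * F‖ ≤ ε * K * (5 * K) ^ (b :: r).length :=
        (norm_mul_le _ _).trans (mul_le_mul
          ((norm_mul_le _ _).trans (mul_le_mul had hq' (norm_nonneg _) hε)) hF
          (norm_nonneg _) (by positivity))
      have hp : (5 * K) ^ (b :: r).length ≤ (15 * K) ^ (b :: r).length :=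
        pow_le_pow_left₀ (by positivity) (by linarith) _
      have hKε : 0 ≤ K * ε := mul_nonneg hK0 hε
      have := mul_le_mul_of_nonneg_left hp hKε
      have : 0 ≤ K * ε * (15 * K) ^ (b :: r).length := by positivity
      nlinarith

end perturb

section support

variable {G : Type*} [Group G] {κ : Type*}

/-- The vector has no component on a list containing the letter `a`. -/
def Avoid (a : G ⊕ κ) (v : Fock G κ) : Prop :=
  ∀ r, a ∈ r → (v : List (G ⊕ κ) → ℂ) r = 0

theorem avoid_vac (a : G ⊕ κ) : Avoid a (vac G κ) := by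
  classical
  intro r hr
  rw [vac_eq]
  have : r ≠ [] := List.ne_nil_of_mem hr
  simp [Pi.single_apply, this]

theorem avoid_add {a : G ⊕ κ} {v w : Fock G κ} (hv : Avoid a v) (hw : Avoid a w) :
    Avoid a (v + w) := fun r hr => by
  show (v : List (G ⊕ κ) → ℂ) r + (w : List (G ⊕ κ) → ℂ) r = 0
  rw [hv r hr, hw r hr, add_zero]

theorem avoid_smul {a : G ⊕ κ} {v : Fock G κ} (hv : Avoid a v) (c : ℂ) : Avoid a (c • v) :=
  fun r hr => by
    show c * (v : List (G ⊕ κ) → ℂ) r = 0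
    rw [hv r hr, mul_zero]

theorem avoid_cre {a b : G ⊕ κ} (hab : a ≠ b) {v : Fock G κ} (hv : Avoid a v) :
    Avoid a (cre b v) := by
  classical
  intro r hr
  rcases r with _ | ⟨x, t⟩
  · exact cre_apply_nil _ _
  rw [cre_apply_cons]
  split_ifs with hx
  · subst hx
    exact hv t ((List.mem_cons.1 hr).resolve_left hab)
  · rfl

theorem avoid_ann {a : G ⊕ κ} (b : G ⊕ κ) {v : Fock G κ} (hv : Avoid a v) :
    Avoid a (ann b v) := fun r hr => by
  rw [ann_apply]
  exact hv _ (List.mem_cons_of_mem _ hr)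

theorem avoid_gau {a : κ} (g : G) {v : Fock G κ} (hv : Avoid (Sum.inr a) v) :
    Avoid (Sum.inr a) (gau g v) := by
  intro r hr
  rcases r with _ | ⟨x | x, t⟩
  · exact gau_apply_nil _ _
  · rw [gau_apply_inl]
    exact hv _ (List.mem_cons_of_mem _ ((List.mem_cons.1 hr).resolve_left (by simp)))
  · exact gau_apply_inr _ _ _ _

theorem avoid_genA {a : κ} (g : G) {v : Fock G κ} (hv : Avoid (Sum.inr a) v) :
    Avoid (Sum.inr a) (genA g v) := by
  classical
  rw [genA_def]
  exact avoid_add (avoid_add (avoid_smul (avoid_add (avoid_cre (by simp) hv) (avoid_ann _ hv)) _)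
    (avoid_gau g hv)) (avoid_smul hv _)

theorem avoid_genS {a b : κ} (hab : a ≠ b) {v : Fock G κ} (hv : Avoid (Sum.inr a) v) :
    Avoid (Sum.inr a) (genS b v) := by
  rw [genS]
  exact avoid_add (avoid_cre (by simpa using hab) hv) (avoid_ann _ hv)

variable {n : ℕ}

theorem avoid_pev {g : Fin n → G} {c : Fin n → ℝ} {i : Fin n} {p : List (ℂ × List (Fin n))}
    (hp : ∀ cw ∈ p, ∀ j ∈ cw.2, j ≠ i) {v : Fock G (Fin n ⊕ Fin n)}
    (hv : Avoid (Sum.inr (Sum.inl i)) v) :
    Avoid (Sum.inr (Sum.inl i)) (pev (modelX g c) p v) := by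
  have hw : ∀ w : List (Fin n), (∀ j ∈ w, j ≠ i) →
      Avoid (Sum.inr (Sum.inl i)) ((w.map (modelX g c)).prod v) := by
    intro w hw
    induction w with
    | nil => exact hv
    | cons j w ih =>
      rw [List.map_cons, List.prod_cons, mul_def, comp_apply]
      have h' := ih fun k hk => hw k (.tail _ hk)
      rw [modelX]
      exact avoid_add (avoid_genA _ h')
        (avoid_smul (avoid_genS (fun e => hw j (by simp) (Sum.inl.inj e).symm) h') _)
  induction p with
  | nil => intro r _; rfl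
  | cons a p ih =>
    rw [pev_cons]
    exact avoid_add (avoid_smul (hw a.2 fun j hj => hp a (by simp) j hj) _)
      (ih fun cw hcw => hp cw (.tail _ hcw))

end support

/-- The distance of decoding, squared. -/
theorem decode_norm {G : Type} [Group G] {n : ℕ} (g : Fin n → G) (c : Fin n → ℝ) (i : Fin n)
    (hc : 0 ≤ c i) (P : List (ℂ × List (Fin n))) (hP : ∀ cw ∈ P, ∀ j ∈ cw.2, j ≠ i) {t : ℝ}
    (h : ‖(genA (g i) : Fock G (Fin n ⊕ Fin n) →L[ℂ] _) - pev (modelX g c) P‖ ≤ t) :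
    ‖(modelX g c i - polyOp (modelX g c) P) (vac G (Fin n ⊕ Fin n))‖ ^ 2 ≤ c i + t ^ 2 := by
  classical
  set a : G ⊕ (Fin n ⊕ Fin n) := Sum.inr (Sum.inl i)
  set Ω := vac G (Fin n ⊕ Fin n)
  set y := ((genA (g i) : Fock G (Fin n ⊕ Fin n) →L[ℂ] _) - pev (modelX g c) P) Ω with hy
  have hya : (y : List (G ⊕ (Fin n ⊕ Fin n)) → ℂ) [a] = 0 := by
    have h1 := avoid_genA (g i) (avoid_vac a) [a] (List.mem_singleton_self a)
    have h2 := avoid_pev (g := g) (c := c) hP (avoid_vac a) [a] (List.mem_singleton_self a)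
    show (genA (g i) Ω : List (G ⊕ (Fin n ⊕ Fin n)) → ℂ) [a] -
      (pev (modelX g c) P Ω : List (G ⊕ (Fin n ⊕ Fin n)) → ℂ) [a] = 0
    rw [h1, h2, sub_zero]
  have e : (modelX g c i - polyOp (modelX g c) P) Ω =
      y + (Real.sqrt (c i) : ℂ) • (lp.single 2 [a] 1 : Fock G (Fin n ⊕ Fin n)) := by
    rw [hy, show polyOp (modelX g c) P = pev (modelX g c) P from rfl, ← genS_vac (Sum.inl i)]
    simp only [modelX, sub_apply, add_apply, smul_apply]
    abel
  have hin : ⟪y, (Real.sqrt (c i) : ℂ) • (lp.single 2 [a] 1 : Fock G (Fin n ⊕ Fin n))⟫_ℂ = 0 := by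
    rw [inner_smul_right, lp.inner_single_right, hya]
    simp
  rw [e, norm_add_sq (𝕜 := ℂ), hin, map_zero, mul_zero, add_zero, norm_smul,
    lp.norm_single (by norm_num), norm_one, mul_one, Complex.norm_real,
    Real.norm_of_nonneg (Real.sqrt_nonneg _), Real.sq_sqrt hc, add_comm]
  refine add_le_add le_rfl (pow_le_pow_left₀ (norm_nonneg _) ?_ 2)
  refine (le_opNorm _ _).trans ?_
  rw [norm_vac, mul_one]
  exact h

theorem eta_bound (M : ℕ) {m : ℕ} (hm : m ≤ M) :
    (1 + (4 / 5 : ℝ) ^ (4 * (M + 12))) ^ m - 1 ≤ 1 / 2048 := by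
  set η := (4 / 5 : ℝ) ^ (4 * (M + 12)) with hη
  have h0 : 0 ≤ η := by positivity
  have h1 : η ≤ (1 / 2 : ℝ) ^ (M + 12) := by
    rw [hη, pow_mul]
    exact pow_le_pow_left₀ (by norm_num) (by norm_num) _
  have h2 : (M : ℝ) * (1 / 2) ^ M ≤ 1 := by
    rw [div_pow, one_pow, ← div_eq_mul_one_div, div_le_one (by positivity)]
    exact_mod_cast Nat.lt_two_pow_self.le
  have h3 : (M : ℝ) * η ≤ 1 / 4096 := by
    refine (mul_le_mul_of_nonneg_left h1 (Nat.cast_nonneg _)).trans ?_
    rw [pow_add, ← mul_assoc]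
    refine (mul_le_mul_of_nonneg_right h2 (by positivity)).trans ?_
    norm_num
  have h4 : (1 + η) ^ m ≤ Real.exp (M * η) := by
    refine (pow_le_pow_right₀ (by linarith) hm).trans ?_
    rw [Real.exp_nat_mul]
    exact pow_le_pow_left₀ (by linarith) (by linarith [Real.add_one_le_exp η]) _
  have h5 := abs_le.1 (Real.abs_exp_sub_one_le (x := (M : ℝ) * η)
    (by rw [abs_of_nonneg (by positivity)]; linarith))
  rw [abs_of_nonneg (by positivity : (0 : ℝ) ≤ M * η)] at h5
  linarith [h5.2]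

end Decode

open Decode in
/-- Block 4b. -/
theorem DecodePin_holds : DecodePin := by
  set b : ℝ := 200 * 6 ^ 50 with hb
  have hb200 : 200 ≤ b := by rw [hb]; norm_num
  refine ⟨b ^ 2, by nlinarith, fun G _ n g c big e i l M hg hc he hge hi _ hl hlr hlM hlb hprod
    hsmall => ?_⟩
  set D := 4 * (M + 12) with hD
  set s := (M + 1) ^ 2 with hs
  set p := chainP (qP e D) l with hp
  have hlet : ∀ cw ∈ p, ∀ j ∈ cw.2, j ∉ big :=
    letters_chainP (S := fun j => j ∉ big) (letters_qP (S := fun j => j ∉ big) he D) l hlb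
  set Ω := vac G (Fin n ⊕ Fin n)
  have hX : ∀ j, star (modelX g c j) = modelX g c j := fun j => by
    rw [modelX, star_add, star_smul, star_genA, star_genS,
      inv_eq_of_mul_eq_one_right (hg j)]
    simp
  refine ⟨p, hlet, fun k A hA => star_decode D hlr (hA e) fun j _ => hA j,
    (star_decode D hlr (hX e) fun j _ => hX j), ?_⟩
  set ε : ℝ := 2 / b ^ s with hε
  have hs1 : 1 ≤ s := Nat.one_le_pow _ _ (by omega)
  have hbs : 0 < b ^ s := by positivity
  have hε0 : 0 ≤ ε := by positivity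
  have hε1 : ε ≤ 1 := by
    rw [hε, div_le_one hbs]
    linarith [le_self_pow₀ (show (1 : ℝ) ≤ b by linarith) (show s ≠ 0 by omega)]
  have hnear : ∀ j, j ∉ big → ‖modelX g c j‖ ≤ 5 ∧
      ‖(genA (g j) : Fock G (Fin n ⊕ Fin n) →L[ℂ] _)‖ ≤ 5 ∧
      ‖modelX g c j - genA (g j)‖ ≤ ε := by
    intro j hj
    have hA := norm_genA_le (κ := Fin n ⊕ Fin n) (g j)
    have hsq : Real.sqrt (c j) ≤ (b ^ s)⁻¹ := by
      rw [Real.sqrt_le_left (by positivity), inv_pow, ← pow_mul, mul_comm, pow_mul]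
      exact hsmall j hj
    have hd : ‖modelX g c j - genA (g j)‖ ≤ ε := by
      rw [modelX, add_sub_cancel_left, norm_smul, Complex.norm_real,
        Real.norm_of_nonneg (Real.sqrt_nonneg _), hε, div_eq_mul_inv, mul_comm (2 : ℝ)]
      exact mul_le_mul hsq (norm_genS_le _) (norm_nonneg _) (by positivity)
    have := norm_add_le (modelX g c j - genA (g j)) (genA (g j))
    rw [sub_add_cancel] at this
    exact ⟨by linarith, by linarith, hd⟩
  obtain ⟨he1, he2, he3⟩ := hnear e he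
  rw [hge] at he2 he3
  have hone : ‖(1 : Fock G (Fin n ⊕ Fin n) →L[ℂ] Fock G (Fin n ⊕ Fin n))‖ ≤ 1 :=
    ContinuousLinearMap.norm_id_le
  have hK : (1 : ℝ) ≤ 6 ^ D := one_le_pow₀ (by norm_num)
  have hper := (chain_bounds hone (modelX g c) (fun j => genA (g j)) hK
    (norm_qv_le hone he1 D) (norm_qv_le hone he2 D) (norm_qv_sub_le hone he1 he2 he3 D) hε0 l
    fun j hj => hnear j (hlb j hj)).2
  have hex := chain_genA_near (κ := Fin n ⊕ Fin n) g D hl
  rw [hprod] at hex
  have hpow : (15 * (6 : ℝ) ^ D) ^ l.length * ε ≤ 1 / 100 := by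
    have h1 : (15 * (6 : ℝ) ^ D) ^ l.length ≤ (6 : ℝ) ^ (50 * s) := by
      refine (pow_le_pow_left₀ (by positivity) (?_ : 15 * (6 : ℝ) ^ D ≤ 6 ^ (D + 2)) _).trans ?_
      · rw [pow_add]; nlinarith
      · rw [← pow_mul]
        refine pow_le_pow_right₀ (by norm_num) ?_
        rw [hs, hD]
        nlinarith
    refine (mul_le_mul_of_nonneg_right h1 hε0).trans ?_
    rw [hε, hb, mul_pow, ← pow_mul]
    have h2 : (200 : ℝ) ≤ 200 ^ s := le_self_pow₀ (by norm_num) (by omega)
    rw [mul_div_assoc', div_le_iff₀ (by positivity)]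
    nlinarith [pow_pos (show (0 : ℝ) < 6 by norm_num) (50 * s)]
  have hη := eta_bound M hlM
  have ht : ‖(genA (g i) : Fock G (Fin n ⊕ Fin n) →L[ℂ] _) - pev (modelX g c) p‖ ≤ 1 / 40 := by
    rw [hp, pev_chainP, pev_qP]
    refine (norm_sub_le_norm_sub_add_norm_sub _
      (chain (fun j => (genA (g j) : Fock G (Fin n ⊕ Fin n) →L[ℂ] _)) (qv D (genA 1)) l) _).trans ?_
    rw [norm_sub_rev] at hex hper
    linarith
  refine (decode_norm g c i (hc i).le p (fun cw h j hj e => hlet cw h j hj (e ▸ hi)) ht).trans ?_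
  norm_num

end Vale.Agent.P087
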