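import Vale.Agent.P087.Basic
import Vale.Agent.P087.DecodePoly

/-!
# P087, block 4b: the factorisation of the compound Poisson elements
-/

open scoped InnerProductSpace ENNReal

namespace Vale.Agent.P087.Decode

open ContinuousLinearMap

variable {G : Type*} [Group G] {κ : Type*}

/-- A mark followed by a list. -/
noncomputable abbrev Ext (G : Type*) (κ : Type*) := L2 (G × List (G ⊕ κ))

/-- The unit mark. -/
noncomputable def eJ : G × List (G ⊕ κ) ≃. List (G ⊕ κ) where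
  toFun a := by classical exact if a.1 = 1 then some a.2 else none
  invFun r := some (1, r)
  inv a r := by
    obtain ⟨x, t⟩ := a
    classical
    by_cases h : x = 1
    · subst h; simp [eq_comm]
    · simp [h, Ne.symm h]

/-- The mark as first letter. -/
def eL : G × List (G ⊕ κ) ≃. List (G ⊕ κ) where
  toFun a := some (Sum.inl a.1 :: a.2)
  invFun l :=
    match l with
    | Sum.inl x :: r => some (x, r)
    | _ => none
  inv a r := by
    obtain ⟨x, t⟩ := a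
    rcases r with _ | ⟨y | y, u⟩
    · simp
    · simp only [Option.mem_def, Option.some.injEq, Prod.mk.injEq, List.cons.injEq, Sum.inl.injEq]
      exact ⟨fun ⟨h, h'⟩ => ⟨h.symm, h'.symm⟩, fun ⟨h, h'⟩ => ⟨h.symm, h'.symm⟩⟩
    · simp

/-- Multiplication of the mark. -/
def eU (κ : Type*) (g : G) : G × List (G ⊕ κ) ≃. G × List (G ⊕ κ) where
  toFun a := some (g⁻¹ * a.1, a.2)
  invFun a := some (g * a.1, a.2)
  inv a b := by
    obtain ⟨x, t⟩ := a
    obtain ⟨y, u⟩ := b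
    simp only [Option.mem_def, Option.some.injEq, Prod.mk.injEq]
    exact ⟨fun ⟨h, h'⟩ => ⟨by rw [← h]; group, h'.symm⟩,
      fun ⟨h, h'⟩ => ⟨by rw [← h]; group, h'.symm⟩⟩

/-- The factor of the compound Poisson elements. -/
noncomputable def Wf : Fock G κ →L[ℂ] Ext G κ := (1 / 2 : ℂ) • pull eJ + pull eL

/-- Its adjoint. -/
noncomputable def Wa : Ext G κ →L[ℂ] Fock G κ := (1 / 2 : ℂ) • pull eJ.symm + pull eL.symm

/-- The translation of the mark. -/
noncomputable def U (g : G) : Ext G κ →L[ℂ] Ext G κ := pull (eU κ g)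

theorem adjoint_Wf : adjoint (Wf : Fock G κ →L[ℂ] Ext G κ) = Wa := by
  rw [Wf, Wa, map_add, map_smulₛₗ, adjoint_pull, adjoint_pull]
  simp [map_ofNat]

theorem inner_Wf (v : Fock G κ) (y : Ext G κ) : ⟪y, Wf v⟫_ℂ = ⟪Wa y, v⟫_ℂ := by
  rw [← adjoint_Wf, adjoint_inner_left]

theorem U_apply (g : G) (y : Ext G κ) (x : G) (r : List (G ⊕ κ)) :
    (U g y : G × List (G ⊕ κ) → ℂ) (x, r) = (y : G × List (G ⊕ κ) → ℂ) (g⁻¹ * x, r) := by
  simp [U, eU]

theorem U_one : (U 1 : Ext G κ →L[ℂ] Ext G κ) = 1 := by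
  refine ContinuousLinearMap.ext fun y => ?_
  ext ⟨x, r⟩
  rw [U_apply, inv_one, one_mul, ContinuousLinearMap.one_def, ContinuousLinearMap.id_apply]

theorem U_mul (g h : G) : (U (g * h) : Ext G κ →L[ℂ] Ext G κ) = U g * U h := by
  refine ContinuousLinearMap.ext fun y => ?_
  ext ⟨x, r⟩
  rw [ContinuousLinearMap.mul_def, ContinuousLinearMap.comp_apply, U_apply, U_apply, U_apply,
    mul_inv_rev, mul_assoc]

theorem eJ_apply [DecidableEq G] (v : Fock G κ) (x : G) (r : List (G ⊕ κ)) :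
    (pull eJ v : G × List (G ⊕ κ) → ℂ) (x, r) =
      if x = 1 then (v : List (G ⊕ κ) → ℂ) r else 0 := by
  by_cases h : x = 1 <;> simp [eJ, h]

theorem eL_apply (v : Fock G κ) (x : G) (r : List (G ⊕ κ)) :
    (pull eL v : G × List (G ⊕ κ) → ℂ) (x, r) = (v : List (G ⊕ κ) → ℂ) (Sum.inl x :: r) :=
  pull_apply _ _ _

theorem eJ_symm_apply (y : Ext G κ) (r : List (G ⊕ κ)) :
    (pull eJ.symm y : List (G ⊕ κ) → ℂ) r = (y : G × List (G ⊕ κ) → ℂ) (1, r) :=
  pull_apply _ _ _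

theorem eL_symm_inl (y : Ext G κ) (x : G) (r : List (G ⊕ κ)) :
    (pull eL.symm y : List (G ⊕ κ) → ℂ) (Sum.inl x :: r) =
      (y : G × List (G ⊕ κ) → ℂ) (x, r) :=
  pull_apply _ _ _

theorem eL_symm_nil (y : Ext G κ) :
    (pull eL.symm y : List (G ⊕ κ) → ℂ) [] = 0 :=
  pull_apply _ _ _

theorem eL_symm_inr (y : Ext G κ) (x : κ) (r : List (G ⊕ κ)) :
    (pull eL.symm y : List (G ⊕ κ) → ℂ) (Sum.inr x :: r) = 0 :=
  pull_apply _ _ _

theorem Wf_apply [DecidableEq G] (v : Fock G κ) (x : G) (r : List (G ⊕ κ)) :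
    (Wf v : G × List (G ⊕ κ) → ℂ) (x, r) =
      (1 / 2 : ℂ) * (if x = 1 then (v : List (G ⊕ κ) → ℂ) r else 0) +
        (v : List (G ⊕ κ) → ℂ) (Sum.inl x :: r) := by
  show (1 / 2 : ℂ) * (pull eJ v : G × List (G ⊕ κ) → ℂ) (x, r) +
    (pull eL v : G × List (G ⊕ κ) → ℂ) (x, r) = _
  rw [eJ_apply, eL_apply]

theorem Wa_apply (y : Ext G κ) (r : List (G ⊕ κ)) :
    (Wa y : List (G ⊕ κ) → ℂ) r = (1 / 2 : ℂ) * (y : G × List (G ⊕ κ) → ℂ) (1, r) +
      (pull eL.symm y : List (G ⊕ κ) → ℂ) r := by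
  show (1 / 2 : ℂ) * (pull eJ.symm y : List (G ⊕ κ) → ℂ) r +
    (pull eL.symm y : List (G ⊕ κ) → ℂ) r = _
  rw [eJ_symm_apply]

/-- The compound Poisson element factors through the translation of the mark. -/
theorem genA_eq (g : G) : (genA g : Fock G κ →L[ℂ] Fock G κ) = Wa ∘L (U g ∘L Wf) := by
  classical
  refine ContinuousLinearMap.ext fun v => ?_
  ext l
  have hL : (genA g v : List (G ⊕ κ) → ℂ) l =
      (1 / 2 : ℂ) * ((cre (Sum.inl g) v : List (G ⊕ κ) → ℂ) l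
        + (ann (Sum.inl g⁻¹) v : List (G ⊕ κ) → ℂ) l)
      + (gau g v : List (G ⊕ κ) → ℂ) l
      + (if g = 1 then (1 / 4 : ℂ) else 0) * (v : List (G ⊕ κ) → ℂ) l := by
    rw [genA_def]; rfl
  rw [hL, ContinuousLinearMap.comp_apply, ContinuousLinearMap.comp_apply, Wa_apply, U_apply,
    Wf_apply, mul_one, ann_apply]
  rcases l with _ | ⟨x | x, r⟩
  · rw [cre_apply_nil, gau_apply_nil, eL_symm_nil]
    by_cases h : g = 1
    · rw [if_pos h, if_pos (inv_eq_one.2 h)]; ring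
    · rw [if_neg h, if_neg (fun h' => h (inv_eq_one.1 h'))]; ring
  · rw [cre_apply_cons, gau_apply_inl, eL_symm_inl, U_apply, Wf_apply]
    have e1 : (Sum.inl x = (Sum.inl g : G ⊕ κ)) = (g⁻¹ * x = 1) := by
      rw [inv_mul_eq_one]; simp [eq_comm]
    simp only [e1, inv_eq_one]
    by_cases h : g = 1 <;> by_cases h' : g⁻¹ * x = 1 <;> simp only [h', if_pos, if_neg, h,
      not_false_eq_true] <;> ring
  · rw [cre_apply_cons, gau_apply_inr, eL_symm_inr, if_neg (by simp)]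
    simp only [inv_eq_one]
    split_ifs <;> ring

theorem norm_U_le (g : G) : ‖(U g : Ext G κ →L[ℂ] Ext G κ)‖ ≤ 1 := norm_pull_le _

theorem norm_Wf_le : ‖(Wf : Fock G κ →L[ℂ] Ext G κ)‖ ≤ 3 / 2 := by
  refine (norm_add_le _ _).trans ?_
  rw [norm_smul]
  have h1 := norm_pull_le (eJ : G × List (G ⊕ κ) ≃. List (G ⊕ κ))
  have h2 := norm_pull_le (eL : G × List (G ⊕ κ) ≃. List (G ⊕ κ))
  norm_num
  linarith

theorem norm_Wa_le : ‖(Wa : Ext G κ →L[ℂ] Fock G κ)‖ ≤ 3 / 2 := by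
  rw [← adjoint_Wf, LinearIsometryEquiv.norm_map]
  exact norm_Wf_le

theorem norm_le_two_mul_Wa (y : Ext G κ) : ‖y‖ ≤ 2 * ‖Wa y‖ := by
  have h1 : pull eL (pull eL.symm y) = y := by
    ext ⟨x, r⟩
    simp [eL, PEquiv.symm]
  have h2 : ‖y‖ ≤ ‖pull eL.symm y‖ := by
    conv_lhs => rw [← h1]
    exact ((pull eL).le_opNorm _).trans (mul_le_of_le_one_left (norm_nonneg _) (norm_pull_le _))
  have h3 : ‖(1 / 2 : ℂ) • pull eJ.symm y‖ ≤ 1 / 2 * ‖y‖ := by
    rw [norm_smul]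
    refine mul_le_mul (by norm_num) ?_ (norm_nonneg _) (by norm_num)
    exact ((pull eJ.symm).le_opNorm _).trans
      (mul_le_of_le_one_left (norm_nonneg _) (norm_pull_le _))
  have h4 : ‖pull eL.symm y‖ - ‖(1 / 2 : ℂ) • pull eJ.symm y‖ ≤ ‖Wa y‖ := by
    have := norm_sub_norm_le (pull eL.symm y) (-((1 / 2 : ℂ) • pull eJ.symm y))
    rw [norm_neg, sub_neg_eq_add, add_comm] at this
    exact this
  linarith

/-- The positive operator on the marked lists. -/
noncomputable def Sf : Ext G κ →L[ℂ] Ext G κ := Wf ∘L Wa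

theorem re_inner_Sf (y : Ext G κ) : RCLike.re ⟪y, Sf y⟫_ℂ = ‖Wa y‖ ^ 2 := by
  rw [Sf, comp_apply, inner_Wf]
  exact inner_self_eq_norm_sq (𝕜 := ℂ) _

theorem inner_Sf (x y : Ext G κ) : ⟪x, Sf y⟫_ℂ = ⟪Sf x, y⟫_ℂ := by
  rw [Sf, comp_apply, comp_apply, inner_Wf, ← inner_conj_symm (Wf (Wa x)) y, inner_Wf,
    inner_conj_symm]

theorem norm_contract (y : Ext G κ) : ‖y - (4 / 5 : ℂ) • Sf y‖ ≤ 4 / 5 * ‖y‖ := by
  set P : Ext G κ → Ext G κ := fun z => Sf z - (1 / 4 : ℂ) • z with hP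
  set Q : Ext G κ → Ext G κ := fun z => (9 / 4 : ℂ) • z - Sf z with hQ
  have hPpos : ∀ z, 0 ≤ RCLike.re ⟪z, P z⟫_ℂ := fun z => by
    rw [hP]; simp only [inner_sub_right, inner_smul_right, map_sub, re_inner_Sf]
    rw [inner_self_eq_norm_sq_to_K]
    simp [← Complex.ofReal_pow]
    nlinarith [norm_le_two_mul_Wa z, norm_nonneg z]
  have hQpos : ∀ z, 0 ≤ RCLike.re ⟪z, Q z⟫_ℂ := fun z => by
    rw [hQ]; simp only [inner_sub_right, inner_smul_right, map_sub, re_inner_Sf]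
    rw [inner_self_eq_norm_sq_to_K]
    simp [← Complex.ofReal_pow]
    have := (Wa.le_opNorm z).trans (mul_le_mul_of_nonneg_right norm_Wa_le (norm_nonneg z))
    nlinarith [norm_nonneg (Wa z)]
  have hsum : P y + Q y = (2 : ℂ) • y := by rw [hP, hQ]; module
  have hdiff : y - (4 / 5 : ℂ) • Sf y = (2 / 5 : ℂ) • (Q y - P y) := by rw [hP, hQ]; module
  have hkey : 0 ≤ RCLike.re ⟪P y, Q y⟫_ℂ := by
    have e1 : ∀ a b, ⟪P a, b⟫_ℂ = ⟪a, P b⟫_ℂ := fun a b => by
      simp only [hP, inner_sub_left, inner_sub_right, inner_smul_left, inner_smul_right,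
        ← inner_Sf]
      simp [map_ofNat]
    have e2 : ∀ a b, ⟪Q a, b⟫_ℂ = ⟪a, Q b⟫_ℂ := fun a b => by
      simp only [hQ, inner_sub_left, inner_sub_right, inner_smul_left, inner_smul_right,
        ← inner_Sf]
      simp [map_ofNat]
    have e3 : ∀ a b, Q (a + b) = Q a + Q b := fun a b => by
      simp only [hQ, smul_add, map_add]; abel
    have e4 : ∀ a, P (Q a) = Q (P a) := fun a => by
      simp only [hP, hQ, map_sub, map_smul]; module
    have e5 : (2 : ℂ) * ⟪P y, Q y⟫_ℂ = ⟪P y, Q (P y)⟫_ℂ + ⟪Q y, P (Q y)⟫_ℂ := by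
      have : ⟪P y, Q ((2 : ℂ) • y)⟫_ℂ = (2 : ℂ) * ⟪P y, Q y⟫_ℂ := by
        rw [show Q ((2 : ℂ) • y) = (2 : ℂ) • Q y by simp only [hQ, map_smul]; module,
          inner_smul_right]
      rw [← this, ← hsum, e3, inner_add_right]
      congr 1
      rw [← e2 (P y), ← e4, e1]
    have := congrArg RCLike.re e5
    rw [map_add] at this
    have h2 : RCLike.re ((2 : ℂ) * ⟪P y, Q y⟫_ℂ) = 2 * RCLike.re ⟪P y, Q y⟫_ℂ := by simp
    linarith [hQpos (P y), hPpos (Q y)]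
  have hn : ‖Q y - P y‖ ^ 2 ≤ (2 * ‖y‖) ^ 2 := by
    have h1 := norm_sub_sq (𝕜 := ℂ) (Q y) (P y)
    have h2 := norm_add_sq (𝕜 := ℂ) (Q y) (P y)
    have h3 : RCLike.re ⟪Q y, P y⟫_ℂ = RCLike.re ⟪P y, Q y⟫_ℂ := inner_re_symm _ _
    rw [add_comm (Q y), hsum, norm_smul] at h2
    norm_num at h2
    simp only [RCLike.re_to_complex] at h1 h3 hkey
    nlinarith
  rw [hdiff, norm_smul]
  have := le_of_pow_le_pow_left₀ two_ne_zero (by positivity) hn
  norm_num
  linarith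

/-- The middle factor. -/
noncomputable def Zf (D : ℕ) : Ext G κ →L[ℂ] Ext G κ := Sf * qv D Sf

theorem norm_one_sub_Zf (D : ℕ) : ‖1 - (Zf D : Ext G κ →L[ℂ] Ext G κ)‖ ≤ (4 / 5 : ℝ) ^ D := by
  rw [Zf, one_sub_mul_qv]
  have h : ‖1 - (4 / 5 : ℂ) • (Sf : Ext G κ →L[ℂ] Ext G κ)‖ ≤ 4 / 5 :=
    opNorm_le_bound _ (by norm_num) fun y => by
      simpa using norm_contract y
  induction D with
  | zero => simp only [pow_zero]; exact norm_id_le
  | succ D ih =>
    rw [pow_succ, pow_succ]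
    exact (norm_mul_le _ _).trans (mul_le_mul ih h (norm_nonneg _) (by positivity))

theorem comp_qv (D : ℕ) :
    Wf ∘L qv D (Wa ∘L Wf : Fock G κ →L[ℂ] Fock G κ) = qv D Sf ∘L Wf := by
  induction D with
  | zero => simp [qv]
  | succ D ih =>
    refine ContinuousLinearMap.ext fun v => ?_
    have h := fun w => congrArg (fun T : Fock G κ →L[ℂ] Ext G κ => T w) ih
    simp only [comp_apply] at h
    simp [qv, Sf, map_add, map_sub, map_smul, h]

/-- The exact chain. -/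
noncomputable def mid {ι : Type*} (g : ι → G) (D : ℕ) : List ι → (Ext G κ →L[ℂ] Ext G κ)
  | [] => 1
  | [a] => U (g a)
  | a :: b :: r => U (g a) * Zf D * mid g D (b :: r)

theorem chain_genA {ι : Type*} (g : ι → G) (D : ℕ) : ∀ l : List ι, l ≠ [] →
    chain (fun j => (genA (g j) : Fock G κ →L[ℂ] Fock G κ)) (qv D (genA 1)) l =
      Wa ∘L (mid g D l ∘L Wf)
  | [], h => absurd rfl h
  | [a], _ => by simp [chain, mid, genA_eq]
  | a :: b :: r, _ => by
    rw [chain, mid, chain_genA g D (b :: r) (by simp)]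
    refine ContinuousLinearMap.ext fun v => ?_
    have h := fun w => congrArg (fun T : Fock G κ →L[ℂ] Ext G κ => T w) (comp_qv D)
    simp only [comp_apply] at h
    have hc := fun w => congrArg (fun T : Ext G κ →L[ℂ] Ext G κ => T w)
      (commute_qv D (Sf : Ext G κ →L[ℂ] Ext G κ)).eq
    simp only [mul_def, comp_apply] at hc
    have hS : ∀ w : Ext G κ, Wf (Wa w) = Sf w := fun w => rfl
    have h1 : (genA 1 : Fock G κ →L[ℂ] Fock G κ) = Wa ∘L Wf := by
      rw [genA_eq, U_one]; exact ContinuousLinearMap.ext fun w => rfl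
    rw [h1]
    simp only [mul_def, comp_apply, genA_eq]
    rw [h, hS, Zf, mul_def, comp_apply, hc]

theorem mid_bound {ι : Type*} (g : ι → G) (D : ℕ) : ∀ l : List ι, l ≠ [] →
    ‖(mid g D l : Ext G κ →L[ℂ] Ext G κ)‖ ≤ (1 + (4 / 5 : ℝ) ^ D) ^ l.length ∧
      ‖(mid g D l : Ext G κ →L[ℂ] Ext G κ) - U (l.map g).prod‖ ≤
        (1 + (4 / 5 : ℝ) ^ D) ^ l.length - 1
  | [], h => absurd rfl h
  | [a], _ => by
    have : 1 ≤ 1 + (4 / 5 : ℝ) ^ D := by linarith [pow_nonneg (by norm_num : (0 : ℝ) ≤ 4 / 5) D]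
    have hη : 0 ≤ (4 / 5 : ℝ) ^ D := by positivity
    simp [mid, (norm_U_le (g a)).trans this, hη]
  | a :: b :: r, _ => by
    obtain ⟨h1, h2⟩ := mid_bound g D (b :: r) (by simp)
    set η := (4 / 5 : ℝ) ^ D
    set T : Ext G κ →L[ℂ] Ext G κ := mid g D (b :: r)
    set u : Ext G κ →L[ℂ] Ext G κ := U ((b :: r).map g).prod
    have hu := norm_U_le (κ := κ) (g a)
    have hη : 0 ≤ η := by positivity
    have hZ : ‖(Zf D : Ext G κ →L[ℂ] Ext G κ) - 1‖ ≤ η := by
      rw [norm_sub_rev]; exact norm_one_sub_Zf D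
    have e1 : U (g a) * (Zf D : Ext G κ →L[ℂ] Ext G κ) * T =
        U (g a) * ((Zf D - 1) * T + T) := by noncomm_ring
    have hlen : (a :: b :: r).length = (b :: r).length + 1 := rfl
    have hm : ∀ {x : Ext G κ →L[ℂ] Ext G κ}, ‖U (g a) * x‖ ≤ ‖x‖ := fun {x} =>
      (norm_mul_le _ _).trans (mul_le_of_le_one_left (norm_nonneg _) hu)
    have hZT : ‖((Zf D : Ext G κ →L[ℂ] Ext G κ) - 1) * T‖ ≤ η * (1 + η) ^ (b :: r).length :=
      (norm_mul_le _ _).trans (mul_le_mul hZ h1 (norm_nonneg _) hη)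
    constructor
    · rw [mid, hlen, pow_succ, e1]
      refine hm.trans ((norm_add_le _ _).trans ?_)
      linarith
    · rw [mid, List.map_cons, List.prod_cons, U_mul, e1,
        show U (g a) * ((Zf D - 1) * T + T) - U (g a) * u =
          U (g a) * ((Zf D - 1) * T + (T - u)) by noncomm_ring, hlen, pow_succ]
      refine hm.trans ((norm_add_le _ _).trans ?_)
      linarith

/-- The decoded chain of exact elements is near the element of the product. -/
theorem chain_genA_near {ι : Type*} (g : ι → G) (D : ℕ) {l : List ι} (hl : l ≠ []) :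
    ‖chain (fun j => (genA (g j) : Fock G κ →L[ℂ] Fock G κ)) (qv D (genA 1)) l
        - genA (l.map g).prod‖ ≤ 9 / 4 * ((1 + (4 / 5 : ℝ) ^ D) ^ l.length - 1) := by
  rw [chain_genA g D l hl, genA_eq (l.map g).prod,
    show (Wa ∘L (mid g D l ∘L Wf) : Fock G κ →L[ℂ] Fock G κ) - Wa ∘L (U (l.map g).prod ∘L Wf) =
      Wa ∘L ((mid g D l - U (l.map g).prod) ∘L Wf) by simp [sub_comp, comp_sub]]
  refine (opNorm_comp_le _ _).trans ?_
  refine (mul_le_mul norm_Wa_le ((opNorm_comp_le _ _).trans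
    (mul_le_mul (mid_bound g D l hl).2 norm_Wf_le (norm_nonneg _)
      (sub_nonneg.2 (one_le_pow₀ (by linarith [pow_nonneg (by norm_num : (0 : ℝ) ≤ 4 / 5) D])))))
    (norm_nonneg _) (by norm_num)).trans_eq ?_
  ring

theorem norm_genA_le (g : G) : ‖(genA g : Fock G κ →L[ℂ] Fock G κ)‖ ≤ 9 / 4 := by
  rw [genA_eq]
  refine (opNorm_comp_le _ _).trans ((mul_le_mul norm_Wa_le ((opNorm_comp_le _ _).trans
    (mul_le_mul (norm_U_le g) norm_Wf_le (norm_nonneg _) zero_le_one)) (norm_nonneg _)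
      (by norm_num)).trans_eq (by norm_num))

theorem norm_genS_le (a : κ) : ‖(genS a : Fock G κ →L[ℂ] Fock G κ)‖ ≤ 2 :=
  ((norm_add_le _ _).trans (add_le_add (norm_cre_le _) (norm_ann_le _))).trans_eq (by norm_num)

end Vale.Agent.P087.Decode
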