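import Mathlib

/-!
# Microstates and non-microstates free entropy (P087)

Tracial von Neumann algebras are presented in standard form: a von Neumann algebra `M` on a
Hilbert space with a unit vector `Ω` whose vector state is tracial and faithful on `M`.
All definitions are the ones of the problem file.
-/

open scoped InnerProductSpace ENNReal
open MeasureTheory Filter

namespace Vale.Agent.P087

variable {H : Type*} [NormedAddCommGroup H] [InnerProductSpace ℂ H] [CompleteSpace H]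
variable {n : ℕ}

/-- the vector state of `Ω` -/
noncomputable def tau (Ω : H) (a : H →L[ℂ] H) : ℂ := ⟪Ω, a Ω⟫_ℂ

/-- `Ω` gives a faithful tracial state on `M` (it is normal, being a vector state). -/
def IsTracialVector (M : VonNeumannAlgebra H) (Ω : H) : Prop :=
  ‖Ω‖ = 1 ∧ (∀ a ∈ M, ∀ b ∈ M, tau Ω (a * b) = tau Ω (b * a)) ∧
    (∀ a ∈ M, tau Ω (star a * a) = 0 → a = 0)

/-- the product of the operators of a word -/
noncomputable def wordOp {ι : Type*} (X : ι → H →L[ℂ] H) (w : List ι) : H →L[ℂ] H :=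
  (w.map X).prod

/-- the product of the matrices of a word -/
def wordMat {ι : Type*} {k : ℕ} (A : ι → Matrix (Fin k) (Fin k) ℂ) (w : List ι) :
    Matrix (Fin k) (Fin k) ℂ :=
  (w.map A).prod

/-- the normalised trace -/
noncomputable def ntr {k : ℕ} (A : Matrix (Fin k) (Fin k) ℂ) : ℂ := (k : ℂ)⁻¹ * A.trace

/-- Orthonormal real coordinates on the self-adjoint `k × k` matrices for `⟪A,B⟫ = Tr (AB)`:
diagonal entry `x i i`; for `i < j` the entry is `(x i j + I * x j i) / √2`. -/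
noncomputable def hermOf {k : ℕ} (x : Fin k → Fin k → ℝ) : Matrix (Fin k) (Fin k) ℂ :=
  Matrix.of fun i j =>
    if i = j then (x i i : ℂ)
    else if i < j then ((x i j : ℂ) + Complex.I * (x j i : ℂ)) / (Real.sqrt 2 : ℂ)
    else ((x j i : ℂ) - Complex.I * (x i j : ℂ)) / (Real.sqrt 2 : ℂ)

/-- the microstates `Γ_R(X; m, k, ε)`, in these coordinates -/
def microstates (Ω : H) (X : Fin n → H →L[ℂ] H) (R : ℝ) (m k : ℕ) (ε : ℝ) :
    Set (Fin n → Fin k → Fin k → ℝ) :=
  {x | (∀ j, ‖Matrix.toEuclideanCLM (𝕜 := ℂ) (hermOf (x j))‖ ≤ R) ∧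
    ∀ w : List (Fin n), 1 ≤ w.length → w.length ≤ m →
      ‖ntr (wordMat (fun j => hermOf (x j)) w) - tau Ω (wordOp X w)‖ < ε}

/-- `χ_R(X)`: Lebesgue volume, natural logarithm, `log 0 = -∞`. -/
noncomputable def chiR (Ω : H) (X : Fin n → H →L[ℂ] H) (R : ℝ) : EReal :=
  ⨅ (m : ℕ) (ε : ℝ) (_ : 0 < ε),
    limsup (fun k : ℕ =>
      ((((k : ℝ) ^ 2)⁻¹ : ℝ) : EReal) * ENNReal.log (volume (microstates Ω X R m k ε))
        + (((n : ℝ) / 2 * Real.log k : ℝ) : EReal)) atTop

/-- Voiculescu's microstates free entropy -/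
noncomputable def chi (Ω : H) (X : Fin n → H →L[ℂ] H) : EReal :=
  ⨆ (R : ℝ) (_ : 0 < R), chiR Ω X R

/-- `(τ ⊗ τ) (∂_j w)` for the free difference quotient of a word -/
noncomputable def dqValue (Ω : H) (X : Fin n → H →L[ℂ] H) (j : Fin n) (w : List (Fin n)) : ℂ :=
  ∑ l : Fin w.length,
    if w.get l = j then tau Ω (wordOp X (w.take l)) * tau Ω (wordOp X (w.drop (l + 1))) else 0

/-- the `L²` space of `W*(X)`: the closed span of the vectors `P(X)Ω` -/
noncomputable def cyclicSpace (Ω : H) (X : Fin n → H →L[ℂ] H) : Submodule ℂ H :=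
  (Submodule.span ℂ (Set.range fun w : List (Fin n) => wordOp X w Ω)).topologicalClosure

/-- `ξ` is the vector of the (adjoint of the) `j`-th conjugate variable: `τ(ξ_j P) = τ⊗τ(∂_j P)`. -/
def IsConjVar (Ω : H) (X : Fin n → H →L[ℂ] H) (j : Fin n) (ξ : H) : Prop :=
  ξ ∈ cyclicSpace Ω X ∧ ∀ w : List (Fin n), ⟪ξ, wordOp X w Ω⟫_ℂ = dqValue Ω X j w

/-- free Fisher information (`+∞` if some conjugate variable does not exist) -/
noncomputable def fisher (Ω : H) (X : Fin n → H →L[ℂ] H) : ℝ≥0∞ :=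
  ∑ j, ⨅ (ξ : H) (_ : IsConjVar Ω X j ξ), ENNReal.ofReal (‖ξ‖ ^ 2)

/-- the tuple `X + √t S` -/
noncomputable def addNoise (X S : Fin n → H →L[ℂ] H) (t : ℝ) (j : Fin n) : H →L[ℂ] H :=
  X j + (Real.sqrt t : ℂ) • S j

/-- the integrand in the formula for `χ*` -/
noncomputable def entropyIntegrand (Ω : H) (X S : Fin n → H →L[ℂ] H) (t : ℝ) : ℝ :=
  (n : ℝ) / (1 + t) - (fisher Ω (addNoise X S t)).toReal

/-- non-microstates free entropy (to be used with finite Fisher information and an integrable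
integrand) -/
noncomputable def chiStar (Ω : H) (X S : Fin n → H →L[ℂ] H) : ℝ :=
  (1 / 2) * (∫ t in Set.Ioi (0 : ℝ), entropyIntegrand Ω X S t)
    + (n : ℝ) / 2 * Real.log (2 * Real.pi * Real.exp 1)

/-- standard semicircular law: odd moments `0`, even moments the Catalan numbers -/
def IsSemicircular (Ω : H) (s : H →L[ℂ] H) : Prop :=
  ∀ p : ℕ, tau Ω (s ^ p) = if Even p then (catalan (p / 2) : ℂ) else 0

/-- freeness of a family of unital subalgebras -/
def IsFreeFamily {κ : Type*} (Ω : H) (A : κ → Subalgebra ℂ (H →L[ℂ] H)) : Prop :=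
  ∀ (p : ℕ) (i : Fin (p + 1) → κ) (a : Fin (p + 1) → H →L[ℂ] H),
    (∀ q, a q ∈ A (i q) ∧ tau Ω (a q) = 0) → (∀ q : Fin p, i q.castSucc ≠ i q.succ) →
      tau Ω (List.ofFn a).prod = 0

/-- `S` consists of free standard semicircular elements, free from `X` -/
def IsFreeSemicircularFrom (Ω : H) (X S : Fin n → H →L[ℂ] H) : Prop :=
  (∀ j, IsSemicircular Ω (S j)) ∧
    IsFreeFamily Ω (fun o : Option (Fin n) =>
      Option.elim o (Algebra.adjoin ℂ (Set.range X)) (fun j => Algebra.adjoin ℂ {S j}))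

/-- The negation of Q1: a tuple in a tracial von Neumann algebra with `χ > -∞` and `χ < χ*`,
all the Fisher informations being finite and the defining integral absolutely convergent. -/
def EntropiesDiffer : Prop :=
  ∃ (n : ℕ) (H : Type) (_ : NormedAddCommGroup H) (_ : InnerProductSpace ℂ H)
    (_ : CompleteSpace H) (M : VonNeumannAlgebra H) (Ω : H) (X S : Fin n → H →L[ℂ] H),
    IsTracialVector M Ω ∧
      (∀ j, X j ∈ M ∧ IsSelfAdjoint (X j) ∧ S j ∈ M ∧ IsSelfAdjoint (S j)) ∧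
      IsFreeSemicircularFrom Ω X S ∧
      (∀ t : ℝ, 0 ≤ t → fisher Ω (addNoise X S t) ≠ ⊤) ∧
      IntegrableOn (entropyIntegrand Ω X S) (Set.Ioi 0) ∧
      ⊥ < chi Ω X ∧ chi Ω X < (chiStar Ω X S : EReal)

end Vale.Agent.P087
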