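import Vale.Agent.P087.Block1.Recursion
import Vale.Agent.P087.Pins

/-!
# Block 2: freeness of the semicircular tuple from the model (P087)

Letters fall into classes: the letters used by `modelX`, and one class for each `modelS j`. An element
of the algebra of one class acts on `l ++ r` (`l` inside the class, `r` not starting in it) through
`l` only; so an alternating product of centred elements sends `Ω` to lists starting in the first class.
-/

open scoped InnerProductSpace ENNReal

namespace Vale.Agent.P087.Freeness

open Classical Block1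

set_option linter.unusedSectionVars false

section General

variable {G : Type*} [Group G] {κ : Type*}

/-- `v` is supported on the lists satisfying `P` -/
def Supp (P : List (G ⊕ κ) → Prop) (v : Fock G κ) : Prop :=
  ∀ l, ¬ P l → (v : List (G ⊕ κ) → ℂ) l = 0

lemma Supp.add {P : List (G ⊕ κ) → Prop} {v w : Fock G κ} (hv : Supp P v) (hw : Supp P w) :
    Supp P (v + w) := fun l hl => by simp [hv l hl, hw l hl]

lemma Supp.smul {P : List (G ⊕ κ) → Prop} (c : ℂ) {v : Fock G κ} (hv : Supp P v) :
    Supp P (c • v) := fun l hl => by simp [hv l hl]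

lemma supp_zero (P : List (G ⊕ κ) → Prop) : Supp P (0 : Fock G κ) := fun l _ => by simp

lemma supp_bv {P : List (G ⊕ κ) → Prop} {l : List (G ⊕ κ)} (h : P l) : Supp P (bv l) :=
  fun m hm => by
    rw [bv_apply, if_neg]
    rintro rfl
    exact hm h

lemma ext_supp {F : Type*} [NormedAddCommGroup F] [NormedSpace ℂ F]
    {S T : Fock G κ →L[ℂ] F} {P : List (G ⊕ κ) → Prop} {v : Fock G κ} (hv : Supp P v)
    (h : ∀ l, P l → S (bv l) = T (bv l)) : S v = T v := by
  have hs := lp.hasSum_single (p := 2) (by norm_num) v
  have e : (fun l => S (lp.single 2 l ((v : List (G ⊕ κ) → ℂ) l))) =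
      fun l => T (lp.single 2 l ((v : List (G ⊕ κ) → ℂ) l)) := by
    funext l
    by_cases hl : P l
    · have : (lp.single 2 l ((v : List (G ⊕ κ) → ℂ) l) : Fock G κ)
          = ((v : List (G ⊕ κ) → ℂ) l) • bv l := by
        rw [bv, ← lp.single_smul, smul_eq_mul, mul_one]
      rw [this, map_smul, map_smul, h l hl]
    · simp [hv l hl]
  refine HasSum.unique (hs.mapL S) ?_
  rw [e]
  exact hs.mapL T

lemma supp_map {T : Fock G κ →L[ℂ] Fock G κ} {P Q : List (G ⊕ κ) → Prop} {v : Fock G κ}
    (hv : Supp P v) (h : ∀ l, P l → Supp Q (T (bv l))) : Supp Q (T v) := fun m hm => by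
  have := ext_supp (S := (innerSL ℂ (bv m)).comp T) (T := 0) hv fun l hl => by
    simpa [inner_bv] using h l hl m hm
  simpa [inner_bv] using this

/-- append a list on the right -/
noncomputable def appR : List (G ⊕ κ) → (Fock G κ →L[ℂ] Fock G κ)
  | [] => 1
  | z :: r => appR r * app z

lemma appR_bv : ∀ (r l : List (G ⊕ κ)), appR r (bv l) = bv (l ++ r)
  | [], l => by simp [appR]
  | z :: r, l => by simp [appR, app_bv, appR_bv r]

lemma down_appR (a y : G ⊕ κ) :
    ∀ (r t : List (G ⊕ κ)), down a y (t ++ r) = appR r (down a y t)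
  | [], t => by simp [appR]
  | z :: r, t => by
    rw [show t ++ z :: r = t ++ [z] ++ r by simp, down_appR a y r, down_append]
    rfl

variable {C : Type*} (cl : G ⊕ κ → C) (i : C)

/-- all letters in the class `i` -/
def InCl (l : List (G ⊕ κ)) : Prop := ∀ x ∈ l, cl x = i

/-- the first letter is not in the class `i` -/
def Out (l : List (G ⊕ κ)) : Prop := ∀ x s, l = x :: s → cl x ≠ i

/-- nonempty, with first letter in the class `i` -/
def Head (l : List (G ⊕ κ)) : Prop := ∃ x s, l = x :: s ∧ cl x = i

/-- `a` acts only on the maximal initial segment of the class `i` -/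
def Good (a : Fock G κ →L[ℂ] Fock G κ) : Prop :=
  (∀ v, Supp (InCl cl i) v → Supp (InCl cl i) (a v)) ∧
    ∀ r, Out cl i r → ∀ v, Supp (InCl cl i) v → a (appR r v) = appR r (a v)

variable {cl i}

lemma Good.add {a b : Fock G κ →L[ℂ] Fock G κ} (ha : Good cl i a) (hb : Good cl i b) :
    Good cl i (a + b) :=
  ⟨fun v hv => (ha.1 v hv).add (hb.1 v hv), fun r hr v hv => by
    simp [ha.2 r hr v hv, hb.2 r hr v hv]⟩

lemma Good.mul {a b : Fock G κ →L[ℂ] Fock G κ} (ha : Good cl i a) (hb : Good cl i b) :
    Good cl i (a * b) :=
  ⟨fun v hv => ha.1 _ (hb.1 v hv), fun r hr v hv => by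
    simp [hb.2 r hr v hv, ha.2 r hr _ (hb.1 v hv)]⟩

lemma good_smul_one (z : ℂ) : Good cl i (z • (1 : Fock G κ →L[ℂ] Fock G κ)) :=
  ⟨fun v hv => by simpa using hv.smul z, fun r _ v _ => by simp⟩

lemma Good.smul {a : Fock G κ →L[ℂ] Fock G κ} (z : ℂ) (ha : Good cl i a) : Good cl i (z • a) :=
  ⟨fun v hv => (ha.1 v hv).smul z, fun r hr v hv => by simp [ha.2 r hr v hv]⟩

lemma good_genOp (hinl : ∀ g h : G, cl (Sum.inl g) = cl (Sum.inl h)) (a : G ⊕ κ) (ha : cl a = i) :
    Good cl i (genOp a) := by
  constructor
  · intro v hv
    refine supp_map hv fun l hl => ?_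
    rcases l with _ | ⟨x, s⟩
    · rw [genOp_nil]
      exact ((supp_bv (by simp [InCl])).smul _).add ((supp_bv (by simp [InCl, ha])).smul _)
    · have hs : InCl cl i s := fun y hy => hl y (List.mem_cons_of_mem x hy)
      have hx : cl x = i := hl x (by simp)
      rw [genOp_cons]
      refine (((supp_bv hl).smul _).add ((supp_bv ?_).smul _)).add ?_
      · intro y hy
        rcases List.mem_cons.1 hy with rfl | hy
        · exact ha
        · exact hl y hy
      · rcases a with g | a <;> rcases x with y | b <;> simp only [down]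
        · refine ((supp_bv hs).smul _).add (supp_bv ?_)
          intro z hz
          rcases List.mem_cons.1 hz with rfl | hz
          · exact (hinl _ _).trans ha
          · exact hs z hz
        · exact supp_zero _
        · exact supp_zero _
        · exact (supp_bv hs).smul _
  · intro r hr v hv
    refine ext_supp (S := (genOp a).comp (appR r)) (T := (appR r).comp (genOp a)) hv fun l hl => ?_
    simp only [ContinuousLinearMap.comp_apply]
    rw [appR_bv]
    rcases l with _ | ⟨y, t⟩
    · rcases r with _ | ⟨x, s⟩
      · simp [appR]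
      · have hx : cl x ≠ i := hr x s rfl
        have h0 : down a x s = 0 := by
          rcases a with g | a <;> rcases x with y | b <;> simp only [down]
          · exact absurd ((hinl y g).trans ha) hx
          · rw [ind, if_neg, zero_smul]
            rintro rfl
            exact hx ha
        simp [genOp_cons, genOp_nil, h0, appR_bv]
    · rw [List.cons_append, genOp_cons, genOp_cons, down_appR]
      simp [appR_bv]

/-- a centred element maps lists starting outside its class to lists starting inside -/
lemma supp_apply {a : Fock G κ →L[ℂ] Fock G κ} (ha : Good cl i a) (h0 : tau (vac G κ) a = 0)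
    {v : Fock G κ} (hv : Supp (Out cl i) v) : Supp (Head cl i) (a v) := by
  have hnil : Supp (InCl cl i) (bv ([] : List (G ⊕ κ))) := supp_bv (by simp [InCl])
  have hP : Supp (fun l => InCl cl i l ∧ l ≠ []) (a (bv [])) := fun l hl => by
    by_cases hl0 : l = []
    · subst hl0
      rw [← inner_bv]
      exact h0
    · exact ha.1 _ hnil l fun h => hl ⟨h, hl0⟩
  refine supp_map hv fun r hr => ?_
  have e : a (bv r) = appR r (a (bv [])) := by
    have := ha.2 r hr _ hnil
    rwa [appR_bv, List.nil_append] at this
  rw [e]
  refine supp_map hP fun l hl => ?_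
  rw [appR_bv]
  rcases l with _ | ⟨x, s⟩
  · exact absurd rfl hl.2
  · exact supp_bv ⟨x, s ++ r, rfl, hl.1 x (by simp)⟩

/-- alternating products of centred elements -/
lemma supp_prod : ∀ (p : ℕ) (i : Fin (p + 1) → C) (a : Fin (p + 1) → Fock G κ →L[ℂ] Fock G κ),
    (∀ q, Good cl (i q) (a q) ∧ tau (vac G κ) (a q) = 0) →
    (∀ q : Fin p, i q.castSucc ≠ i q.succ) →
      Supp (Head cl (i 0)) ((List.ofFn a).prod (bv []))
  | 0, i, a, ha, _ => by
    have h1 : Supp (Out cl (i 0)) (bv ([] : List (G ⊕ κ))) :=
      supp_bv fun x s h => by simp at h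
    simpa using supp_apply (ha 0).1 (ha 0).2 h1
  | p + 1, i, a, ha, hi => by
    have ih := supp_prod p (fun q => i q.succ) (fun q => a q.succ) (fun q => ha q.succ) fun q => by
      simpa [← Fin.castSucc_succ] using hi q.succ
    rw [List.ofFn_succ, List.prod_cons]
    refine supp_apply (ha 0).1 (ha 0).2 fun l hl => ih l ?_
    rintro ⟨x, s, rfl, hx⟩
    refine hl fun x' s' h => ?_
    obtain ⟨rfl, -⟩ := List.cons.inj h
    rw [hx]
    simpa using (hi 0).symm

end General

lemma splitSum_replicate {P : Type*} (x : P) : ∀ (p : ℕ) (F : List P → P → List P → ℂ),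
    splitSum (List.replicate p x) F =
      ∑ l ∈ Finset.range p, F (List.replicate l x) x (List.replicate (p - 1 - l) x)
  | 0, F => by simp [splitSum]
  | p + 1, F => by
    rw [List.replicate_succ, splitSum_cons, splitSum_replicate x p, Finset.sum_range_succ']
    simp only [List.replicate_zero, List.replicate_succ, Nat.add_sub_cancel, Nat.sub_zero]
    rw [add_comm]
    refine congrArg (· + _) (Finset.sum_congr rfl fun l hl => ?_)
    rw [show p - (l + 1) = p - 1 - l by omega]

lemma semicircular {G : Type} [Group G] {κ : Type} (a : κ) :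
    IsSemicircular (vac G κ) (genS a) := by
  set x : G ⊕ κ := Sum.inr a
  have hw : ∀ p, genS (G := G) a ^ p = wordOp genOp (List.replicate p x) := fun p => by
    simp [wordOp, List.map_replicate, List.prod_replicate, x, genOp]
  set m : ℕ → ℂ := fun p => tau (vac G κ) (genS a ^ p) with hm
  have h0 : m 0 = 1 := by
    show tau (vac G κ) (genS a ^ 0) = 1
    rw [pow_zero, tau, one_apply_eq_self, vac_eq, inner_bv, bv_apply, if_pos rfl]
  have hrec : ∀ p, m (p + 1) = ∑ l ∈ Finset.range p, m l * m (p - 1 - l) := fun p => by
    simp only [hm]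
    rw [hw, List.replicate_succ', (recursionPin_holds G κ (List.replicate p x)).2 a,
      splitSum_replicate]
    refine Finset.sum_congr rfl fun l _ => ?_
    rw [if_pos rfl, hw, hw]
  suffices h : ∀ k, m (2 * k) = (catalan k : ℂ) ∧ m (2 * k + 1) = 0 by
    intro p
    obtain ⟨k, rfl | rfl⟩ := Nat.even_or_odd' p
    · rw [if_pos (even_two_mul k), Nat.mul_div_cancel_left k two_pos]; exact (h k).1
    · rw [if_neg (Nat.not_even_two_mul_add_one k)]; exact (h k).2
  intro k
  induction k using Nat.strong_induction_on with
  | _ k ih =>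
    have odd0 : ∀ j, j < 2 * k → Odd j → m j = 0 := fun j hj ⟨t, ht⟩ => by
      subst ht; exact (ih t (by omega)).2
    have he : m (2 * k) = (catalan k : ℂ) := by
      rcases k with _ | k
      · simpa using h0
      rw [show 2 * (k + 1) = (2 * k + 1) + 1 by ring, hrec, catalan_succ, Nat.cast_sum]
      rw [← Finset.sum_filter_add_sum_filter_not (Finset.range (2 * k + 1)) Even,
        Finset.sum_eq_zero (s := Finset.filter (fun l => ¬ Even l) _) (fun l hl => ?_), add_zero]
      · rw [Fin.sum_univ_eq_sum_range (fun i => (((catalan i * catalan (k - i) : ℕ)) : ℂ))]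
        refine Finset.sum_nbij' (fun l => l / 2) (fun i => 2 * i) ?_ ?_ ?_ ?_ ?_
        · intro l hl
          obtain ⟨h1, t, rfl⟩ := Finset.mem_filter.1 hl |>.imp Finset.mem_range.1 id
          exact Finset.mem_range.2 (by omega)
        · intro i hi
          exact Finset.mem_filter.2 ⟨Finset.mem_range.2 (by have := Finset.mem_range.1 hi; omega),
            even_two_mul i⟩
        · intro l hl
          exact Nat.mul_div_cancel' (Finset.mem_filter.1 hl).2.two_dvd
        · intro i _
          exact Nat.mul_div_cancel_left i two_pos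
        · intro l hl
          obtain ⟨h1, h2⟩ := Finset.mem_filter.1 hl
          have h1 := Finset.mem_range.1 h1
          obtain ⟨t, rfl⟩ := h2
          rw [show (t + t) / 2 = t by omega, show t + t = 2 * t by ring,
            show 2 * k + 1 - 1 - 2 * t = 2 * (k - t) by omega, (ih t (by omega)).1,
            (ih (k - t) (by omega)).1]
          push_cast
          rfl
      · obtain ⟨h1, h2⟩ := Finset.mem_filter.1 hl
        rw [odd0 l (by have := Finset.mem_range.1 h1; omega) (Nat.not_even_iff_odd.1 h2), zero_mul]
    refine ⟨he, ?_⟩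
    rw [hrec]
    refine Finset.sum_eq_zero fun l hl => ?_
    have hl' := Finset.mem_range.1 hl
    rcases Nat.even_or_odd l with h1 | h1
    · obtain ⟨t, rfl⟩ := h1
      rw [odd0 (2 * k - 1 - (t + t)) (by omega) ⟨k - 1 - t, by omega⟩, mul_zero]
    · rw [odd0 l hl' h1, zero_mul]

end Vale.Agent.P087.Freeness

namespace Vale.Agent.P087

open Freeness in
/-- Block 2. -/
theorem freenessPin_holds : FreenessPin := by
  intro G _ n g c
  refine ⟨fun j => semicircular (Sum.inr j), ?_⟩
  intro p i a ha hi
  set cl : G ⊕ (Fin n ⊕ Fin n) → Option (Fin n) :=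
    Sum.elim (fun _ => none) (Sum.elim (fun _ => none) some) with hcl
  have hgen : ∀ x, Good cl (cl x) (genOp x) := fun x => good_genOp (fun _ _ => rfl) x rfl
  have hgood : ∀ (o : Option (Fin n)) (b : _),
      b ∈ Option.elim o (Algebra.adjoin ℂ (Set.range (modelX g c)))
        (fun j => Algebra.adjoin ℂ {modelS (G := G) j}) → Good cl o b := by
    intro o b hb
    rcases o with _ | j <;> simp only [Option.elim] at hb
    · induction hb using Algebra.adjoin_induction with
      | mem x hx =>
        obtain ⟨j, rfl⟩ := hx
        exact (hgen (Sum.inl (g j))).add ((hgen (Sum.inr (Sum.inl j))).smul _)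
      | algebraMap z => rw [Algebra.algebraMap_eq_smul_one]; exact good_smul_one z
      | add x y _ _ hx hy => exact hx.add hy
      | mul x y _ _ hx hy => exact hx.mul hy
    · induction hb using Algebra.adjoin_induction with
      | mem x hx =>
        rw [Set.mem_singleton_iff] at hx
        subst hx
        exact hgen (Sum.inr (Sum.inr j))
      | algebraMap z => rw [Algebra.algebraMap_eq_smul_one]; exact good_smul_one z
      | add x y _ _ hx hy => exact hx.add hy
      | mul x y _ _ hx hy => exact hx.mul hy
  have h := supp_prod (cl := cl) p i a (fun q => ⟨hgood _ _ (ha q).1, (ha q).2⟩) hi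
  rw [tau, Block1.vac_eq, Block1.inner_bv]
  exact h [] fun ⟨x, s, hxs, _⟩ => by simp at hxs

end Vale.Agent.P087
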