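import Vale.Agent.P087.Pins

/-!
# Block 5 of the P087 disproof: the group, finite separation and the word count
-/

namespace Vale.Agent.P087.GroupBlock

open Finset Filter

/-- Adjacent letters differ. -/
def Apart (l : List (Fin 4)) : Prop := List.IsChain (fun x y => x ≠ y) l

/-- Multiply a reduced word by one letter on the left. -/
def act (i : Fin 4) : List (Fin 4) → List (Fin 4)
  | [] => [i]
  | x :: l => if x = i then l else i :: x :: l

/-- The reduced form of a word. -/
def red (w : List (Fin 4)) : List (Fin 4) := w.foldr act []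

lemma apart_act (i : Fin 4) {l : List (Fin 4)} (h : Apart l) : Apart (act i l) := by
  unfold Apart at *
  rcases l with _ | ⟨x, l⟩
  · simp [act]
  · simp only [act]
    split_ifs with hx
    · exact h.tail
    · exact List.isChain_cons.2 ⟨by simpa using Ne.symm hx, h⟩

lemma act_act (i : Fin 4) {l : List (Fin 4)} (h : Apart l) : act i (act i l) = l := by
  rcases l with _ | ⟨x, l⟩
  · simp [act]
  · by_cases hx : x = i
    · subst hx
      rcases l with _ | ⟨y, l⟩
      · simp [act]
      · have hne : x ≠ y := by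
          have := (List.isChain_cons.1 h).1
          simpa using this
        simp [act, hne.symm]
    · simp [act, hx]

lemma act_length (i : Fin 4) (l : List (Fin 4)) :
    (act i l).length ≤ l.length + 1 ∧ l.length ≤ (act i l).length + 1 := by
  rcases l with _ | ⟨x, l⟩
  · simp [act]
  · simp only [act]
    split_ifs <;> simp only [List.length_cons] <;> omega

lemma foldr_act_length (x z : List (Fin 4)) :
    (z.foldr act x).length ≤ z.length + x.length ∧
      x.length ≤ (z.foldr act x).length + z.length := by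
  induction z with
  | nil => simp
  | cons a z ih =>
    obtain ⟨h1, h2⟩ := act_length a (z.foldr act x)
    simp only [List.foldr_cons, List.length_cons]
    omega

lemma foldr_act_apart (z : List (Fin 4)) {x : List (Fin 4)} (hx : Apart x) :
    Apart (z.foldr act x) := by
  induction z with
  | nil => exact hx
  | cons a z ih => exact apart_act a ih

lemma foldr_act_eq {z x : List (Fin 4)} (h : Apart (z ++ x)) : z.foldr act x = z ++ x := by
  induction z with
  | nil => rfl
  | cons a z ih =>
    have h' := List.isChain_cons.1 (show List.IsChain _ (a :: (z ++ x)) from h)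
    rw [List.foldr_cons, ih h'.2, List.cons_append]
    rcases hzx : z ++ x with _ | ⟨b, r⟩
    · rfl
    · have hb : a ≠ b := h'.1 b (by rw [hzx]; rfl)
      simp [act, Ne.symm hb]

lemma prod_map_act {H : Type*} [Group H] (b : Fin 4 → H) (hb : ∀ i, b i * b i = 1) (i : Fin 4)
    (l : List (Fin 4)) : ((act i l).map b).prod = b i * (l.map b).prod := by
  rcases l with _ | ⟨x, l⟩
  · simp [act]
  · simp only [act]
    split_ifs with hx
    · subst hx
      simp [← mul_assoc, hb]
    · simp

lemma prod_map_red {H : Type*} [Group H] (b : Fin 4 → H) (hb : ∀ i, b i * b i = 1)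
    (w : List (Fin 4)) : ((red w).map b).prod = (w.map b).prod := by
  induction w with
  | nil => rfl
  | cons a w ih =>
    show ((act a (red w)).map b).prod = _
    rw [prod_map_act b hb, ih]
    simp

/-- Reduced words. -/
abbrev RWord : Type := {l : List (Fin 4) // Apart l}

/-- The empty word. -/
def rnil : RWord := ⟨[], List.isChain_nil⟩

/-- The four involutions. -/
def gen4 (i : Fin 4) : Equiv.Perm RWord where
  toFun x := ⟨act i x.1, apart_act i x.2⟩
  invFun x := ⟨act i x.1, apart_act i x.2⟩
  left_inv x := Subtype.ext (act_act i x.2)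
  right_inv x := Subtype.ext (act_act i x.2)

lemma gen4_sq (i : Fin 4) : gen4 i * gen4 i = 1 :=
  Equiv.ext fun x => Subtype.ext (act_act i x.2)

lemma prod_gen4_apply (w : List (Fin 4)) (x : RWord) :
    ((w.map gen4).prod x).1 = w.foldr act x.1 := by
  induction w with
  | nil => simp
  | cons a w ih =>
    simp only [List.map_cons, List.prod_cons, Equiv.Perm.mul_apply, List.foldr_cons, ← ih]
    rfl

lemma prod_gen4_eq_one {w : List (Fin 4)} (h : (w.map gen4).prod = 1) : red w = [] := by
  have := prod_gen4_apply w rnil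
  rw [h] at this
  exact this.symm

/-- Short reduced words. -/
abbrev SWord (R : ℕ) : Type := {l : List (Fin 4) // l.length ≤ R ∧ Apart l}

/-- The truncated toggle. -/
def actR (R : ℕ) (i : Fin 4) (l : List (Fin 4)) : List (Fin 4) :=
  if (act i l).length ≤ R then act i l else l

lemma actR_mem (R : ℕ) (i : Fin 4) (x : SWord R) :
    (actR R i x.1).length ≤ R ∧ Apart (actR R i x.1) := by
  unfold actR
  split_ifs with h
  · exact ⟨h, apart_act i x.2.2⟩
  · exact x.2

lemma actR_actR (R : ℕ) (i : Fin 4) (x : SWord R) : actR R i (actR R i x.1) = x.1 := by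
  unfold actR
  split_ifs with h h'
  · exact act_act i x.2.2
  · rw [act_act i x.2.2] at h'
    exact absurd x.2.1 h'
  · rfl

/-- The finite involutions. -/
def genR (R : ℕ) (i : Fin 4) : Equiv.Perm (SWord R) where
  toFun x := ⟨actR R i x.1, actR_mem R i x⟩
  invFun x := ⟨actR R i x.1, actR_mem R i x⟩
  left_inv x := Subtype.ext (actR_actR R i x)
  right_inv x := Subtype.ext (actR_actR R i x)

lemma genR_sq (R : ℕ) (i : Fin 4) : genR R i * genR R i = 1 :=
  Equiv.ext fun x => Subtype.ext (actR_actR R i x)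

lemma prod_genR_apply (R : ℕ) : ∀ (w : List (Fin 4)), w.length ≤ R →
    ((w.map (genR R)).prod ⟨[], Nat.zero_le _, List.isChain_nil⟩).1 = red w := by
  intro w
  induction w with
  | nil => intro _; rfl
  | cons a w ih =>
    intro hw
    simp only [List.length_cons] at hw
    have h := ih (by omega)
    simp only [List.map_cons, List.prod_cons, Equiv.Perm.mul_apply]
    show actR R a _ = _
    rw [h]
    have hle : (act a (red w)).length ≤ R := by
      have h1 := (act_length a (red w)).1
      have h2 := (foldr_act_length [] w).1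
      simp only [List.length_nil, add_zero] at h2
      unfold red at h1 ⊢
      omega
    exact if_pos hle

theorem separation (R : ℕ) :
    ∃ (Q : Type) (_ : Group Q) (_ : Fintype Q) (b : Fin 4 → Q), (∀ i, b i * b i = 1) ∧
      ∀ w : List (Fin 4), w.length ≤ R → ((w.map b).prod = 1 ↔ (w.map gen4).prod = 1) := by
  classical
  have : Finite (SWord R) := by
    have hfin : ({l : List (Fin 4) | l.length ≤ R ∧ Apart l}).Finite :=
      (List.finite_length_le (Fin 4) R).subset fun l hl => hl.1
    exact hfin.to_subtype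
  let : Fintype (SWord R) := Fintype.ofFinite _
  refine ⟨Equiv.Perm (SWord R), inferInstance, inferInstance, genR R, genR_sq R, fun w hw => ?_⟩
  constructor
  · intro h
    have h1 := prod_genR_apply R w hw
    rw [h] at h1
    rw [← prod_map_red gen4 gen4_sq w, ← h1]
    rfl
  · intro h
    rw [← prod_map_red (genR R) (genR_sq R) w, prod_gen4_eq_one h]
    rfl

/-! ## The palindromes -/

/-- The two letters allowed after `p`. -/
def succs (p : Fin 4) : Finset (Fin 4) := Finset.univ.filter fun q => q ≠ p ∧ q ≠ 3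

lemma succs_card {p : Fin 4} (hp : p ≠ 3) : (succs p).card = 2 := by
  revert hp
  revert p
  decide

/-- The half words. -/
def halves : Fin 4 → ℕ → Finset (List (Fin 4))
  | _, 0 => {[]}
  | p, L + 1 => (succs p).biUnion fun q => (halves q L).image (List.cons q)

lemma halves_mem : ∀ (L : ℕ) (p : Fin 4) (u : List (Fin 4)), u ∈ halves p L →
    u.length = L ∧ Apart (p :: u) ∧ ∀ y ∈ u, y ≠ 3 := by
  intro L
  induction L with
  | zero =>
    intro p u hu
    simp only [halves, Finset.mem_singleton] at hu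
    subst hu
    exact ⟨rfl, List.isChain_singleton _, by simp⟩
  | succ L ih =>
    intro p u hu
    simp only [halves, Finset.mem_biUnion, Finset.mem_image] at hu
    obtain ⟨q, hq, r, hr, rfl⟩ := hu
    obtain ⟨h1, h2, h3⟩ := ih q r hr
    simp only [succs, Finset.mem_filter, Finset.mem_univ, true_and] at hq
    refine ⟨by simp [h1], List.isChain_cons.2 ⟨by simpa using Ne.symm hq.1, h2⟩, ?_⟩
    intro y hy
    rcases List.mem_cons.1 hy with rfl | hy
    · exact hq.2
    · exact h3 y hy

lemma halves_card : ∀ (L : ℕ) (p : Fin 4), p ≠ 3 → (halves p L).card = 2 ^ L := by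
  intro L
  induction L with
  | zero => intro p _; simp [halves]
  | succ L ih =>
    intro p hp
    rw [halves, Finset.card_biUnion]
    · rw [Finset.sum_congr rfl fun q hq => by
        rw [Finset.card_image_of_injective _ List.cons_injective,
          ih q (by simp only [succs, Finset.mem_filter] at hq; exact hq.2.2)],
        Finset.sum_const, succs_card hp, smul_eq_mul, pow_succ']
    · intro q _ q' _ hne
      simp only [Function.onFun, Finset.disjoint_left, Finset.mem_image]
      rintro u ⟨r, _, rfl⟩ ⟨r', _, hr⟩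
      exact hne (List.cons.inj hr).1.symm

lemma halves_prefix : ∀ (L : ℕ) (p : Fin 4), p ≠ 3 → ∀ (i : ℕ) (t : List (Fin 4)), i ≤ L →
    ((halves p L).filter fun u => u.take i = t).card ≤ 2 ^ (L - i) := by
  intro L
  induction L with
  | zero =>
    intro p _ i t _
    refine le_trans (Finset.card_filter_le _ _) ?_
    simp [halves]
  | succ L ih =>
    intro p hp i t hi
    rcases i with _ | i
    · refine le_trans (Finset.card_filter_le _ _) ?_
      rw [halves_card _ p hp]
      simp
    · rcases t with _ | ⟨q0, t⟩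
      · have : ((halves p (L + 1)).filter fun u => u.take (i + 1) = []) = ∅ := by
          refine Finset.filter_eq_empty_iff.2 fun u hu h => ?_
          obtain ⟨h1, -, -⟩ := halves_mem _ _ _ hu
          rcases u with _ | ⟨a, u⟩
          · simp at h1
          · simp at h
        rw [this]; simp
      · by_cases hq0 : q0 = 3
        · have : ((halves p (L + 1)).filter fun u => u.take (i + 1) = q0 :: t) = ∅ := by
            refine Finset.filter_eq_empty_iff.2 fun u hu h => ?_
            obtain ⟨-, -, h3⟩ := halves_mem _ _ _ hu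
            exact h3 q0 (List.mem_of_mem_take (h ▸ List.mem_cons_self (a := q0) (l := t))) hq0
          rw [this]; simp
        · have hsub : ((halves p (L + 1)).filter fun u => u.take (i + 1) = q0 :: t) ⊆
              ((halves q0 L).filter fun u => u.take i = t).image (List.cons q0) := by
            intro u hu
            simp only [Finset.mem_filter, halves, Finset.mem_biUnion, Finset.mem_image] at hu
            obtain ⟨⟨q, _, r, hr, rfl⟩, h⟩ := hu
            simp only [List.take_succ_cons, List.cons.injEq] at h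
            obtain ⟨rfl, h⟩ := h
            exact Finset.mem_image.2 ⟨r, Finset.mem_filter.2 ⟨hr, h⟩, rfl⟩
          refine le_trans (Finset.card_le_card hsub) (le_trans Finset.card_image_le ?_)
          rw [show L + 1 - (i + 1) = L - i by omega]
          exact ih q0 hq0 i t (by omega)

/-- The palindrome of a half word. -/
def pal (u : List (Fin 4)) : List (Fin 4) := u ++ 3 :: u.reverse

lemma pal_facts {u : List (Fin 4)} : (pal u).reverse = pal u ∧ (pal u).length = 2 * u.length + 1 ∧
    pal u ≠ [] := by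
  refine ⟨by simp [pal], by simp [pal]; omega, by simp [pal]⟩

lemma pal_apart {u : List (Fin 4)} (hu : Apart u) (h3 : ∀ y ∈ u, y ≠ 3) : Apart (pal u) := by
  unfold Apart pal at *
  refine List.isChain_append.2 ⟨hu, List.isChain_cons.2 ⟨?_, ?_⟩, ?_⟩
  · intro y hy
    exact Ne.symm (h3 y (List.mem_reverse.1 (List.mem_of_mem_head? hy)))
  · rw [List.isChain_reverse]
    exact hu.imp fun _ _ h => Ne.symm h
  · intro x hx y hy
    simp only [List.head?_cons, Option.mem_some_iff] at hy
    subst hy
    exact h3 x (List.mem_of_mem_getLast? hx)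

lemma red_pal {u : List (Fin 4)} (hu : Apart u) (h3 : ∀ y ∈ u, y ≠ 3) : red (pal u) = pal u := by
  have h := foldr_act_eq (z := pal u) (x := []) (by simpa using pal_apart hu h3)
  simpa [red] using h

lemma cancel_cases : ∀ (u : List (Fin 4)), Apart u → ∀ x : List (Fin 4), Apart x →
    (u.reverse.foldr act x).length + u.length ≥ x.length ∧
    ((x.take u.length = u) ∨ ∃ i, i < u.length ∧ i ≤ x.length ∧ u.take i = x.take i ∧
      u.reverse.foldr act x = (u.drop i).reverse ++ x.drop i ∧
      Apart ((u.drop i).reverse ++ x.drop i)) := by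
  intro u
  induction u with
  | nil => intro _ x _; exact ⟨by simp, Or.inl (by simp)⟩
  | cons q u ih =>
    intro hu x hx
    have hu' := List.isChain_cons.1 hu
    refine ⟨?_, ?_⟩
    · have := (foldr_act_length x (q :: u).reverse).2
      simpa using this
    · have hfold : (q :: u).reverse.foldr act x = u.reverse.foldr act (act q x) := by
        simp [List.foldr_append]
      rcases x with _ | ⟨y, x⟩
      · refine Or.inr ⟨0, by simp, by simp, by simp, ?_, ?_⟩
        · simpa using foldr_act_eq (z := (q :: u).reverse) (x := [])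
            (by unfold Apart; rw [List.append_nil, List.isChain_reverse]
                exact hu.imp fun _ _ h => Ne.symm h)
        · unfold Apart
          simp only [List.drop_zero, List.append_nil]
          rw [List.isChain_reverse]
          exact hu.imp fun _ _ h => Ne.symm h
      · by_cases hy : y = q
        · subst hy
          have hact : act y (y :: x) = x := by simp [act]
          rw [hfold, hact]
          obtain ⟨-, h | ⟨i, hi, hix, he, hf, ha⟩⟩ := ih hu'.2 x (List.isChain_cons.1 hx).2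
          · exact Or.inl (by simp [h])
          · exact Or.inr ⟨i + 1, by simp [hi], by simp [hix], by simp [he], by simpa using hf,
              by simpa using ha⟩
        · have hc : Apart ((q :: u).reverse ++ y :: x) := by
            unfold Apart
            refine List.isChain_append.2 ⟨?_, hx, ?_⟩
            · rw [List.isChain_reverse]
              exact hu.imp fun _ _ h => Ne.symm h
            · intro a ha b hb
              simp only [List.head?_cons, Option.mem_some_iff] at hb
              simp only [List.getLast?_reverse, List.head?_cons, Option.mem_some_iff] at ha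
              subst ha hb
              exact Ne.symm hy
          exact Or.inr ⟨0, by simp, by simp, by simp, foldr_act_eq hc, hc⟩

/-- Left multiplication by a palindrome either cancels a short initial part only, or matches fully. -/
lemma pal_act {u x : List (Fin 4)} (hu : Apart u) (h3 : ∀ y ∈ u, y ≠ 3) (hx : Apart x) :
    u = x.take u.length ∨ ∃ i, i < u.length ∧ u.take i = x.take i ∧
      ((pal u).foldr act x).length + 2 * i = 2 * u.length + 1 + x.length := by
  obtain ⟨-, h | ⟨i, hi, hix, he, hf, ha⟩⟩ := cancel_cases u hu x hx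
  · exact Or.inl h.symm
  · refine Or.inr ⟨i, hi, he, ?_⟩
    unfold pal
    rw [List.foldr_append, List.foldr_cons, hf]
    obtain ⟨b, r, hbr, hb⟩ : ∃ b r, (u.drop i).reverse ++ x.drop i = b :: r ∧ b ≠ 3 := by
      rcases hd : (u.drop i).reverse with _ | ⟨b, r⟩
      · simp at hd
        omega
      · exact ⟨b, r ++ x.drop i, rfl,
          h3 b (List.mem_of_mem_drop (List.mem_reverse.1 (hd ▸ List.mem_cons_self)))⟩
    have hact : act 3 ((u.drop i).reverse ++ x.drop i) = 3 :: ((u.drop i).reverse ++ x.drop i) := by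
      rw [hbr]
      simp [act, hb]
    rw [hact, foldr_act_eq (x := 3 :: ((u.drop i).reverse ++ x.drop i))]
    · simp only [List.length_append, List.length_cons, List.length_reverse, List.length_drop]
      omega
    · unfold Apart at *
      refine List.isChain_append.2 ⟨hu, List.isChain_cons.2 ⟨?_, ha⟩, ?_⟩
      · intro y hy
        rw [hbr, List.head?_cons, Option.mem_some_iff] at hy
        subst hy
        exact Ne.symm hb
      · intro a ha' y hy
        simp only [List.head?_cons, Option.mem_some_iff] at hy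
        subst hy
        exact h3 a (List.mem_of_mem_getLast? ha')

/-! ## The count -/

/-- The eighth root of two. -/
noncomputable def t8 : ℝ := (2 : ℝ) ^ ((1 : ℝ) / 8)

lemma t8_pos : 0 < t8 := Real.rpow_pos_of_pos two_pos _

lemma t8_one_lt : 1 < t8 := Real.one_lt_rpow one_lt_two (by norm_num)

lemma t8_pow : t8 ^ 8 = 2 := by
  unfold t8
  rw [← Real.rpow_natCast, ← Real.rpow_mul (by norm_num)]
  norm_num

/-- The weight of a word. -/
noncomputable def wt (l : List (Fin 4)) : ℝ := (t8⁻¹ ^ 2) ^ l.length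

lemma wt_mul_pow (l : List (Fin 4)) (n : ℕ) :
    wt l = (t8⁻¹ ^ 2) ^ (l.length + n) * (t8 ^ 2) ^ n := by
  unfold wt
  rw [pow_add, mul_assoc, ← mul_pow, ← mul_pow t8⁻¹, inv_mul_cancel₀ t8_pos.ne', one_pow, one_pow,
    mul_one]

lemma q_le_one : t8⁻¹ ^ 2 ≤ 1 :=
  pow_le_one₀ (inv_nonneg.2 t8_pos.le) (inv_le_one_of_one_le₀ t8_one_lt.le)

lemma wt_shift {l l' : List (Fin 4)} {n : ℕ} (h : l.length ≤ l'.length + n) :
    wt l' ≤ (t8 ^ 2) ^ n * wt l := by
  rw [wt_mul_pow l' n, mul_comm]
  unfold wt
  exact mul_le_mul_of_nonneg_left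
    (pow_le_pow_of_le_one (pow_nonneg (inv_nonneg.2 t8_pos.le) 2) q_le_one h)
    (pow_nonneg (pow_nonneg t8_pos.le 2) n)

lemma halves_sum {L : ℕ} {x : List (Fin 4)} (hx : Apart x) :
    ∑ u ∈ halves 2 L, wt ((pal u).foldr act x) ≤ (L + 2) * t8 ^ (4 * L) * wt x := by
  classical
  have hq : 0 ≤ t8⁻¹ ^ 2 := pow_nonneg (inv_nonneg.2 t8_pos.le) 2
  have hpt : ∀ u ∈ halves 2 L, wt ((pal u).foldr act x) ≤
      ((∑ i ∈ range L, if u.take i = x.take i then (t8⁻¹ ^ 4) ^ (L - i) else 0)
        + if u.take L = x.take L then (t8 ^ 2) ^ (2 * L + 1) else 0) * wt x := by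
    intro u hu
    obtain ⟨hlen, hap, h3⟩ := halves_mem L 2 u hu
    have hwx : 0 ≤ wt x := pow_nonneg hq _
    have hn1 : ∀ i, 0 ≤ (if u.take i = x.take i then (t8⁻¹ ^ 4) ^ (L - i) else (0 : ℝ)) := by
      intro i
      split_ifs
      · exact pow_nonneg (pow_nonneg (inv_nonneg.2 t8_pos.le) 4) _
      · exact le_rfl
    have hn2 : 0 ≤ (if u.take L = x.take L then (t8 ^ 2) ^ (2 * L + 1) else (0 : ℝ)) := by
      split_ifs
      · exact pow_nonneg (pow_nonneg t8_pos.le 2) _
      · exact le_rfl
    rcases pal_act (List.isChain_cons.1 hap).2 h3 hx with h | ⟨i, hi, he, hl⟩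
    · rw [hlen] at h
      have hL : u.take L = x.take L := by rw [← h]; exact List.take_of_length_le hlen.le
      rw [if_pos hL]
      refine le_trans (wt_shift (n := 2 * L + 1) ?_) (mul_le_mul_of_nonneg_right ?_ hwx)
      · have := (foldr_act_length x (pal u)).2
        rw [pal_facts.2.1, hlen] at this
        exact this
      · linarith [Finset.sum_nonneg fun i (_ : i ∈ range L) => hn1 i]
    · rw [hlen] at hi hl
      have hone : (t8⁻¹ ^ 4) ^ (L - i) ≤
          ∑ i ∈ range L, if u.take i = x.take i then (t8⁻¹ ^ 4) ^ (L - i) else 0 :=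
        le_trans (le_of_eq (if_pos he).symm)
          (Finset.single_le_sum (fun i _ => hn1 i) (Finset.mem_range.2 hi))
      refine le_trans ?_
        (mul_le_mul_of_nonneg_right (le_trans hone (le_add_of_nonneg_right hn2)) hwx)
      unfold wt
      rw [show ((pal u).foldr act x).length = 2 * (L - i) + 1 + x.length by omega, pow_add,
        pow_add, pow_one, pow_mul, ← pow_mul t8⁻¹]
      exact mul_le_mul_of_nonneg_right (mul_le_of_le_one_right
        (pow_nonneg (pow_nonneg (inv_nonneg.2 t8_pos.le) _) _) q_le_one) (pow_nonneg hq _)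
  refine le_trans (Finset.sum_le_sum hpt) ?_
  rw [← Finset.sum_mul]
  refine mul_le_mul_of_nonneg_right ?_ (pow_nonneg hq _)
  rw [Finset.sum_add_distrib, Finset.sum_comm]
  have h2 : (2 : ℝ) ^ L = t8 ^ (8 * L) := by rw [pow_mul, t8_pow]
  have ht : 0 ≤ t8 := t8_pos.le
  have e1 : ∀ i ∈ range L,
      (∑ u ∈ halves 2 L, if u.take i = x.take i then (t8⁻¹ ^ 4) ^ (L - i) else 0)
        ≤ t8 ^ (4 * L) := by
    intro i hi
    rw [← Finset.sum_filter, Finset.sum_const, nsmul_eq_mul]
    have hc : (((halves 2 L).filter fun u => u.take i = x.take i).card : ℝ)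
        ≤ ((2 ^ (L - i) : ℕ) : ℝ) := by
      exact_mod_cast halves_prefix L 2 (by decide) i _ (Finset.mem_range.1 hi).le
    refine le_trans (mul_le_mul_of_nonneg_right hc (by positivity)) ?_
    push_cast
    rw [← mul_pow, ← t8_pow,
      show t8 ^ 8 * t8⁻¹ ^ 4 = t8 ^ 4 by
        rw [inv_pow, mul_inv_eq_iff_eq_mul₀ (pow_ne_zero _ t8_pos.ne')]; ring,
      ← pow_mul]
    exact pow_le_pow_right₀ t8_one_lt.le (by omega)
  have e1' := Finset.sum_le_card_nsmul _ _ _ e1
  rw [Finset.card_range, nsmul_eq_mul] at e1'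
  rw [add_mul]
  refine add_le_add e1' ?_
  rw [← Finset.sum_filter, Finset.sum_const, nsmul_eq_mul]
  have hc : (((halves 2 L).filter fun u => u.take L = x.take L).card : ℝ) ≤ 1 := by
    have := halves_prefix L 2 (by decide) L (x.take L) le_rfl
    rw [Nat.sub_self, pow_zero] at this
    exact_mod_cast this
  refine le_trans (mul_le_mul_of_nonneg_right hc (by positivity)) ?_
  rw [one_mul, ← pow_mul, show 2 * (2 * L + 1) = 2 + 4 * L by omega, pow_add]
  refine mul_le_mul_of_nonneg_right ?_ (by positivity)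
  calc t8 ^ 2 ≤ t8 ^ 8 := pow_le_pow_right₀ t8_one_lt.le (by norm_num)
    _ = 2 := t8_pow

/-- The marks: identity, the four letters, the palindromes. -/
noncomputable def marks4 (L : ℕ) : Fin (5 + (halves 2 L).card) → Equiv.Perm RWord :=
  Fin.append (Fin.cons 1 gen4 : Fin 5 → Equiv.Perm RWord)
    fun q => ((pal ((halves 2 L).equivFin.symm q : List (Fin 4))).map gen4).prod

lemma wt_nonneg (l : List (Fin 4)) : 0 ≤ wt l :=
  pow_nonneg (pow_nonneg (inv_nonneg.2 t8_pos.le) 2) _

lemma marks_sum (L : ℕ) (x : RWord) :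
    ∑ j, wt ((marks4 L j) x).1 ≤ ((L : ℝ) + 12) * t8 ^ (4 * L) * wt x.1 := by
  rw [Fin.sum_univ_add]
  have h2 : (2 : ℝ) ≤ 2 * t8 ^ (4 * L) := by
    linarith [one_le_pow₀ (n := 4 * L) t8_one_lt.le]
  have hext : ∀ j : Fin 5, wt ((marks4 L (Fin.castAdd _ j)) x).1 ≤ 2 * t8 ^ (4 * L) * wt x.1 := by
    intro j
    unfold marks4
    rw [Fin.append_left]
    refine le_trans (wt_shift (n := 1) ?_) (mul_le_mul_of_nonneg_right ?_ (wt_nonneg _))
    · refine Fin.cases ?_ (fun i => ?_) j
      · simp
      · exact (act_length i x.1).2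
    · refine le_trans ?_ h2
      rw [pow_one]
      calc t8 ^ 2 ≤ t8 ^ 8 := pow_le_pow_right₀ t8_one_lt.le (by norm_num)
        _ = 2 := t8_pow
  have hbig : ∑ q, wt ((marks4 L (Fin.natAdd 5 q)) x).1
      = ∑ u ∈ halves 2 L, wt ((pal u).foldr act x.1) := by
    rw [← Finset.sum_coe_sort (halves 2 L)]
    refine Fintype.sum_equiv (halves 2 L).equivFin.symm _ _ fun q => ?_
    unfold marks4
    rw [Fin.append_right, prod_gen4_apply]
  have h1 := Finset.sum_le_card_nsmul (Finset.univ : Finset (Fin 5)) _ _ fun j _ => hext j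
  simp only [Finset.card_univ, Fintype.card_fin, nsmul_eq_mul] at h1
  rw [hbig]
  have h3 := halves_sum (L := L) x.2
  push_cast at h1
  linarith

/-- The weighted words of length `m`, started from the empty word. -/
lemma weighted_words (L : ℕ) {T : ℝ} (hT : 0 < T) (v : Fin (5 + (halves 2 L).card) → ℝ)
    (hv : ∀ j, T ≤ v j) : ∀ m : ℕ,
    ∑ w : Fin m → Fin (5 + (halves 2 L).card),
        (∏ q, (v (w q))⁻¹) * wt ((List.ofFn fun q => marks4 L (w q)).prod rnil).1
      ≤ (((L : ℝ) + 12) * t8 ^ (4 * L) / T) ^ m := by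
  intro m
  induction m with
  | zero => simp [wt, rnil]
  | succ m ih =>
    rw [← (Fin.consEquiv fun _ => Fin (5 + (halves 2 L).card)).sum_comp, Fintype.sum_prod_type,
      Finset.sum_comm, pow_succ']
    have hv0 : ∀ j, 0 ≤ (v j)⁻¹ := fun j => inv_nonneg.2 (hT.le.trans (hv j))
    have hstep : ∀ w : Fin m → Fin (5 + (halves 2 L).card),
        ∑ j, (∏ q, (v ((Fin.cons j w : Fin (m + 1) → _) q))⁻¹)
            * wt ((List.ofFn fun q => marks4 L ((Fin.cons j w : Fin (m + 1) → _) q)).prod rnil).1
        ≤ ((L : ℝ) + 12) * t8 ^ (4 * L) / T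
          * ((∏ q, (v (w q))⁻¹) * wt ((List.ofFn fun q => marks4 L (w q)).prod rnil).1) := by
      intro w
      have hP : 0 ≤ ∏ q, (v (w q))⁻¹ := Finset.prod_nonneg fun q _ => hv0 _
      calc ∑ j, (∏ q, (v ((Fin.cons j w : Fin (m + 1) → _) q))⁻¹)
            * wt ((List.ofFn fun q => marks4 L ((Fin.cons j w : Fin (m + 1) → _) q)).prod rnil).1
          ≤ ∑ j, T⁻¹ * (∏ q, (v (w q))⁻¹)
              * wt ((marks4 L j) ((List.ofFn fun q => marks4 L (w q)).prod rnil)).1 := by
            refine Finset.sum_le_sum fun j _ => ?_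
            simp only [Fin.prod_univ_succ, Fin.cons_zero, Fin.cons_succ, List.ofFn_succ,
              List.prod_cons, Equiv.Perm.mul_apply]
            exact mul_le_mul_of_nonneg_right
              (mul_le_mul_of_nonneg_right (inv_anti₀ hT (hv j)) hP) (wt_nonneg _)
        _ = T⁻¹ * (∏ q, (v (w q))⁻¹)
              * ∑ j, wt ((marks4 L j) ((List.ofFn fun q => marks4 L (w q)).prod rnil)).1 := by
            rw [Finset.mul_sum]
        _ ≤ T⁻¹ * (∏ q, (v (w q))⁻¹) * (((L : ℝ) + 12) * t8 ^ (4 * L)
              * wt ((List.ofFn fun q => marks4 L (w q)).prod rnil).1) :=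
            mul_le_mul_of_nonneg_left (marks_sum L _) (mul_nonneg (inv_nonneg.2 hT.le) hP)
        _ = _ := by ring
    refine le_trans (Finset.sum_le_sum fun w _ => hstep w) ?_
    rw [← Finset.mul_sum]
    refine mul_le_mul_of_nonneg_left ih (div_nonneg (mul_nonneg ?_ ?_) hT.le)
    · linarith [Nat.cast_nonneg (α := ℝ) L]
    · exact pow_nonneg t8_pos.le _

lemma eventually_small :
    ∃ L0 : ℕ, ∀ L, L0 ≤ L → 1 ≤ L ∧ ((L : ℝ) + 12) ^ 2 * (t8⁻¹ ^ 2) ^ L ≤ 1 / 16 := by
  have hr : |t8⁻¹ ^ 2| < 1 := by
    rw [abs_of_nonneg (pow_nonneg (inv_nonneg.2 t8_pos.le) 2)]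
    exact pow_lt_one₀ (inv_nonneg.2 t8_pos.le) (inv_lt_one_of_one_lt₀ t8_one_lt) two_ne_zero
  have h := ((tendsto_pow_const_mul_const_pow_of_abs_lt_one 2 hr).const_mul (169 : ℝ))
  rw [mul_zero] at h
  obtain ⟨L0, hL0⟩ := Filter.eventually_atTop.1 (h.eventually (Iio_mem_nhds (by norm_num :
    (0 : ℝ) < 1 / 16)))
  refine ⟨max L0 1, fun L hL => ⟨le_trans (le_max_right _ _) hL, ?_⟩⟩
  have h1 : (1 : ℝ) ≤ L := by exact_mod_cast le_trans (le_max_right _ _) hL
  have h2 : 169 * ((L : ℝ) ^ 2 * (t8⁻¹ ^ 2) ^ L) < 1 / 16 := hL0 L (le_trans (le_max_left _ _) hL)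
  have h3 : ((L : ℝ) + 12) ^ 2 ≤ 169 * (L : ℝ) ^ 2 := by nlinarith
  have := mul_le_mul_of_nonneg_right h3 (pow_nonneg (pow_nonneg (inv_nonneg.2 t8_pos.le) 2) L)
  linarith

lemma red_letter (k : Fin 4) : red [k] = [k] := rfl

lemma marks4_eq_big {L : ℕ} (hL : 1 ≤ L) (i : Fin (halves 2 L).card)
    (j : Fin (5 + (halves 2 L).card)) (h : marks4 L j = marks4 L (Fin.natAdd 5 i)) :
    j = Fin.natAdd 5 i := by
  have hev : ∀ q : Fin (halves 2 L).card, ((marks4 L (Fin.natAdd 5 q)) rnil).1
      = pal ((halves 2 L).equivFin.symm q : List (Fin 4)) := by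
    intro q
    unfold marks4
    rw [Fin.append_right, prod_gen4_apply]
    obtain ⟨-, hap, h3⟩ := halves_mem L 2 _ ((halves 2 L).equivFin.symm q).2
    exact red_pal (List.isChain_cons.1 hap).2 h3
  have hlen : ∀ q : Fin (halves 2 L).card,
      ((marks4 L (Fin.natAdd 5 q)) rnil).1.length = 2 * L + 1 := by
    intro q
    rw [hev, pal_facts.2.1, (halves_mem L 2 _ ((halves 2 L).equivFin.symm q).2).1]
  revert h
  refine Fin.addCases (fun j5 => ?_) (fun q => ?_) j
  · intro h
    exfalso
    have h1 := hlen i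
    rw [← h] at h1
    unfold marks4 at h1
    rw [Fin.append_left] at h1
    revert h1
    refine Fin.cases ?_ (fun k => ?_) j5
    · simp [rnil]
    · intro h1
      have : ((gen4 k) rnil).1 = [k] := rfl
      simp only [Fin.cons_succ, this, List.length_cons, List.length_nil] at h1
      omega
  · intro h
    have h1 := hev q
    rw [h, hev i] at h1
    have h2 : ((halves 2 L).equivFin.symm i : List (Fin 4)) = (halves 2 L).equivFin.symm q := by
      have := congrArg (List.take L) h1
      obtain ⟨li, -, -⟩ := halves_mem L 2 _ ((halves 2 L).equivFin.symm i).2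
      obtain ⟨lq, -, -⟩ := halves_mem L 2 _ ((halves 2 L).equivFin.symm q).2
      simpa [pal, li, lq, List.take_append] using this
    rw [(halves 2 L).equivFin.symm.injective (Subtype.ext h2)]

end Vale.Agent.P087.GroupBlock

namespace Vale.Agent.P087

open Finset GroupBlock

/-- Block 5. -/
theorem GroupPin_holds : GroupPin := by
  classical
  refine ⟨Equiv.Perm RWord, inferInstance, gen4, gen4_sq, separation, ?_⟩
  obtain ⟨L0, hL0⟩ := eventually_small
  refine ⟨L0, fun L hL => ?_⟩
  obtain ⟨hL1, hsmall⟩ := hL0 L hL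
  have hcard : (halves 2 L).card = 2 ^ L := halves_card L 2 (by decide)
  refine ⟨(halves 2 L).card, fun q => pal ((halves 2 L).equivFin.symm q : List (Fin 4)), hcard.ge,
    fun q => ?_, ?_⟩
  · obtain ⟨hlen, hap, h3⟩ := halves_mem L 2 _ ((halves 2 L).equivFin.symm q).2
    refine ⟨pal_facts.2.2, pal_facts.1, by rw [pal_facts.2.1, hlen], fun h => ?_⟩
    have h1 := prod_gen4_eq_one h
    rw [red_pal (List.isChain_cons.1 hap).2 h3] at h1
    exact pal_facts.2.2 h1
  intro v hv i M
  set T := (((halves 2 L).card : ℕ) : ℝ) ^ ((7 : ℝ) / 8) with hTdef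
  have hTe : T = t8 ^ (7 * L) := by
    rw [hTdef, hcard]
    push_cast
    unfold t8
    rw [← Real.rpow_natCast 2 L, ← Real.rpow_natCast ((2 : ℝ) ^ ((1 : ℝ) / 8)) (7 * L),
      ← Real.rpow_mul (by norm_num), ← Real.rpow_mul (by norm_num)]
    congr 1
    push_cast
    ring
  have hT : 0 < T := by rw [hTe]; exact pow_pos t8_pos _
  have hv0 : ∀ j, 0 ≤ (v j)⁻¹ := fun j => inv_nonneg.2 (hT.le.trans (hv j))
  change countSum (marks4 L) v (Fin.natAdd 5 i) M ≤ 1
  let term : ℕ → ℝ := fun m => ∑ w : Fin m → Fin (5 + (halves 2 L).card),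
    if (List.ofFn fun q => marks4 L (w q)).prod = marks4 L (Fin.natAdd 5 i)
      then ∏ q, (v (w q))⁻¹ else 0
  have hcs : countSum (marks4 L) v (Fin.natAdd 5 i) M = ∑ m ∈ range M, term m := by
    unfold countSum
    simp only [term]
  have hterm0 : ∀ m, 0 ≤ term m := fun m => Finset.sum_nonneg fun w _ => by
    split_ifs
    · exact Finset.prod_nonneg fun q _ => hv0 _
    · exact le_rfl
  have hlen : ((marks4 L (Fin.natAdd 5 i)) rnil).1.length = 2 * L + 1 := by
    unfold marks4
    rw [Fin.append_right, prod_gen4_apply]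
    obtain ⟨hl, hap, h3⟩ := halves_mem L 2 _ ((halves 2 L).equivFin.symm i).2
    have := red_pal (List.isChain_cons.1 hap).2 h3
    unfold red at this
    show (List.foldr act [] _).length = _
    rw [this, pal_facts.2.1, hl]
  have h0 : term 0 = 0 := by
    refine Finset.sum_eq_zero fun w _ => ?_
    rw [if_neg]
    intro h
    rw [List.ofFn_zero, List.prod_nil] at h
    rw [← h] at hlen
    simp [rnil] at hlen
  have h1 : term 1 ≤ T⁻¹ := by
    simp only [term]
    rw [← (Equiv.funUnique (Fin 1) (Fin (5 + (halves 2 L).card))).symm.sum_comp]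
    rw [Finset.sum_eq_single (Fin.natAdd 5 i)]
    · rw [if_pos (by simp)]
      simpa using inv_anti₀ hT (hv (Fin.natAdd 5 i))
    · intro j _ hj
      rw [if_neg]
      intro h
      exact hj (marks4_eq_big hL1 i j (by simpa using h))
    · simp
  set x := ((L : ℝ) + 12) * t8 ^ (4 * L) / T with hxdef
  have hx0 : 0 ≤ x := by
    rw [hxdef]
    exact div_nonneg (mul_nonneg (by linarith [Nat.cast_nonneg (α := ℝ) L])
      (pow_nonneg t8_pos.le _)) hT.le
  have hm : ∀ m, term m ≤ x ^ m * (t8 ^ 2) ^ (2 * L + 1) := by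
    intro m
    refine le_trans (Finset.sum_le_sum (g := fun w : Fin m → Fin (5 + (halves 2 L).card) =>
      (∏ q, (v (w q))⁻¹) * wt ((List.ofFn fun q => marks4 L (w q)).prod rnil).1
        * (t8 ^ 2) ^ (2 * L + 1)) fun w _ => ?_) ?_
    · split_ifs with h
      · rw [h, mul_assoc]
        refine le_mul_of_one_le_right (Finset.prod_nonneg fun q _ => hv0 _) (le_of_eq ?_)
        unfold wt
        rw [hlen, ← mul_pow, ← mul_pow t8⁻¹, inv_mul_cancel₀ t8_pos.ne', one_pow, one_pow]
      · exact mul_nonneg (mul_nonneg (Finset.prod_nonneg fun q _ => hv0 _) (wt_nonneg _))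
          (pow_nonneg (pow_nonneg t8_pos.le 2) _)
    · rw [← Finset.sum_mul]
      exact mul_le_mul_of_nonneg_right (weighted_words L hT v hv m)
        (pow_nonneg (pow_nonneg t8_pos.le 2) _)
  have ht2 : t8 ^ 2 ≤ 2 := by
    calc t8 ^ 2 ≤ t8 ^ 8 := pow_le_pow_right₀ t8_one_lt.le (by norm_num)
      _ = 2 := t8_pow
  have hS : x ^ 2 * (t8 ^ 2) ^ (2 * L + 1) = ((L : ℝ) + 12) ^ 2 * (t8⁻¹ ^ 2) ^ L * t8 ^ 2 := by
    have hxe : x = ((L : ℝ) + 12) * t8⁻¹ ^ (3 * L) := by
      rw [hxdef, hTe, show 7 * L = 4 * L + 3 * L by omega, pow_add, mul_comm (t8 ^ (4 * L)),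
        mul_div_mul_right _ _ (pow_ne_zero _ t8_pos.ne'), inv_pow, div_eq_mul_inv]
    have hone : t8⁻¹ ^ (4 * L) * t8 ^ (4 * L) = 1 := by
      rw [← mul_pow, inv_mul_cancel₀ t8_pos.ne', one_pow]
    calc x ^ 2 * (t8 ^ 2) ^ (2 * L + 1)
        = ((L : ℝ) + 12) ^ 2 * (t8⁻¹ ^ 2) ^ L * t8 ^ 2 * (t8⁻¹ ^ (4 * L) * t8 ^ (4 * L)) := by
          rw [hxe]; ring
      _ = _ := by rw [hone, mul_one]
  have hx : x ≤ 1 / 2 := by
    have h1 : x ^ 2 ≤ ((L : ℝ) + 12) ^ 2 * (t8⁻¹ ^ 2) ^ L := by
      have hone : t8 ^ 2 ≤ (t8 ^ 2) ^ (2 * L + 1) :=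
        le_self_pow₀ (one_le_pow₀ t8_one_lt.le) (by omega)
      have := mul_le_mul_of_nonneg_left hone (sq_nonneg x)
      rw [hS] at this
      exact le_of_mul_le_mul_right this (pow_pos t8_pos 2)
    nlinarith
  have hTinv : T⁻¹ ≤ 1 / 2 := by
    have h1 : (t8 ^ 2) ^ L ≤ T := by
      rw [hTe, ← pow_mul]
      exact pow_le_pow_right₀ t8_one_lt.le (by omega)
    have h2 : T⁻¹ ≤ (t8⁻¹ ^ 2) ^ L := by
      rw [inv_pow, inv_pow]
      exact inv_anti₀ (pow_pos (pow_pos t8_pos 2) L) h1
    have h3 : (1 : ℝ) ≤ ((L : ℝ) + 12) ^ 2 := by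
      nlinarith [Nat.cast_nonneg (α := ℝ) L]
    have h4 := mul_le_mul_of_nonneg_right h3 (pow_nonneg (pow_nonneg (inv_nonneg.2 t8_pos.le) 2) L)
    linarith
  have htail : ∑ j ∈ range M, term (j + 2) ≤ 1 / 4 := by
    refine le_trans (Finset.sum_le_sum (g := fun j => x ^ 2 * (t8 ^ 2) ^ (2 * L + 1) * x ^ j)
      fun j _ => le_trans (hm (j + 2)) (le_of_eq (by ring))) ?_
    rw [← Finset.mul_sum, hS]
    have hgeo : ∑ j ∈ range M, x ^ j ≤ 2 :=
      le_trans (Finset.sum_le_sum fun j _ => pow_le_pow_left₀ hx0 hx j) (sum_geometric_two_le M)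
    have h5 : ((L : ℝ) + 12) ^ 2 * (t8⁻¹ ^ 2) ^ L * t8 ^ 2 ≤ 1 / 16 * 2 :=
      mul_le_mul hsmall ht2 (pow_nonneg t8_pos.le 2) (by norm_num)
    refine le_trans (mul_le_mul h5 hgeo (Finset.sum_nonneg fun j _ => pow_nonneg hx0 j)
      (by norm_num)) (by norm_num)
  rw [hcs]
  refine le_trans (Finset.sum_le_sum_of_subset_of_nonneg
    (Finset.range_mono (Nat.le_add_right M 2)) fun m _ _ => hterm0 m) ?_
  rw [Finset.sum_range_succ', Finset.sum_range_succ']
  simp only [h0, zero_add, add_zero]
  linarith

end Vale.Agent.P087
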