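import Vale.Agent.P087.Model

/-!
# The random matrix model for the lower bound `χ > -∞` (P087)

`k = 4·|Q|·l`; `C` is a `(Q × Fin l) × Fin k` complex Gaussian matrix with `E|C_ab|² = 1/k`, the
mark `g` acts as the left regular permutation matrix, and the semicircular part is a GUE matrix.
-/

open MeasureTheory ProbabilityTheory

namespace Vale.Agent.P087

variable (Q : Type*) [Fintype Q] (n l : ℕ)

/-- the matrix size -/
def msize : ℕ := 4 * Fintype.card Q * l

/-- the real Gaussian coordinates -/
abbrev Coord :=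
  ((Q × Fin l) × Fin (msize Q l) × Bool) ⊕ (Fin n × Fin (msize Q l) × Fin (msize Q l))

/-- their law: independent standard Gaussians -/
noncomputable def gaussLaw : Measure (Coord Q n l → ℝ) :=
  Measure.pi fun _ => gaussianReal 0 1

variable {Q n l}

/-- the rectangular Gaussian matrix -/
noncomputable def matC (x : Coord Q n l → ℝ) : Matrix (Q × Fin l) (Fin (msize Q l)) ℂ :=
  Matrix.of fun a b =>
    ((x (Sum.inl (a, b, false)) : ℂ) + Complex.I * (x (Sum.inl (a, b, true)) : ℂ))
      / (Real.sqrt (2 * msize Q l) : ℂ)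

/-- the GUE matrix of index `j` -/
noncomputable def matS (x : Coord Q n l → ℝ) (j : Fin n) :
    Matrix (Fin (msize Q l)) (Fin (msize Q l)) ℂ :=
  ((Real.sqrt (msize Q l) : ℂ))⁻¹ • hermOf (fun a b => x (Sum.inr (j, a, b)))

/-- the left regular permutation matrix of `g`, tensor the identity of `Fin l` -/
noncomputable def markMat [Group Q] (g : Q) : Matrix (Q × Fin l) (Q × Fin l) ℂ := by
  classical exact Matrix.of fun a b => if a.1 = g * b.1 ∧ a.2 = b.2 then 1 else 0

/-- the matrix model of `modelX g c` -/
noncomputable def matX [Group Q] (g : Fin n → Q) (c : Fin n → ℝ) (x : Coord Q n l → ℝ)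
    (j : Fin n) : Matrix (Fin (msize Q l)) (Fin (msize Q l)) ℂ :=
  Matrix.conjTranspose (matC x) * (markMat (g j) : Matrix (Q × Fin l) (Q × Fin l) ℂ) * matC x + (Real.sqrt (c j) : ℂ) • matS x j

end Vale.Agent.P087
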