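import Mathlib

/-!
# Bounded operators on `ℓ²` given by partial bijections of the index sets (P087)
-/

open scoped InnerProductSpace ENNReal

namespace Vale.Agent.P087

/-- `ℓ²(α)` -/
noncomputable abbrev L2 (α : Type*) := lp (fun _ : α => ℂ) 2

variable {α β : Type*}

private lemma elim_sum_le (e : α ≃. β) (v : L2 β) (s : Finset α) :
    ∑ a ∈ s, ‖(e a).elim 0 (v : β → ℂ)‖ ^ (2 : ℝ) ≤ ‖v‖ ^ (2 : ℝ) := by
  classical
  have h1 : ∑ a ∈ s, ‖(e a).elim 0 (v : β → ℂ)‖ ^ (2 : ℝ)
      = ∑ a ∈ s.filter (fun a => (e a).isSome), ‖(e a).elim 0 (v : β → ℂ)‖ ^ (2 : ℝ) := by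
    rw [Finset.sum_filter]
    refine Finset.sum_congr rfl fun a _ => ?_
    cases h : e a <;> simp
  let t : Finset β := (s.filterMap e fun a a' b hb hb' => by
    exact e.inj hb hb')
  have h2 : ∑ a ∈ s.filter (fun a => (e a).isSome), ‖(e a).elim 0 (v : β → ℂ)‖ ^ (2 : ℝ)
      = ∑ b ∈ t, ‖(v : β → ℂ) b‖ ^ (2 : ℝ) := by
    refine Finset.sum_bij (fun a ha => (e a).get (Finset.mem_filter.1 ha).2) ?_ ?_ ?_ ?_
    · intro a ha
      obtain ⟨has, hsome⟩ := Finset.mem_filter.1 ha
      exact (Finset.mem_filterMap e).2 ⟨a, has, (Option.some_get hsome).symm⟩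
    · intro a ha a' ha' h
      refine e.inj (b := (e a).get (Finset.mem_filter.1 ha).2) ?_ ?_
      · exact (Option.some_get (Finset.mem_filter.1 ha).2).symm
      · rw [h]; exact (Option.some_get (Finset.mem_filter.1 ha').2).symm
    · intro b hb
      obtain ⟨a, has, hab⟩ := (Finset.mem_filterMap e).1 hb
      exact ⟨a, Finset.mem_filter.2 ⟨has, by rw [hab]; rfl⟩, by simp [hab]⟩
    · intro a ha
      obtain ⟨b, hb⟩ := Option.isSome_iff_exists.1 (Finset.mem_filter.1 ha).2
      simp [hb]
  rw [h1, h2]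
  have := lp.sum_rpow_le_norm_rpow (p := 2) (by norm_num) v t
  simpa using this

/-- the underlying linear map of `pull` -/
noncomputable def pullₗ (e : α ≃. β) : L2 β →ₗ[ℂ] L2 α where
  toFun v := ⟨fun a => (e a).elim 0 (v : β → ℂ),
    memℓp_gen' (C := ‖v‖ ^ (2 : ℝ)) fun s => by simpa using elim_sum_le e v s⟩
  map_add' v w := by
    ext a
    show (e a).elim 0 ((v + w : L2 β) : β → ℂ) = (e a).elim 0 (v : β → ℂ) + (e a).elim 0 (w : β → ℂ)
    rcases e a with _ | b <;> simp [Option.elim]
  map_smul' c v := by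
    ext a
    show (e a).elim 0 ((c • v : L2 β) : β → ℂ) = c * (e a).elim 0 (v : β → ℂ)
    cases e a <;> simp

/-- The operator `(pull e v) a = v (e a)` (and `0` where `e` is undefined). -/
noncomputable def pull (e : α ≃. β) : L2 β →L[ℂ] L2 α :=
  (pullₗ e).mkContinuous 1 fun v => by
    rw [one_mul]
    refine lp.norm_le_of_forall_sum_le (p := 2) (by norm_num) (norm_nonneg v) fun s => ?_
    simpa [pullₗ] using elim_sum_le e v s

@[simp] lemma pull_apply (e : α ≃. β) (v : L2 β) (a : α) :
    (pull e v : α → ℂ) a = (e a).elim 0 (v : β → ℂ) := rfl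

lemma norm_pull_le (e : α ≃. β) : ‖pull e‖ ≤ 1 :=
  LinearMap.mkContinuous_norm_le _ zero_le_one _

lemma pull_single [DecidableEq α] [DecidableEq β] (e : α ≃. β) (b : β) (c : ℂ) :
    pull e (lp.single 2 b c) = (e.symm b).elim 0 (fun a => lp.single 2 a c) := by
  ext a
  rw [pull_apply]
  cases hb : e.symm b with
  | none =>
    cases ha : e a with
    | none => simp
    | some b' =>
      have : b' ≠ b := fun h => by
        subst h
        rw [(e.eq_some_iff).2 ha] at hb
        cases hb
      simp [Pi.single_apply, this]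
  | some a' =>
    cases ha : e a with
    | none =>
      have : a ≠ a' := fun h => by
        subst h
        rw [(e.eq_some_iff).1 hb] at ha
        cases ha
      simp [Pi.single_apply, this]
    | some b' =>
      by_cases h : b' = b
      · subst h
        have : a = a' := e.inj ha ((e.eq_some_iff).1 hb)
        simp [this]
      · have : a ≠ a' := fun h' => by
          subst h'
          rw [(e.eq_some_iff).1 hb] at ha
          exact h (Option.some.inj ha).symm
        simp [Pi.single_apply, h, this]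

end Vale.Agent.P087
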