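import Vale.Agent.P087.Defs
import Vale.Agent.P087.Ops

/-!
# The model (P087)

On the full Fock space over `ℓ²(G ⊕ κ)` (orthonormal basis: lists over `G ⊕ κ`):
`genA g`, the free compound Poisson element with mark `λ(g)` and intensity `1/4`, and the free
semicircular elements `genS a`, `a : κ`.
-/

open scoped InnerProductSpace ENNReal

namespace Vale.Agent.P087

variable (G : Type*) [Group G] (κ : Type*)

/-- the full Fock space -/
noncomputable abbrev Fock := L2 (List (G ⊕ κ))

/-- the vacuum -/
noncomputable def vac : Fock G κ := by classical exact lp.single 2 [] 1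

variable {G κ}

/-- prepend the letter `a`, as a partial bijection read backwards -/
noncomputable def creE {P : Type*} (a : P) : List P ≃. List P where
  toFun l := by classical exact
    match l with
    | [] => none
    | b :: r => if b = a then some r else none
  invFun r := some (a :: r)
  inv l r := by
    classical
    cases l with
    | nil => simp
    | cons b t =>
      by_cases h : b = a
      · subst h; simp [eq_comm]
      · simp [h, Ne.symm h]

/-- multiply a leading group letter by `g`, as a partial bijection read backwards -/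
noncomputable def gauE (κ : Type*) (g : G) : List (G ⊕ κ) ≃. List (G ⊕ κ) where
  toFun l :=
    match l with
    | Sum.inl x :: r => some (Sum.inl (g⁻¹ * x) :: r)
    | _ => none
  invFun l :=
    match l with
    | Sum.inl x :: r => some (Sum.inl (g * x) :: r)
    | _ => none
  inv l r := by
    rcases l with _ | ⟨x | x, t⟩ <;> rcases r with _ | ⟨y | y, u⟩ <;> simp
    exact ⟨fun ⟨h, h'⟩ => ⟨by rw [← h]; group, h'.symm⟩, fun ⟨h, h'⟩ => ⟨by rw [← h]; group, h'.symm⟩⟩

/-- left creation -/
noncomputable def cre (a : G ⊕ κ) : Fock G κ →L[ℂ] Fock G κ := pull (creE a)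

/-- left annihilation -/
noncomputable def ann (a : G ⊕ κ) : Fock G κ →L[ℂ] Fock G κ := pull (creE a).symm

/-- gauge operator of `λ(g)` -/
noncomputable def gau (g : G) : Fock G κ →L[ℂ] Fock G κ := pull (gauE κ g)

/-- the free compound Poisson element with mark `λ(g)`, intensity `1/4` -/
noncomputable def genA (g : G) : Fock G κ →L[ℂ] Fock G κ := by
  classical exact
    (1 / 2 : ℂ) • (cre (Sum.inl g) + ann (Sum.inl g⁻¹)) + gau g
      + (if g = 1 then (1 / 4 : ℂ) else 0) • 1

/-- the semicircular element of the coordinate `a` -/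
noncomputable def genS (a : κ) : Fock G κ →L[ℂ] Fock G κ := cre (Sum.inr a) + ann (Sum.inr a)

/-- all generators of the model, indexed by letters -/
noncomputable def genOp : G ⊕ κ → Fock G κ →L[ℂ] Fock G κ := Sum.elim genA genS

variable {n : ℕ}

/-- the tuple `X_j = A(g_j) + √c_j s_j` -/
noncomputable def modelX (g : Fin n → G) (c : Fin n → ℝ) (j : Fin n) :
    Fock G (Fin n ⊕ Fin n) →L[ℂ] Fock G (Fin n ⊕ Fin n) :=
  genA (g j) + (Real.sqrt (c j) : ℂ) • genS (Sum.inl j)

/-- the semicircular tuple used in `χ*` -/
noncomputable def modelS (j : Fin n) : Fock G (Fin n ⊕ Fin n) →L[ℂ] Fock G (Fin n ⊕ Fin n) :=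
  genS (Sum.inr j)

/-- polynomials: lists of coefficient and word -/
noncomputable def polyOp {ι : Type*} {H : Type*} [NormedAddCommGroup H] [InnerProductSpace ℂ H]
    [CompleteSpace H] (X : ι → H →L[ℂ] H) (p : List (ℂ × List ι)) : H →L[ℂ] H :=
  (p.map fun cw => cw.1 • wordOp X cw.2).sum

/-- the same for matrices -/
noncomputable def polyMat {ι : Type*} {k : ℕ} (A : ι → Matrix (Fin k) (Fin k) ℂ)
    (p : List (ℂ × List ι)) : Matrix (Fin k) (Fin k) ℂ :=
  (p.map fun cw => cw.1 • wordMat A cw.2).sum

end Vale.Agent.P087
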