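import Vale.Agent.P087.Moment.Eval
import Vale.Agent.P087.Moment.Model
import Vale.Agent.P087.Block1.Recursion

/-!
# Block 6: the matrix moments converge in probability to those of the model over `Q` (P087)
-/

open MeasureTheory ProbabilityTheory Filter Topology

namespace Vale.Agent.P087

namespace Moment

variable {Q : Type} [Group Q] [Fintype Q] {n : ℕ}

/-- the expected squared deviation of a trace tends to zero -/
lemma tendsto_gE_dev (hrec : RecursionPin) (w : List (Lt Q n)) :
    Tendsto (fun l => gE ((pT (l := l) w - MvPolynomial.C (tM w))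
      * (pT (rv w) - MvPolynomial.C (starRingEnd ℂ (tM w))))) atTop (𝓝 0) := by
  have e : ∀ l, gE ((pT (l := l) w - MvPolynomial.C (tM w))
      * (pT (rv w) - MvPolynomial.C (starRingEnd ℂ (tM w))))
      = mMom l [w, rv w] - starRingEnd ℂ (tM w) * mMom l [w] - tM w * mMom l [rv w]
        + tM w * starRingEnd ℂ (tM w) := by
    intro l
    simp only [mMom, pP, List.map_cons, List.map_nil, List.prod_cons, List.prod_nil, mul_one]
    rw [show (pT (l := l) w - MvPolynomial.C (tM w))
          * (pT (rv w) - MvPolynomial.C (starRingEnd ℂ (tM w)))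
        = pT (l := l) w * pT (rv w) - MvPolynomial.C (starRingEnd ℂ (tM w)) * pT w
          - MvPolynomial.C (tM w) * pT (rv w)
          + MvPolynomial.C (tM w * starRingEnd ℂ (tM w)) by rw [MvPolynomial.C_mul]; ring,
      map_add, map_sub, map_sub, gE_C_mul, gE_C_mul, gE_C]
  have hr : tM (rv w) = starRingEnd ℂ (tM w) := tM_rv w
  have h := (((mMom_tendsto hrec [w, rv w]).sub
    ((mMom_tendsto hrec [w]).const_mul (starRingEnd ℂ (tM w)))).sub
    ((mMom_tendsto hrec [rv w]).const_mul (tM w))).add_const (tM w * starRingEnd ℂ (tM w))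
  simp only [List.map_cons, List.map_nil, List.prod_cons, List.prod_nil, mul_one, hr] at h
  rw [show tM w * starRingEnd ℂ (tM w) - starRingEnd ℂ (tM w) * tM w
    - tM w * starRingEnd ℂ (tM w) + tM w * starRingEnd ℂ (tM w) = 0 by ring] at h
  exact h.congr fun l => (e l).symm

/-- a word in the letters: convergence in probability -/
theorem tendsto_word (hrec : RecursionPin) (w : List (Lt Q n)) (ε : ℝ) (hε : 0 < ε) :
    Tendsto (fun l => gaussLaw Q n l {x | ε ≤ ‖ntr (wordMat (matL x) w) - tM w‖})
      atTop (𝓝 0) := by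
  let P : ∀ l, Rg Q n l := fun l => (pT (l := l) w - MvPolynomial.C (tM w))
    * (pT (rv w) - MvPolynomial.C (starRingEnd ℂ (tM w)))
  let f : ∀ l, (Coord Q n l → ℝ) → ℝ := fun l x => ‖ntr (wordMat (matL x) w) - tM w‖ ^ 2
  have hev : ∀ l (x : Coord Q n l → ℝ), ev x (P l) = ((f l x : ℝ) : ℂ) := by
    intro l x
    simp only [P, f, map_mul, map_sub, ev_pT_rv, ← ev_pT]
    rw [show ev x (MvPolynomial.C (tM w)) = tM w from MvPolynomial.eval_C _,
      show ev x (MvPolynomial.C (starRingEnd ℂ (tM w))) = starRingEnd ℂ (tM w) from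
        MvPolynomial.eval_C _, ← map_sub, Complex.mul_conj']
    push_cast
    rfl
  have hint : ∀ l, Integrable (f l) (gaussLaw Q n l) := by
    intro l
    refine ((integrable_ev (P l)).re).congr (Eventually.of_forall fun x => ?_)
    show RCLike.re (ev x (P l)) = f l x
    rw [hev]
    exact Complex.ofReal_re _
  have hI : ∀ l, ∫ x, f l x ∂gaussLaw Q n l = (gE (P l)).re := by
    intro l
    rw [gE_apply]
    simp only [hev]
    rw [integral_complex_ofReal, Complex.ofReal_re]
    rfl
  have h0 : Tendsto (fun l => ENNReal.ofReal ((gE (P l)).re / ε ^ 2)) atTop (𝓝 0) := by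
    have h := ((Complex.continuous_re.tendsto 0).comp (tendsto_gE_dev hrec w)).div_const (ε ^ 2)
    have h' := ENNReal.tendsto_ofReal h
    simpa using h'
  refine tendsto_of_tendsto_of_tendsto_of_le_of_le tendsto_const_nhds h0 (fun l => bot_le)
    fun l => ?_
  have : IsProbabilityMeasure (gaussLaw Q n l) := by unfold gaussLaw; infer_instance
  have hm := mul_meas_ge_le_integral_of_nonneg (μ := gaussLaw Q n l) (f := f l)
    (Eventually.of_forall fun x => sq_nonneg _) (hint l) (ε ^ 2)
  rw [hI] at hm
  calc gaussLaw Q n l {x | ε ≤ ‖ntr (wordMat (matL x) w) - tM w‖}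
      ≤ gaussLaw Q n l {x | ε ^ 2 ≤ f l x} :=
        measure_mono fun x hx => pow_le_pow_left₀ hε.le hx 2
    _ = ENNReal.ofReal ((gaussLaw Q n l).real {x | ε ^ 2 ≤ f l x}) :=
        (ofReal_measureReal (measure_ne_top _ _)).symm
    _ ≤ _ := ENNReal.ofReal_le_ofReal (by rw [le_div_iff₀ (by positivity)]; linarith)

/-- formal combinations of words in a ring -/
noncomputable def pv {ι A : Type*} [Ring A] [Algebra ℂ A] (f : ι → A) (E : List (ℂ × List ι)) : A :=
  (E.map fun cw => cw.1 • (cw.2.map f).prod).sum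

lemma pv_append {ι A : Type*} [Ring A] [Algebra ℂ A] (f : ι → A) (E F : List (ℂ × List ι)) :
    pv f (E ++ F) = pv f E + pv f F := by simp [pv]

lemma pv_prefix {ι A : Type*} [Ring A] [Algebra ℂ A] (f : ι → A) (z : ℂ) (a : ι)
    (E : List (ℂ × List ι)) :
    pv f (E.map fun cw => (z * cw.1, a :: cw.2)) = z • (f a * pv f E) := by
  induction E with
  | nil => simp [pv]
  | cons cw E ih =>
    simp only [pv, List.map_cons, List.sum_cons, List.prod_cons] at ih ⊢
    rw [ih, mul_add, smul_add, mul_smul_comm, smul_smul]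

/-- the expansion of a word in the `X_j` -/
noncomputable def expand (g : Fin n → Q) (c : Fin n → ℝ) : List (Fin n) → List (ℂ × List (Lt Q n))
  | [] => [(1, [])]
  | a :: w => ((expand g c w).map fun cw => ((1 : ℂ) * cw.1, Sum.inl (g a) :: cw.2))
      ++ (expand g c w).map fun cw => ((Real.sqrt (c a) : ℂ) * cw.1, Sum.inr a :: cw.2)

omit [Group Q] [Fintype Q] in
lemma pv_expand {A : Type*} [Ring A] [Algebra ℂ A] (g : Fin n → Q) (c : Fin n → ℝ)
    (f : Lt Q n → A) (X : Fin n → A)
    (hX : ∀ j, X j = f (Sum.inl (g j)) + (Real.sqrt (c j) : ℂ) • f (Sum.inr j))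
    (w : List (Fin n)) : pv f (expand g c w) = (w.map X).prod := by
  induction w with
  | nil => simp [expand, pv]
  | cons a w ih =>
    rw [expand, pv_append, pv_prefix, pv_prefix, ih, List.map_cons, List.prod_cons, hX, add_mul,
      one_smul, smul_mul_assoc]

/-- a combination of words: convergence in probability -/
theorem tendsto_pv (hrec : RecursionPin) (E : List (ℂ × List (Lt Q n))) (ε : ℝ) (hε : 0 < ε) :
    Tendsto (fun l => gaussLaw Q n l {x | ε ≤ ‖ntr (pv (matL x) E)
      - tau (vac Q (Fin n ⊕ Fin n)) (pv (fun a => genOp (emb a)) E)‖}) atTop (𝓝 0) := by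
  induction E generalizing ε with
  | nil =>
    have : ∀ l, {x : Coord Q n l → ℝ | ε ≤ ‖ntr (pv (matL x) ([] : List (ℂ × List (Lt Q n))))
        - tau (vac Q (Fin n ⊕ Fin n)) (pv (fun a => genOp (emb a)) [])‖} = ∅ := by
      intro l
      ext x
      simpa [pv, ntr, tau] using hε
    simp [this]
  | cons cw E ih =>
    obtain ⟨z, w⟩ := cw
    have hz : 0 < ‖z‖ + 1 := by positivity
    have h := (tendsto_word hrec w (ε / 2 / (‖z‖ + 1)) (by positivity)).add (ih (ε / 2) (by positivity))
    rw [add_zero] at h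
    refine tendsto_of_tendsto_of_tendsto_of_le_of_le tendsto_const_nhds h (fun l => bot_le)
      fun l => ?_
    refine (measure_mono fun x hx => ?_).trans (measure_union_le _ _)
    by_contra hn
    rw [Set.mem_union, not_or] at hn
    obtain ⟨h1, h2⟩ := hn
    simp only [Set.mem_ofPred_eq, not_le] at hx h1 h2
    have e1 : ntr (pv (matL x) ((z, w) :: E))
        = z * ntr (wordMat (matL x) w) + ntr (pv (matL x) E) := by
      simp [pv, ntr, wordMat, Matrix.trace_smul, mul_add]
      ring
    have e2 : tau (vac Q (Fin n ⊕ Fin n)) (pv (fun a => genOp (emb a)) ((z, w) :: E))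
        = z * tM w + tau (vac Q (Fin n ⊕ Fin n)) (pv (fun a => genOp (emb a)) E) := by
      simp [pv, tau, tM, wordOp, List.map_map, Function.comp_def]
    rw [e1, e2, add_sub_add_comm, ← mul_sub] at hx
    have h3 := norm_add_le (z * (ntr (wordMat (matL x) w) - tM w))
      (ntr (pv (matL x) E) - tau (vac Q (Fin n ⊕ Fin n)) (pv (fun a => genOp (emb a)) E))
    have h4 : ‖z * (ntr (wordMat (matL x) w) - tM w)‖ ≤ ε / 2 := by
      rw [norm_mul]
      rw [lt_div_iff₀ hz] at h1
      nlinarith [norm_nonneg z, norm_nonneg (ntr (wordMat (matL x) w) - tM w)]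
    linarith

end Moment

open Moment in
/-- Block 6, from the moment recursion. -/
theorem momentPin_of (hrec : RecursionPin) : MomentPin := by
  intro Q _ _ n g c _ w ε hε
  have e1 : ∀ (l : ℕ) (x : Coord Q n l → ℝ),
      wordMat (matX g c x) w = pv (matL x) (expand g c w) := fun l x =>
    (pv_expand g c (matL x) (matX g c x) (fun j => by simp [matL, matX]) w).symm
  have e2 : wordOp (modelX g c) w
      = pv (fun a => genOp (emb a)) (expand g c w) :=
    (pv_expand g c (fun a => genOp (emb a)) (modelX g c)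
      (fun j => by simp [genOp, emb, modelX]) w).symm
  simp only [e1, e2]
  exact tendsto_pv hrec (expand g c w) ε hε

/-- Block 6. -/
theorem momentPin_holds : MomentPin := momentPin_of recursionPin_holds

end Vale.Agent.P087
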