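import Vale.Agent.P087.Pins

/-!
# P087, block 7a: the operator norms of the matrix model are bounded
-/

open MeasureTheory ProbabilityTheory Filter
open scoped Matrix Matrix.Norms.L2Operator ComplexConjugate ENNReal Topology

namespace Vale.Agent.P087

namespace NormBound

/-- A net of half radius of the unit ball. -/
theorem exists_net (A : Type*) [Fintype A] :
    ∃ N : Finset (EuclideanSpace ℂ A), N.card ≤ 5 ^ (2 * Fintype.card A) ∧
      (∀ u ∈ N, ‖u‖ ≤ 1) ∧ ∀ u, ‖u‖ ≤ 1 → ∃ w ∈ N, ‖u - w‖ ≤ 1 / 2 := by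
  classical
  let E := EuclideanSpace ℂ A
  let Sep : Finset E → Prop := fun s =>
    (∀ c ∈ s, ‖c‖ ≤ 2) ∧ ∀ c ∈ s, ∀ d ∈ s, c ≠ d → 1 ≤ ‖c - d‖
  have hd : Module.finrank ℝ E = 2 * Fintype.card A := by
    rw [finrank_real_of_complex, finrank_euclideanSpace]
  have hb : ∀ s, Sep s → s.card ≤ 5 ^ (2 * Fintype.card A) := fun s hs => by
    rw [← hd]
    exact Besicovitch.card_le_of_separated s hs.1 hs.2
  set P : ℕ → Prop := fun m => ∃ s, Sep s ∧ s.card = m
  set m := Nat.findGreatest P (5 ^ (2 * Fintype.card A))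
  obtain ⟨s, hs, hsm⟩ : P m :=
    Nat.findGreatest_spec (Nat.zero_le _) ⟨∅, ⟨by simp, by simp⟩, Finset.card_empty⟩
  have hcov : ∀ u : E, ‖u‖ ≤ 2 → ∃ c ∈ s, ‖u - c‖ < 1 := by
    intro u hu
    by_contra h
    push Not at h
    have hus : u ∉ s := fun hmem => by
      have := h u hmem
      simp at this
      linarith
    have hins : Sep (insert u s) := by
      constructor
      · exact Finset.forall_mem_insert _ _ _ |>.2 ⟨hu, hs.1⟩
      · intro c hc d hd' hcd
        rcases Finset.mem_insert.1 hc with e | hc <;>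
          rcases Finset.mem_insert.1 hd' with e' | hd'
        · exact absurd (e.trans e'.symm) hcd
        · rw [e]; exact h d hd'
        · rw [e', norm_sub_rev]; exact h c hc
        · exact hs.2 c hc d hd' hcd
    have := Nat.le_findGreatest (P := P) (hb _ hins) ⟨_, hins, rfl⟩
    rw [Finset.card_insert_of_notMem hus, hsm] at this
    exact Nat.not_succ_le_self m this
  refine ⟨s.image fun c : E => (2⁻¹ : ℝ) • c, Finset.card_image_le.trans (hb s hs),
    fun u hu => ?_, fun u hu => ?_⟩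
  · obtain ⟨c, hc, rfl⟩ := Finset.mem_image.1 hu
    rw [norm_smul, Real.norm_of_nonneg (by norm_num)]
    linarith [hs.1 c hc]
  · obtain ⟨c, hc, hd'⟩ := hcov ((2 : ℝ) • u) (by
      rw [norm_smul, Real.norm_of_nonneg zero_le_two]; linarith)
    refine ⟨_, Finset.mem_image_of_mem _ hc, ?_⟩
    rw [show u - (2⁻¹ : ℝ) • c = (2⁻¹ : ℝ) • ((2 : ℝ) • u - c) by
      rw [smul_sub, smul_smul]; norm_num, norm_smul, Real.norm_of_nonneg (by norm_num)]
    linarith

variable {A B : Type*} [Fintype A] [Fintype B]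

/-- The weight of the entry `(a, b)` in the form at `u`, `v`. -/
noncomputable def wt (u : EuclideanSpace ℂ A) (v : EuclideanSpace ℂ B) (a : A) (b : B) : ℂ :=
  conj (u a) * v b

theorem sum_wt_sq {u : EuclideanSpace ℂ A} {v : EuclideanSpace ℂ B} (hu : ‖u‖ ≤ 1)
    (hv : ‖v‖ ≤ 1) : ∑ a, ∑ b, ‖wt u v a b‖ ^ 2 ≤ 1 := by
  simp only [wt, norm_mul, RCLike.norm_conj, mul_pow]
  rw [← Finset.sum_mul_sum, ← EuclideanSpace.norm_sq_eq, ← EuclideanSpace.norm_sq_eq]
  exact mul_le_one₀ (pow_le_one₀ (norm_nonneg _) hu) (sq_nonneg _)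
    (pow_le_one₀ (norm_nonneg _) hv)

theorem inner_mulVec [DecidableEq B] (M : Matrix A B ℂ) (u : EuclideanSpace ℂ A)
    (v : EuclideanSpace ℂ B) :
    inner ℂ u (Matrix.toEuclideanLin M v) = ∑ a, ∑ b, wt u v a b * M a b := by
  rw [PiLp.inner_apply]
  refine Finset.sum_congr rfl fun a _ => ?_
  simp only [RCLike.inner_apply, Matrix.toLpLin_apply, Matrix.mulVec, dotProduct, wt,
    Finset.sum_mul]
  exact Finset.sum_congr rfl fun b _ => by ring

/-- The form at the nets controls the norm. -/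
theorem norm_le_of_net [DecidableEq B] (M : Matrix A B ℂ) {NA : Finset (EuclideanSpace ℂ A)}
    {NB : Finset (EuclideanSpace ℂ B)} (hA : ∀ u, ‖u‖ ≤ 1 → ∃ w ∈ NA, ‖u - w‖ ≤ 1 / 2)
    (hB : ∀ u, ‖u‖ ≤ 1 → ∃ w ∈ NB, ‖u - w‖ ≤ 1 / 2) {K : ℝ} (hK : 0 ≤ K)
    (h : ∀ u ∈ NA, ∀ v ∈ NB, (∑ a, ∑ b, wt u v a b * M a b).re ≤ K) : ‖M‖ ≤ 4 * K := by
  set T := LinearMap.toContinuousLinearMap (Matrix.toEuclideanLin M) with hT
  have hMT : ‖M‖ = ‖T‖ := Matrix.l2_opNorm_def M
  have h1 : ∀ v ∈ NB, ‖T v‖ ≤ 2 * K := by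
    intro v hv
    by_cases hz : T v = 0
    · rw [hz, norm_zero]; linarith
    set y := T v with hy
    have hn : 0 < ‖y‖ := norm_pos_iff.2 hz
    set u : EuclideanSpace ℂ A := (‖y‖⁻¹ : ℂ) • y with hu
    have hu1 : ‖u‖ ≤ 1 := by
      rw [hu, norm_smul, norm_inv, Complex.norm_real, norm_norm, inv_mul_cancel₀ hn.ne']
    obtain ⟨w, hw, hwu⟩ := hA u hu1
    have e : RCLike.re (inner ℂ u y) = ‖y‖ := by
      rw [hu, inner_smul_left, inner_self_eq_norm_sq_to_K, map_inv₀, Complex.conj_ofReal,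
        RCLike.re_to_complex]
      have : ((‖y‖ : ℂ))⁻¹ * (‖y‖ : ℂ) ^ 2 = (‖y‖ : ℂ) := by
        field_simp
      exact (congrArg Complex.re this).trans (Complex.ofReal_re _)
    have hwy : RCLike.re (inner ℂ w y) ≤ K := by
      rw [hy, hT, LinearMap.coe_toContinuousLinearMap', inner_mulVec]
      exact h w hw v hv
    have hd : RCLike.re (inner ℂ (u - w) y) ≤ 1 / 2 * ‖y‖ :=
      (re_inner_le_norm _ _).trans (mul_le_mul_of_nonneg_right hwu (norm_nonneg _))
    rw [inner_sub_left, map_sub, e] at hd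
    linarith
  have h2 : ‖T‖ ≤ 2 * K + ‖T‖ * (1 / 2) := by
    refine ContinuousLinearMap.opNorm_le_bound _ (by positivity) fun v => ?_
    by_cases hz : v = 0
    · rw [hz, map_zero, norm_zero, norm_zero, mul_zero]
    have hn : 0 < ‖v‖ := norm_pos_iff.2 hz
    set v' : EuclideanSpace ℂ B := (‖v‖⁻¹ : ℂ) • v with hv'
    obtain ⟨w, hw, hwv⟩ := hB v' (by
      rw [hv', norm_smul, norm_inv, Complex.norm_real, norm_norm, inv_mul_cancel₀ hn.ne'])
    have h3 : ‖T v'‖ ≤ 2 * K + ‖T‖ * (1 / 2) := by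
      have : T v' = T w + T (v' - w) := by rw [map_sub, add_sub_cancel]
      rw [this]
      exact (norm_add_le _ _).trans (add_le_add (h1 w hw)
        ((T.le_opNorm _).trans (mul_le_mul_of_nonneg_left hwv (norm_nonneg _))))
    have e : T v = (‖v‖ : ℂ) • T v' := by
      rw [← map_smul, hv', smul_smul, mul_inv_cancel₀ (by exact_mod_cast hn.ne'), one_smul]
    rw [e, norm_smul, Complex.norm_real, norm_norm, mul_comm]
    exact mul_le_mul_of_nonneg_right h3 (norm_nonneg _)
  linarith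

/-- The tail of a linear form in independent standard Gaussians. -/
theorem linear_tail {I : Type*} [Fintype I] (θ : I → ℝ) {K s : ℝ} (hK : 0 ≤ K) (hs : 0 < s)
    (hθ : ∑ i, θ i ^ 2 ≤ s) :
    (Measure.pi fun _ : I => gaussianReal 0 1).real {x | K ≤ ∑ i, θ i * x i} ≤
      Real.exp (-(K ^ 2) / (2 * s)) := by
  set μ := Measure.pi fun _ : I => gaussianReal 0 1
  set t := K / s with ht
  have he : ∀ x : I → ℝ, Real.exp (t * ∑ i, θ i * x i) = ∏ i, Real.exp (t * θ i * x i) := fun x =>
      by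
    rw [← Real.exp_sum, Finset.mul_sum]
    simp only [mul_assoc]
  have hint : Integrable (fun x : I → ℝ => Real.exp (t * ∑ i, θ i * x i)) μ := by
    simp only [he]
    exact Integrable.fintype_prod fun i => integrable_exp_mul_gaussianReal _
  refine (measure_ge_le_exp_mul_mgf K (div_nonneg hK hs.le) hint).trans ?_
  have hm : mgf (fun x : I → ℝ => ∑ i, θ i * x i) μ t =
      Real.exp (t ^ 2 / 2 * ∑ i, θ i ^ 2) := by
    rw [mgf]
    simp only [he]
    rw [integral_fintype_prod_eq_prod (𝕜 := ℝ) (μ := fun _ : I => gaussianReal 0 1)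
      (fun i y => Real.exp (t * θ i * y))]
    have : ∀ i, ∫ y, Real.exp (t * θ i * y) ∂gaussianReal 0 1 = Real.exp ((t * θ i) ^ 2 / 2) :=
      fun i => by
        have h := congrFun (mgf_id_gaussianReal (μ := 0) (v := 1)) (t * θ i)
        simpa [mgf] using h
    simp only [this]
    rw [← Real.exp_sum, Finset.mul_sum]
    congr 1
    exact Finset.sum_congr rfl fun i _ => by ring
  rw [hm, ← Real.exp_add]
  refine Real.exp_le_exp.2 ?_
  have : t ^ 2 / 2 * ∑ i, θ i ^ 2 ≤ t ^ 2 / 2 * s := mul_le_mul_of_nonneg_left hθ (by positivity)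
  have e : -t * K + t ^ 2 / 2 * s = -(K ^ 2) / (2 * s) := by rw [ht]; field_simp; ring
  linarith

/-- The tail of the norm of a matrix of linear forms. -/
theorem norm_tail [DecidableEq B] {I : Type*} [Fintype I] (M : (I → ℝ) → Matrix A B ℂ) {K s : ℝ}
    (hK : 0 ≤ K) (hs : 0 < s)
    (θ : EuclideanSpace ℂ A → EuclideanSpace ℂ B → I → ℝ)
    (hθ : ∀ u v x, (∑ a, ∑ b, wt u v a b * M x a b).re = ∑ i, θ u v i * x i)
    (hs' : ∀ u v, ‖u‖ ≤ 1 → ‖v‖ ≤ 1 → ∑ i, θ u v i ^ 2 ≤ s) :
    (Measure.pi fun _ : I => gaussianReal 0 1).real {x | 4 * K < ‖M x‖} ≤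
      5 ^ (2 * Fintype.card A + 2 * Fintype.card B) * Real.exp (-(K ^ 2) / (2 * s)) := by
  classical
  obtain ⟨NA, hNA, hA1, hA⟩ := exists_net A
  obtain ⟨NB, hNB, hB1, hB⟩ := exists_net B
  set μ := Measure.pi fun _ : I => gaussianReal 0 1
  have hsub : {x | 4 * K < ‖M x‖} ⊆ ⋃ p ∈ NA ×ˢ NB, {x | K ≤ ∑ i, θ p.1 p.2 i * x i} := by
    intro x hx
    by_contra h
    simp only [Set.mem_iUnion, not_exists, Finset.mem_product] at h
    refine not_le.2 (show 4 * K < ‖M x‖ from hx) (norm_le_of_net (M x) hA hB hK fun u hu v hv => ?_)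
    rw [hθ]
    exact (not_le.1 (h (u, v) ⟨hu, hv⟩)).le
  refine ((measureReal_mono hsub (measure_ne_top _ _)).trans
    (measureReal_biUnion_finset_le _ _)).trans ?_
  refine (Finset.sum_le_card_nsmul _ _ (Real.exp (-(K ^ 2) / (2 * s))) fun p hp => ?_).trans ?_
  · obtain ⟨hu, hv⟩ := Finset.mem_product.1 hp
    exact linear_tail _ hK hs (hs' _ _ (hA1 _ hu) (hB1 _ hv))
  · rw [nsmul_eq_mul, Finset.card_product, pow_add, Nat.cast_mul]
    refine mul_le_mul_of_nonneg_right (mul_le_mul ?_ ?_ (Nat.cast_nonneg _) (by positivity))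
      (Real.exp_pos _).le
    · exact_mod_cast hNA
    · exact_mod_cast hNB

/-- The coefficient of one Gaussian coordinate in the form of a Hermitian matrix. -/
noncomputable def hermCoef {k : ℕ} (u v : EuclideanSpace ℂ (Fin k)) (a b : Fin k) : ℝ :=
  if a = b then (wt u v a a).re
  else if a < b then ((wt u v a b).re + (wt u v b a).re) / Real.sqrt 2
  else ((wt u v a b).im - (wt u v b a).im) / Real.sqrt 2

theorem herm_form {k : ℕ} (u v : EuclideanSpace ℂ (Fin k)) (y : Fin k → Fin k → ℝ) :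
    (∑ a, ∑ b, wt u v a b * hermOf y a b).re = ∑ a, ∑ b, hermCoef u v a b * y a b := by
  simp only [Complex.re_sum]
  let P : Fin k → Fin k → ℝ := fun a b =>
    if a = b then (wt u v a a).re * y a a
    else if a < b then (wt u v a b).re * y a b / Real.sqrt 2
    else (wt u v a b).im * y a b / Real.sqrt 2
  let R : Fin k → Fin k → ℝ := fun a b =>
    if a = b then 0
    else if a < b then -((wt u v a b).im * y b a) / Real.sqrt 2
    else (wt u v a b).re * y b a / Real.sqrt 2
  have h1 : ∀ a b, (wt u v a b * hermOf y a b).re = P a b + R a b := by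
    intro a b
    simp only [P, R, hermOf, Matrix.of_apply]
    rcases eq_or_ne a b with rfl | hne
    · simp [Complex.mul_re]
    rw [if_neg hne, if_neg hne, if_neg hne]
    split_ifs <;> simp [Complex.mul_re, Complex.div_ofReal_re, Complex.div_ofReal_im] <;> ring
  have h2 : ∀ a b, P a b + R b a = hermCoef u v a b * y a b := by
    intro a b
    simp only [P, R, hermCoef]
    rcases lt_trichotomy a b with h | rfl | h
    · rw [if_neg h.ne, if_pos h, if_neg h.ne', if_neg h.not_gt, if_neg h.ne, if_pos h]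
      ring
    · simp
    · rw [if_neg h.ne', if_neg h.not_gt, if_neg h.ne, if_pos h, if_neg h.ne', if_neg h.not_gt]
      ring
  simp only [h1, ← h2, Finset.sum_add_distrib]
  rw [Finset.sum_comm (f := fun a b => R a b)]

theorem hermCoef_sq {k : ℕ} {u v : EuclideanSpace ℂ (Fin k)} (hu : ‖u‖ ≤ 1) (hv : ‖v‖ ≤ 1) :
    ∑ a, ∑ b, hermCoef u v a b ^ 2 ≤ 2 := by
  have h : ∀ a b, hermCoef u v a b ^ 2 ≤ ‖wt u v a b‖ ^ 2 + ‖wt u v b a‖ ^ 2 := by
    intro a b
    have h2 : Real.sqrt 2 ^ 2 = 2 := Real.sq_sqrt zero_le_two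
    simp only [hermCoef, Complex.sq_norm, Complex.normSq_apply]
    rcases eq_or_ne a b with rfl | hne
    · rw [if_pos rfl]; nlinarith [mul_self_nonneg (wt u v a a).re, mul_self_nonneg (wt u v a a).im]
    rw [if_neg hne]
    split_ifs <;> rw [div_pow, h2, div_le_iff₀ zero_lt_two] <;>
      nlinarith [mul_self_nonneg ((wt u v a b).re - (wt u v b a).re),
        mul_self_nonneg ((wt u v a b).im + (wt u v b a).im), mul_self_nonneg (wt u v a b).re,
        mul_self_nonneg (wt u v a b).im, mul_self_nonneg (wt u v b a).re,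
        mul_self_nonneg (wt u v b a).im]
  refine (Finset.sum_le_sum fun a _ => Finset.sum_le_sum fun b _ => h a b).trans ?_
  simp only [Finset.sum_add_distrib]
  rw [Finset.sum_comm (f := fun a b => ‖wt u v b a‖ ^ 2)]
  linarith [sum_wt_sq hu hv]

variable {Q : Type*} [Fintype Q] {n l : ℕ}

/-- The Gaussian rectangular matrix has bounded norm. -/
theorem matC_tail (hk : 0 < msize Q l) :
    (gaussLaw Q n l).real {x | 24 < ‖matC x‖} ≤ Real.exp (-(msize Q l : ℝ)) := by
  classical
  set k := msize Q l with hkdef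
  have hk' : (0 : ℝ) < k := Nat.cast_pos.2 hk
  set r : ℝ := Real.sqrt (2 * k) with hr
  let θ : EuclideanSpace ℂ (Q × Fin l) → EuclideanSpace ℂ (Fin (msize Q l)) → Coord Q n l → ℝ :=
    fun u v => Sum.elim (fun p => if p.2.2 then -(wt u v p.1 p.2.1).im / r
      else (wt u v p.1 p.2.1).re / r) fun _ => 0
  have hform : ∀ u v x, (∑ a, ∑ b, wt u v a b * matC x a b).re = ∑ i, θ u v i * x i := by
    intro u v x
    rw [Fintype.sum_sum_type, Fintype.sum_prod_type]
    simp only [θ, Sum.elim_inl, Sum.elim_inr, zero_mul, Finset.sum_const_zero, add_zero,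
      Complex.re_sum, Fintype.sum_prod_type, Fintype.univ_bool, Finset.mem_singleton,
      Bool.true_eq_false, not_false_eq_true, Finset.sum_insert, Finset.sum_singleton]
    refine Finset.sum_congr rfl fun a _ => Finset.sum_congr rfl fun b _ =>
      Finset.sum_congr rfl fun c _ => ?_
    simp only [matC, Matrix.of_apply]
    rw [Complex.mul_re, Complex.div_ofReal_re, Complex.div_ofReal_im]
    simp [r, k]
    ring
  have hsq : ∀ u v, ‖u‖ ≤ 1 → ‖v‖ ≤ 1 → ∑ i, θ u v i ^ 2 ≤ 1 / (2 * k) := by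
    intro u v hu hv
    rw [Fintype.sum_sum_type, Fintype.sum_prod_type]
    simp only [θ, Sum.elim_inl, Sum.elim_inr, zero_pow two_ne_zero, Finset.sum_const_zero,
      add_zero, Fintype.sum_prod_type, Fintype.univ_bool, Finset.mem_singleton,
      Bool.true_eq_false, not_false_eq_true, Finset.sum_insert, Finset.sum_singleton]
    have h := sum_wt_sq hu hv
    rw [Fintype.sum_prod_type] at h
    refine le_of_eq_of_le ?_ (div_le_div_of_nonneg_right h (by positivity : (0 : ℝ) ≤ 2 * k))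
    simp only [Finset.sum_div]
    refine Finset.sum_congr rfl fun a _ => Finset.sum_congr rfl fun b _ =>
      Finset.sum_congr rfl fun c _ => ?_
    have h2 : r ^ 2 = 2 * k := Real.sq_sqrt (by positivity)
    simp [Complex.sq_norm, Complex.normSq_apply, div_pow, h2]
    ring
  have h := norm_tail (fun x => matC x) (K := 6) (by norm_num) (by positivity) θ hform hsq
  norm_num only at h
  refine h.trans ?_
  have hcard : 2 * Fintype.card (Q × Fin l) + 2 * Fintype.card (Fin (msize Q l)) ≤ 4 * k := by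
    simp only [Fintype.card_prod, Fintype.card_fin]
    simp only [hkdef, msize]
    nlinarith
  calc (5 : ℝ) ^ (2 * Fintype.card (Q × Fin l) + 2 * Fintype.card (Fin (msize Q l))) *
        Real.exp (-36 / (2 * (1 / (2 * (k : ℝ)))))
      ≤ Real.exp 2 ^ (4 * k) * Real.exp (-36 * k) := by
        refine mul_le_mul ((pow_le_pow_right₀ (by norm_num) hcard).trans
          (pow_le_pow_left₀ (by norm_num) ?_ _)) (le_of_eq ?_) (Real.exp_pos _).le (by positivity)
        · rw [show (2 : ℝ) = 1 + 1 by norm_num, Real.exp_add]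
          nlinarith [Real.exp_one_gt_d9]
        · congr 1; field_simp
    _ ≤ Real.exp (-(k : ℝ)) := by
        rw [← Real.exp_nat_mul, ← Real.exp_add, Real.exp_le_exp]
        push_cast
        linarith

/-- The Gaussian Hermitian matrices have bounded norm. -/
theorem matS_tail (j : Fin n) (hk : 0 < msize Q l) :
    (gaussLaw Q n l).real {x | 24 < ‖matS x j‖} ≤ Real.exp (-(msize Q l : ℝ)) := by
  classical
  set k := msize Q l with hkdef
  have hk' : (0 : ℝ) < k := Nat.cast_pos.2 hk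
  set r : ℝ := Real.sqrt k with hr
  let θ : EuclideanSpace ℂ (Fin (msize Q l)) → EuclideanSpace ℂ (Fin (msize Q l)) →
      Coord Q n l → ℝ := fun u v => Sum.elim (fun _ => 0)
    fun p => if p.1 = j then hermCoef u v p.2.1 p.2.2 / r else 0
  have hform : ∀ u v x, (∑ a, ∑ b, wt u v a b * matS x j a b).re = ∑ i, θ u v i * x i := by
    intro u v x
    rw [Fintype.sum_sum_type]
    simp only [θ, Sum.elim_inl, Sum.elim_inr, zero_mul, Finset.sum_const_zero, zero_add,
      Fintype.sum_prod_type]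
    rw [Finset.sum_eq_single j (fun b _ hb => by simp [hb]) (fun h => absurd (Finset.mem_univ j) h)]
    simp only [if_true, div_mul_eq_mul_div]
    simp only [← Finset.sum_div]
    rw [← herm_form u v fun a b => x (Sum.inr (j, a, b)), ← Complex.div_ofReal_re]
    congr 1
    simp only [matS, Matrix.smul_apply, smul_eq_mul, Finset.sum_div]
    refine Finset.sum_congr rfl fun a _ => Finset.sum_congr rfl fun b _ => ?_
    show _ = _ / (Real.sqrt (msize Q l) : ℂ)
    ring
  have hsq : ∀ u v, ‖u‖ ≤ 1 → ‖v‖ ≤ 1 → ∑ i, θ u v i ^ 2 ≤ 2 / k := by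
    intro u v hu hv
    rw [Fintype.sum_sum_type]
    simp only [θ, Sum.elim_inl, Sum.elim_inr, zero_pow two_ne_zero, Finset.sum_const_zero,
      zero_add, Fintype.sum_prod_type]
    rw [Finset.sum_eq_single j (fun b _ hb => by simp [hb]) (fun h => absurd (Finset.mem_univ j) h)]
    simp only [if_true, div_pow, hr, Real.sq_sqrt hk'.le, ← Finset.sum_div]
    exact div_le_div_of_nonneg_right (hermCoef_sq hu hv) hk'.le
  have h := norm_tail (fun x => matS x j) (K := 6) (by norm_num) (by positivity) θ hform hsq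
  norm_num only at h
  refine h.trans ?_
  simp only [Fintype.card_fin]
  calc (5 : ℝ) ^ (2 * k + 2 * k) * Real.exp (-36 / (2 * (2 / (k : ℝ))))
      ≤ Real.exp 2 ^ (4 * k) * Real.exp (-9 * k) := by
        rw [← add_mul]
        refine mul_le_mul (pow_le_pow_left₀ (by norm_num) ?_ _) (le_of_eq ?_)
          (Real.exp_pos _).le (by positivity)
        · rw [show (2 : ℝ) = 1 + 1 by norm_num, Real.exp_add]
          nlinarith [Real.exp_one_gt_d9]
        · congr 1; field_simp; ring
    _ ≤ Real.exp (-(k : ℝ)) := by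
        rw [← Real.exp_nat_mul, ← Real.exp_add, Real.exp_le_exp]
        push_cast
        linarith

theorem norm_markMat_le [Group Q] [DecidableEq Q] (g : Q) :
    ‖(markMat g : Matrix (Q × Fin l) (Q × Fin l) ℂ)‖ ≤ 1 := by
  have h : (markMat g : Matrix (Q × Fin l) (Q × Fin l) ℂ)ᴴ * markMat g = 1 := by
    ext a b
    rw [Matrix.mul_apply, Finset.sum_eq_single (g * a.1, a.2)]
    · simp [markMat, Matrix.one_apply, Prod.ext_iff]
    · intro c _ hc
      have : ¬(c.1 = g * a.1 ∧ c.2 = a.2) := fun h' => hc (Prod.ext h'.1 h'.2)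
      simp [markMat, this]
    · exact fun h' => absurd (Finset.mem_univ _) h'
  have h1 : ‖(1 : Matrix (Q × Fin l) (Q × Fin l) ℂ)‖ ≤ 1 := by
    rw [← Matrix.l2_opNorm_toEuclideanCLM, map_one]
    exact ContinuousLinearMap.norm_id_le
  have h2 := Matrix.l2_opNorm_conjTranspose_mul_self (markMat g : Matrix (Q × Fin l) (Q × Fin l) ℂ)
  rw [h] at h2
  nlinarith [norm_nonneg (markMat g : Matrix (Q × Fin l) (Q × Fin l) ℂ)]

theorem norm_matX_le [Group Q] [DecidableEq Q] (g : Fin n → Q) (c : Fin n → ℝ)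
    (x : Coord Q n l → ℝ) (j : Fin n) (hC : ‖matC x‖ ≤ 24) (hS : ‖matS x j‖ ≤ 24) :
    ‖matX g c x j‖ ≤ 576 + 24 * Real.sqrt (c j) := by
  rw [matX]
  refine (norm_add_le _ _).trans (add_le_add ?_ ?_)
  · refine (Matrix.l2_opNorm_mul _ _).trans ?_
    have h1 : ‖(matC x)ᴴ * (markMat (g j) : Matrix (Q × Fin l) (Q × Fin l) ℂ)‖ ≤ 24 := by
      refine (Matrix.l2_opNorm_mul _ _).trans ?_
      rw [Matrix.l2_opNorm_conjTranspose]
      exact (mul_le_of_le_one_right (norm_nonneg _) (norm_markMat_le (g j))).trans hC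
    exact (mul_le_mul h1 hC (norm_nonneg _) (by norm_num)).trans_eq (by norm_num)
  · rw [norm_smul, Complex.norm_real, Real.norm_of_nonneg (Real.sqrt_nonneg _), mul_comm]
    exact mul_le_mul_of_nonneg_right hS (Real.sqrt_nonneg _)

end NormBound

open NormBound

/-- Block 7a. -/
theorem NormPin_holds : NormPin := by
  intro n c _
  refine ⟨577 + 24 * ∑ j, Real.sqrt (c j), by positivity, fun Q _ _ g => ?_⟩
  classical
  have hQ : 0 < Fintype.card Q := Fintype.card_pos
  have hlim : Tendsto (fun l : ℕ => ENNReal.ofReal (((n : ℝ) + 1) * Real.exp (-(l : ℝ))))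
      atTop (𝓝 0) := by
    rw [← ENNReal.ofReal_zero]
    refine ENNReal.tendsto_ofReal ?_
    simpa using (Real.tendsto_exp_atBot.comp
      (tendsto_neg_atTop_atBot.comp tendsto_natCast_atTop_atTop)).const_mul ((n : ℝ) + 1)
  refine tendsto_of_tendsto_of_tendsto_of_le_of_le' tendsto_const_nhds hlim
    (Eventually.of_forall fun _ => zero_le) ?_
  filter_upwards [eventually_ge_atTop 1] with l hl
  have hk : l ≤ msize Q l := by
    simp only [msize]
    exact Nat.le_mul_of_pos_left l (by positivity)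
  have : IsProbabilityMeasure (gaussLaw Q n l) := by unfold gaussLaw; infer_instance
  have hsub : {x : Coord Q n l → ℝ | ∃ j, 577 + 24 * ∑ j, Real.sqrt (c j) <
      ‖Matrix.toEuclideanCLM (𝕜 := ℂ) (matX g c x j)‖} ⊆
        {x | 24 < ‖matC x‖} ∪ ⋃ j ∈ (Finset.univ : Finset (Fin n)), {x | 24 < ‖matS x j‖} := by
    rintro x ⟨j, hj⟩
    by_contra h
    simp only [Set.mem_union, Set.mem_iUnion, Finset.mem_univ, exists_true_left, not_or,
      not_exists] at h
    have hle := norm_matX_le g c x j (not_lt.1 h.1) (not_lt.1 (h.2 j))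
    have := Finset.single_le_sum (fun i _ => Real.sqrt_nonneg (c i)) (Finset.mem_univ j)
    rw [Matrix.l2_opNorm_toEuclideanCLM] at hj
    linarith
  rw [← ofReal_measureReal (measure_ne_top _ _)]
  refine ENNReal.ofReal_le_ofReal (((measureReal_mono hsub (measure_ne_top _ _)).trans
    (measureReal_union_le _ _)).trans ((add_le_add le_rfl (measureReal_biUnion_finset_le _ _)).trans
      ?_))
  have he : Real.exp (-(msize Q l : ℝ)) ≤ Real.exp (-(l : ℝ)) :=
    Real.exp_le_exp.2 (neg_le_neg (Nat.cast_le.2 hk))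
  have hS := Finset.sum_le_card_nsmul (Finset.univ : Finset (Fin n))
    (fun j => (gaussLaw Q n l).real {x | 24 < ‖matS x j‖}) _
    fun j _ => (matS_tail j (by omega)).trans he
  rw [Finset.card_univ, Fintype.card_fin, nsmul_eq_mul] at hS
  linarith [(matC_tail (Q := Q) (n := n) (by omega : 0 < msize Q l)).trans he]

end Vale.Agent.P087
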