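import Vale.Agent.P087.Block1.Recursion

/-!
# The semicircular law of `genS` (P087, block 2)
-/

open scoped InnerProductSpace ENNReal

namespace Vale.Agent.P087

namespace Semicircle

open Classical

variable {G : Type} [Group G] {κ : Type}

lemma pow_eq_wordOp (a : κ) (p : ℕ) :
    (genS a : Fock G κ →L[ℂ] Fock G κ) ^ p
      = wordOp genOp (List.replicate p (Sum.inr a : G ⊕ κ)) := by
  simp [wordOp, genOp, List.prod_replicate]

lemma split_replicate {P : Type*} (x : P) (N : ℕ) (F : List P → P → List P → ℂ) :
    splitSum (List.replicate N x) F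
      = ∑ l ∈ Finset.range N, F (List.replicate l x) x (List.replicate (N - 1 - l) x) := by
  induction N generalizing F with
  | zero => simp [Block1.splitSum_nil]
  | succ N ih =>
    rw [List.replicate_succ, Block1.splitSum_cons, ih, Finset.sum_range_succ']
    simp only [List.replicate_succ, List.replicate_zero, Nat.add_sub_cancel, Nat.sub_zero]
    rw [add_comm]
    refine congrArg (· + _) (Finset.sum_congr rfl fun l hl => ?_)
    rw [show N - (l + 1) = N - 1 - l by omega]

/-- sums over the even indices below `2q + 1` -/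
lemma sum_even {f : ℕ → ℂ} (q : ℕ) (h : ∀ l, Odd l → f l = 0) :
    ∑ l ∈ Finset.range (2 * q + 1), f l = ∑ i ∈ Finset.range (q + 1), f (2 * i) := by
  induction q with
  | zero => simp
  | succ q ih =>
    rw [show 2 * (q + 1) + 1 = (2 * q + 1) + 1 + 1 by omega, Finset.sum_range_succ,
      Finset.sum_range_succ, Finset.sum_range_succ (n := q + 1), ih, h (2 * q + 1) ⟨q, rfl⟩,
      add_zero, show 2 * (q + 1) = 2 * q + 1 + 1 by omega]

lemma tau_pow (a : κ) (p : ℕ) :
    tau (vac G κ) ((genS a : Fock G κ →L[ℂ] Fock G κ) ^ p)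
      = if Even p then (catalan (p / 2) : ℂ) else 0 := by
  induction p using Nat.strong_induction_on with
  | _ p ih =>
    rcases p with _ | p
    · simp [tau, vac]
    have key : tau (vac G κ) ((genS a : Fock G κ →L[ℂ] Fock G κ) ^ (p + 1))
        = ∑ l ∈ Finset.range p, (if Even l then (catalan (l / 2) : ℂ) else 0)
            * if Even (p - 1 - l) then (catalan ((p - 1 - l) / 2) : ℂ) else 0 := by
      rw [pow_eq_wordOp, List.replicate_succ', (recursionPin_holds G κ _).2 a, split_replicate]
      refine Finset.sum_congr rfl fun l hl => ?_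
      rw [Finset.mem_range] at hl
      rw [if_pos rfl, ← pow_eq_wordOp, ← pow_eq_wordOp, ih l (by omega),
        ih (p - 1 - l) (by omega)]
    rw [key]
    rcases p with _ | m
    · simp
    simp only [Nat.add_sub_cancel]
    rcases Nat.even_or_odd m with ⟨q, rfl⟩ | hm
    · rw [if_pos ⟨q + 1, by omega⟩, show (q + q + 1 + 1) / 2 = q + 1 by omega,
        show q + q + 1 = 2 * q + 1 by omega,
        sum_even q fun l hl => by rw [if_neg (Nat.not_even_iff_odd.2 hl), zero_mul],
        catalan_succ, Fin.sum_univ_eq_sum_range fun i => catalan i * catalan (q - i)]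
      push_cast
      refine Finset.sum_congr rfl fun i hi => ?_
      rw [Finset.mem_range] at hi
      rw [if_pos ⟨i, by omega⟩, if_pos ⟨q - i, by omega⟩, show 2 * i / 2 = i by omega,
        show (q + q - 2 * i) / 2 = q - i by omega]
    · obtain ⟨q, rfl⟩ := hm
      rw [if_neg (by rintro ⟨r, hr⟩; omega)]
      refine Finset.sum_eq_zero fun l hl => ?_
      rw [Finset.mem_range] at hl
      rcases Nat.even_or_odd l with ⟨i, rfl⟩ | h
      · rw [if_neg (show ¬Even (2 * q + 1 - (i + i)) by rintro ⟨r, hr⟩; omega), mul_zero]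
      · rw [if_neg (Nat.not_even_iff_odd.2 h), zero_mul]

end Semicircle

/-- `genS a` has the standard semicircular law. -/
theorem isSemicircular_genS : ∀ (G : Type) [Group G] (κ : Type) (a : κ),
    IsSemicircular (vac G κ) (genS a) :=
  fun _ _ _ a p => Semicircle.tau_pow a p

end Vale.Agent.P087
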